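import Vale.Agent.P106.A.Mode

set_option linter.all false

open MeasureTheory Complex Set Filter
open scoped ENNReal NNReal ContDiff FourierTransform SchwartzMap ComplexConjugate Topology

namespace Vale.Agent.P106

open Vale.Agent.P117

theorem uu_int {α : ℝ} (hα : 0 ≤ α) (t : ℝ) {F : E3 → ℂ} (hF : Integrable F) :
    Integrable (fun ξ => sm α t ξ * F ξ) := by
  refine hF.bdd_mul (c := 1) (measurable_sm α t).aestronglyMeasurable ?_
  filter_upwards with ξ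
  exact norm_sm_le hα t ξ

theorem mode_uu {α : ℝ} (hα : 0 ≤ α) (t : ℝ) (f : 𝓢(E3, ℂ)) (m : ℤ) :
    mode m (uu α f t) = uu α (mode m (f : E3 → ℂ)) t := by
  have hF := fint_sch f
  have hm : Measurable (fun ξ : E3 => sm α t ξ * 𝓕 (f : E3 → ℂ) ξ) :=
    (measurable_sm α t).mul (continuous_fourier f.integrable).measurable
  have e1 : uu α f t = 𝓕⁻ (fun ξ => sm α t ξ * 𝓕 (f : E3 → ℂ) ξ) := by ext x; rfl
  have e2 : uu α (mode m (f : E3 → ℂ)) t = 𝓕⁻ (fun ξ => sm α t ξ * 𝓕 (mode m (f : E3 → ℂ)) ξ) := by ext x; rfl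
  rw [e1, e2, ← fourierInv_mode hm (uu_int hα t hF), fourier_mode f.continuous.measurable f.integrable]
  congr 1
  exact mode_radial m (fun r => bf α r * cexp (2 * Real.pi * I * (t * r : ℝ))) (𝓕 (f : E3 → ℂ))

theorem uu_mode_le {α : ℝ} (hα : 0 ≤ α) (f : 𝓢(E3, ℂ)) (m : ℤ) (t : ℝ) (x : E3) :
    ‖uu α (mode m (f : E3 → ℂ)) t x‖ ≤ ∫ ξ, ‖mode m (𝓕 (f : E3 → ℂ)) ξ‖ := by
  unfold uu
  refine (norm_fourierInv_le _ x).trans ?_
  have h1 := mode_fint f m
  rw [fourier_mode f.continuous.measurable f.integrable] at h1 ⊢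
  apply integral_mono_of_nonneg
  · filter_upwards with ξ using norm_nonneg _
  · exact h1.norm
  · filter_upwards with ξ
    rw [norm_mul]
    have := norm_sm_le hα t ξ
    have h2 : 0 ≤ ‖mode m (𝓕 (f : E3 → ℂ)) ξ‖ := norm_nonneg _
    nlinarith

theorem uu_mode_summable {α : ℝ} (hα : 0 ≤ α) (f : 𝓢(E3, ℂ)) (t : ℝ) (x : E3) :
    Summable (fun m : ℤ => uu α (mode m (f : E3 → ℂ)) t x) := by
  refine Summable.of_norm_bounded_eventually
    (summable_int_sq.mul_left (∫ ξ, ‖(Dth ^ 2) (𝓕 f : 𝓢(E3, ℂ)) ξ‖)) ?_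
  have h0 : ∀ᶠ m : ℤ in cofinite, m ≠ 0 := by
    rw [Filter.eventually_cofinite]
    simp
  filter_upwards [h0] with m hm
  have h1 : (0:ℝ) < |(m:ℝ)| := by positivity
  refine (uu_mode_le hα f m t x).trans ?_
  have h2 := mode_sq_int (𝓕 f : 𝓢(E3, ℂ)) m
  rw [SchwartzMap.fourier_coe] at h2
  rw [mul_one_div, ← sq_abs (m:ℝ), le_div_iff₀ (by positivity), mul_comm]
  exact h2

theorem uu_hasSum {α : ℝ} (hα : 0 ≤ α) (f : 𝓢(E3, ℂ)) (t : ℝ) (x : E3) :
    HasSum (fun m : ℤ => uu α (mode m (f : E3 → ℂ)) t x) (uu α f t x) := by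
  have hF := fint_sch f
  have hu : Continuous (fun x : E3 => uu α (f : E3 → ℂ) t x) := by
    have h1 := (cont_uu hα hF).comp (by fun_prop : Continuous (fun x : E3 => (t, x)))
    simpa only [Function.comp_def] using h1
  have e1 : ∀ m : ℤ, mode m (fun x : E3 => uu α (f : E3 → ℂ) t x) x = uu α (mode m (f : E3 → ℂ)) t x :=
    fun m => congrFun (mode_uu hα t f m) x
  have hs : Summable (fun m : ℤ => mode m (fun x : E3 => uu α (f : E3 → ℂ) t x) x) :=
    (uu_mode_summable hα f t x).congr (fun m => (e1 m).symm)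
  exact (mode_hasSum hu x hs).congr_fun (fun m => (e1 m).symm)

/-- the bound for all Schwartz functions with a loss of angular derivatives -/
theorem all_LS (hD2 : StD2) (hD3 : StD3) {P : ℝ} (hP : 2 < P) {α : ℝ} (hα : max (1 - 3 * (1 / P)) 0 < α) :
    ∃ (N : ℕ) (C : ℝ), 0 ≤ C ∧ ∀ f : 𝓢(E3, ℂ),
      eLpNorm (fun z : ℝ × E3 => uu α f z.1 z.2) (ENNReal.ofReal P) muS ≤ ENNReal.ofReal C *
        (eLpNorm f (ENNReal.ofReal P) volume + eLpNorm ((Dth ^ N) f : E3 → ℂ) (ENNReal.ofReal P) volume) := by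
  have hα0 : 0 < α := lt_of_le_of_lt (le_max_right _ _) hα
  have hp : (1:ℝ≥0∞) ≤ ENNReal.ofReal P := by
    rw [← ENNReal.ofReal_one]; exact ENNReal.ofReal_le_ofReal (by linarith)
  obtain ⟨K, C, hC, h⟩ := mode_LS hD2 hD3 hP hα
  have hS := summable_int_inv.mul_left C
  refine ⟨K + 2, (∑' m : ℤ, C * ((1 + |(m:ℝ)|) ^ 2)⁻¹) * 2 ^ (K + 2), by positivity, ?_⟩
  intro f
  have hf := adm_sch f
  have k1 : ∀ m : ℤ, AEStronglyMeasurable (fun z : ℝ × E3 => uu α (mode m (f : E3 → ℂ)) z.1 z.2) muS :=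
    fun m => (cont_uu hα0.le (mode_fint f m)).aestronglyMeasurable
  have k2 : ∀ z : ℝ × E3, HasSum (fun m : ℤ => uu α (mode m (f : E3 → ℂ)) z.1 z.2) (uu α f z.1 z.2) :=
    fun z => uu_hasSum hα0.le f z.1 z.2
  refine (eLpNorm_le_tsum_gen (μ := muS) (u := fun z : ℝ × E3 => uu α f z.1 z.2)
    (v := fun (m : ℤ) (z : ℝ × E3) => uu α (mode m (f : E3 → ℂ)) z.1 z.2) k1 k2 hp).trans ?_
  set p : ℝ≥0∞ := ENNReal.ofReal P with hpd
  set A := eLpNorm (f : E3 → ℂ) p volume + eLpNorm ((Dth ^ (K + 2)) f : E3 → ℂ) p volume with hA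
  have h3 : ∀ m : ℤ, eLpNorm (fun z : ℝ × E3 => uu α (mode m (f : E3 → ℂ)) z.1 z.2) p muS ≤
      ENNReal.ofReal (C * ((1 + |(m:ℝ)|) ^ 2)⁻¹) * (ENNReal.ofReal (2 ^ (K + 2)) * A) := by
    intro m
    have h4 := h m (mode m (f : E3 → ℂ)) (mode_adm f.continuous hf m) (mode_fint f m) (mode_equi m _)
    refine h4.trans ?_
    have h5 : C * (1 + |(m:ℝ)|) ^ K = C * ((1 + |(m:ℝ)|) ^ 2)⁻¹ * (1 + |(m:ℝ)|) ^ (K + 2) := by
      have : (1 + |(m:ℝ)|) ≠ 0 := by positivity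
      rw [pow_add]
      field_simp
    rw [h5, ENNReal.ofReal_mul (by positivity), mul_assoc]
    refine mul_le_mul_right ?_ _
    calc ENNReal.ofReal ((1 + |(m:ℝ)|) ^ (K + 2)) * eLpNorm (mode m (f : E3 → ℂ)) p volume ≤
        ENNReal.ofReal (2 ^ (K + 2) * (1 + |(m:ℝ)| ^ (K + 2))) * eLpNorm (mode m (f : E3 → ℂ)) p volume := by
          gcongr
          exact pow_le_aux _ (abs_nonneg _) _
      _ = ENNReal.ofReal (2 ^ (K + 2)) * (eLpNorm (mode m (f : E3 → ℂ)) p volume +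
          ENNReal.ofReal (|(m:ℝ)| ^ (K + 2)) * eLpNorm (mode m (f : E3 → ℂ)) p volume) := by
          rw [ENNReal.ofReal_mul (by positivity), ENNReal.ofReal_add (by positivity) (by positivity),
            ENNReal.ofReal_one]
          ring
      _ ≤ ENNReal.ofReal (2 ^ (K + 2)) * A := by
          rw [hA]
          gcongr
          · exact mode_eLpNorm f.continuous.measurable m hp
          · exact mode_pow_eLpNorm f m (K + 2) hp
  refine (ENNReal.tsum_le_tsum h3).trans (le_of_eq ?_)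
  rw [ENNReal.tsum_mul_right, ← ENNReal.ofReal_tsum_of_nonneg (fun m => by positivity) hS, ← mul_assoc,
    ← ENNReal.ofReal_mul (tsum_nonneg (fun m => by positivity))]

end Vale.Agent.P106
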