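import Vale.Agent.P106.A.Vop
import Vale.Agent.P106.Defs3
import Vale.Agent.P106.B.Strip

set_option linter.all false

open MeasureTheory Complex Set Filter
open scoped ENNReal NNReal ContDiff FourierTransform SchwartzMap ComplexConjugate Topology

namespace Vale.Agent.P106

open Vale.Agent.P117

/-! ## Joint continuity of the localized wave in the plane -/

theorem cont_mt2 {F : E2 → ℂ} (hF : Integrable F) {m : ℝ → E2 → ℂ} (hm : ∀ t, Measurable (m t)) {B : ℝ}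
    (hB : ∀ t ξ, ‖m t ξ‖ ≤ B) (hc : ∀ ξ, Continuous (fun t => m t ξ)) :
    Continuous (fun z : ℝ × E2 => 𝓕⁻ (fun ξ => m z.1 ξ * F ξ) z.2) := by
  simp_rw [Real.fourierInv_eq']
  apply continuous_of_dominated (bound := fun ξ => B * ‖F ξ‖)
  · intro z
    have h1 : AEStronglyMeasurable (fun ξ : E2 => cexp ((2 * Real.pi * inner ℝ ξ z.2 : ℝ) * I)) volume := by
      apply Continuous.aestronglyMeasurable
      fun_prop
    exact h1.smul ((hm z.1).aestronglyMeasurable.mul hF.1)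
  · intro z
    filter_upwards with ξ
    rw [norm_smul, norm_mul, Complex.norm_exp_ofReal_mul_I, one_mul]
    gcongr
    exact hB _ _
  · exact hF.norm.const_mul B
  · filter_upwards with ξ
    have h1 : Continuous (fun z : ℝ × E2 => m z.1 ξ) := (hc ξ).comp continuous_fst
    have h2 : Continuous (fun z : ℝ × E2 => cexp ((2 * Real.pi * inner ℝ ξ z.2 : ℝ) * I)) := by fun_prop
    have h3 : Continuous (fun z : ℝ × E2 => m z.1 ξ * F ξ) := h1.mul continuous_const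
    exact h2.smul h3

section
variable {X : E2 → ℂ} (hX : ContDiff ℝ ∞ X) (hXc : HasCompactSupport X)
include hX hXc

theorem XF_int {f : E2 → ℂ} (hf : Adm volume f) : Integrable (fun ξ => X ξ * 𝓕 f ξ) := by
  apply (hX.continuous.integrable_of_hasCompactSupport hXc).mul_bdd (c := ∫ v, ‖f v‖)
    (continuous_fourier hf.int).aestronglyMeasurable
  filter_upwards with x
  exact norm_fourier_le f x

theorem cont_wv {f : E2 → ℂ} (hf : Adm volume f) : Continuous (fun z : ℝ × E2 => wv X z.1 f z.2) := by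
  apply cont_mt2 (XF_int hX hXc hf) (m := fun t ξ => cexp (2 * Real.pi * I * (t * ‖ξ‖ : ℝ))) (B := 1)
  · intro t
    fun_prop
  · intro t ξ
    rw [norm_ph1]
  · intro ξ
    fun_prop

theorem P_eq {Λ T : ℝ} (hΛ : 0 < Λ) (hT : Λ ≤ T) {A : ℝ} {θ : ℝ → ℂ} (h : Bump 4 A θ)
    {f : E2 → ℂ} (hf : Adm volume f) (x : E2) :
    𝓕⁻ (fun ξ : E2 => (X ξ * mult Λ (thT Λ T θ) (‖ξ‖ ^ 2)) * 𝓕 f ξ) x = ∫ υ : ℝ, gT Λ θ T υ * wv X υ f x := by
  rw [Real.fourierInv_eq']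
  have hXF := XF_int hX hXc hf
  have e1 : ∀ ξ : E2, cexp ((2 * Real.pi * inner ℝ ξ x : ℝ) * I) • ((X ξ * mult Λ (thT Λ T θ) (‖ξ‖ ^ 2)) * 𝓕 f ξ) =
      ∫ υ : ℝ, gT Λ θ T υ * (cexp ((2 * Real.pi * inner ℝ ξ x : ℝ) * I) *
        (cexp (2 * Real.pi * I * (υ * ‖ξ‖ : ℝ)) * (X ξ * 𝓕 f ξ))) := by
    intro ξ
    have e2 := mw_eq h hΛ hT ‖ξ‖
    unfold mw at e2
    rw [e2, smul_eq_mul]
    have e3 : cexp ((2 * Real.pi * inner ℝ ξ x : ℝ) * I) * (X ξ * (∫ υ : ℝ, gT Λ θ T υ * cexp (2 * Real.pi * I * υ * ‖ξ‖)) * 𝓕 f ξ) =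
        (∫ υ : ℝ, gT Λ θ T υ * cexp (2 * Real.pi * I * υ * ‖ξ‖)) *
          (cexp ((2 * Real.pi * inner ℝ ξ x : ℝ) * I) * (X ξ * 𝓕 f ξ)) := by ring
    rw [e3, ← integral_mul_const]
    congr 1
    ext υ
    have : cexp (2 * Real.pi * I * ((υ * ‖ξ‖ : ℝ) : ℂ)) = cexp (2 * Real.pi * I * υ * ‖ξ‖) := by
      congr 1; push_cast; ring
    rw [this]
    ring
  simp_rw [e1]
  rw [integral_integral_swap]
  · congr 1
    ext υ
    rw [integral_const_mul]
    unfold wv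
    rw [Real.fourierInv_eq']
    rfl
  · have hI : Integrable (fun z : E2 × ℝ => (X z.1 * 𝓕 f z.1) * gT Λ θ T z.2) (volume.prod volume) :=
      hXF.mul_prod (integrable_gT (h.mono (by norm_num) le_rfl) hΛ hT)
    refine hI.mono ?_ ?_
    · apply Continuous.aestronglyMeasurable
      have h1 := continuous_gT h Λ T
      have h2 := hX.continuous
      have h3 := continuous_fourier hf.int
      unfold Function.uncurry
      fun_prop
    · filter_upwards with z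
      simp only [Function.uncurry, norm_mul]
      rw [norm_ph1, Complex.norm_exp_ofReal_mul_I, one_mul, one_mul, mul_comm]

theorem WT_split {Λ T : ℝ} (hΛ : 0 < Λ) (hT : Λ ≤ T) {A : ℝ} {θ : ℝ → ℂ} (h : Bump 4 A θ)
    {f : E2 → ℂ} (hf : Adm volume f) (x : E2) :
    cv (fun x : E2 => kw Λ θ T (‖x‖ ^ 2)) f x = (∫ υ : ℝ, gT Λ θ T υ * wv X υ f x) +
      cv (𝓕⁻ (fun ξ : E2 => (1 - X ξ) * mult Λ (thT Λ T θ) (‖ξ‖ ^ 2))) f x := by
  obtain ⟨A', h'⟩ := thT_bump h Λ T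
  have hmi : Integrable (fun ξ : E2 => mult Λ (thT Λ T θ) (‖ξ‖ ^ 2)) := integrable_mult (by simp) h' hΛ
  have e1 : (fun x : E2 => kw Λ θ T (‖x‖ ^ 2)) = 𝓕⁻ (fun ξ : E2 => mult Λ (thT Λ T θ) (‖ξ‖ ^ 2)) := by
    ext x
    rw [← k2_thT h hΛ, k2_eq_inv hΛ h']
  obtain ⟨B, hB⟩ := hXc.exists_bound_of_continuous hX.continuous
  have hXm : Integrable (fun ξ : E2 => X ξ * mult Λ (thT Λ T θ) (‖ξ‖ ^ 2)) := by
    refine hmi.bdd_mul (c := B) hX.continuous.aestronglyMeasurable ?_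
    filter_upwards with ξ using hB ξ
  have hX1 : Integrable (fun ξ : E2 => (1 - X ξ) * mult Λ (thT Λ T θ) (‖ξ‖ ^ 2)) := by
    have := hmi.sub hXm
    refine this.congr ?_
    filter_upwards with ξ
    simp only [Pi.sub_apply]
    ring
  have hFb : ∀ {G : E2 → ℂ}, Integrable G → Integrable (fun ξ => G ξ * 𝓕 f ξ) := by
    intro G hG
    apply hG.mul_bdd (c := ∫ v, ‖f v‖) (continuous_fourier hf.int).aestronglyMeasurable
    filter_upwards with x
    exact norm_fourier_le f x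
  rw [e1, cv_inv_eq hmi hf.int, cv_inv_eq hX1 hf.int, ← P_eq hX hXc hΛ hT h hf, ← fi_add (hFb hXm) (hFb hX1)]
  have e2 : (fun ξ : E2 => mult Λ (thT Λ T θ) (‖ξ‖ ^ 2) * 𝓕 f ξ) = fun ξ =>
      (X ξ * mult Λ (thT Λ T θ) (‖ξ‖ ^ 2)) * 𝓕 f ξ + ((1 - X ξ) * mult Λ (thT Λ T θ) (‖ξ‖ ^ 2)) * 𝓕 f ξ := by
    ext ξ; ring
  rw [e2]

end

end Vale.Agent.P106
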