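import Vale.Agent.P106.A.D4a

set_option linter.all false

open MeasureTheory Complex Set Filter
open scoped ENNReal NNReal ContDiff FourierTransform SchwartzMap ComplexConjugate Topology

namespace Vale.Agent.P106

open Vale.Agent.P117

/-- dyadic weight in the time variable -/
noncomputable def wN (Λ υ : ℝ) : ℝ≥0∞ :=
  ∑' n : ℕ, ENNReal.ofReal ((1/16) ^ n) * (Icc (-(4 * Λ * 2 ^ n)) (4 * Λ * 2 ^ n)).indicator (fun _ => (1:ℝ≥0∞)) υ

theorem measurable_wN (Λ : ℝ) : Measurable (wN Λ) := by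
  unfold wN
  apply Measurable.ennreal_tsum
  intro n
  exact (measurable_const.indicator measurableSet_Icc).const_mul _

theorem wN_ge {Λ T υ : ℝ} (hΛ : 1 ≤ Λ) (hT : T ∈ Icc Λ (2 * Λ)) :
    ENNReal.ofReal ((1 + |T - (|υ|)|) ^ (-(4:ℝ))) ≤ wN Λ υ := by
  have hex : ∃ n : ℕ, |υ| ≤ 4 * Λ * 2 ^ n := by
    obtain ⟨n, hn⟩ := pow_unbounded_of_one_lt (|υ|) (by norm_num : (1:ℝ) < 2)
    refine ⟨n, hn.le.trans ?_⟩
    have : (0:ℝ) < 2 ^ n := by positivity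
    nlinarith
  classical
  set n := Nat.find hex with hn
  have h1 : |υ| ≤ 4 * Λ * 2 ^ n := Nat.find_spec hex
  have h2 : ENNReal.ofReal ((1/16) ^ n) ≤ wN Λ υ := by
    unfold wN
    refine le_trans (le_of_eq ?_) (ENNReal.le_tsum n)
    have hm : υ ∈ Icc (-(4 * Λ * 2 ^ n)) (4 * Λ * 2 ^ n) := abs_le.1 h1
    rw [indicator_of_mem hm, mul_one]
  refine le_trans ?_ h2
  apply ENNReal.ofReal_le_ofReal
  rcases Nat.eq_zero_or_pos n with h0 | h0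
  · rw [h0, pow_zero]
    apply Real.rpow_le_one_of_one_le_of_nonpos
    · have := abs_nonneg (T - |υ|); linarith
    · norm_num
  · have h3 : ¬ |υ| ≤ 4 * Λ * 2 ^ (n - 1) := Nat.find_min hex (by omega)
    push Not at h3
    have h4 : (2:ℝ) ^ n = 2 ^ (n - 1) * 2 := by
      rw [← pow_succ, Nat.sub_add_cancel h0]
    have h5 : (1:ℝ) ≤ 2 ^ (n - 1) := one_le_pow₀ (by norm_num)
    have h6 : (2:ℝ) ^ n ≤ 1 + |T - (|υ|)| := by
      have h7 : |υ| - T ≤ |T - (|υ|)| := by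
        rw [abs_sub_comm]
        exact le_abs_self _
      have h8 := hT.2
      nlinarith
    have h9 : ((1:ℝ)/16) ^ n = ((2:ℝ) ^ n) ^ (-(4:ℝ)) := by
      rw [Real.rpow_neg (by positivity)]
      have : ((2:ℝ) ^ n) ^ (4:ℝ) = ((2:ℝ) ^ n) ^ 4 := by exact_mod_cast Real.rpow_natCast ((2:ℝ) ^ n) 4
      rw [this, ← pow_mul, mul_comm, pow_mul, ← inv_pow]
      norm_num
    rw [h9]
    exact Real.rpow_le_rpow_of_nonpos (by positivity) h6 (by norm_num)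

theorem swap3 {V : Type*} [MeasurableSpace V] {μ ν : Measure ℝ} [SFinite μ] [SFinite ν] {ρ : Measure V} [SFinite ρ]
    {a : ℝ × ℝ → ℝ≥0∞} (ha : Measurable a) {b : ℝ × V → ℝ≥0∞} (hb : Measurable b) :
    ∫⁻ T, ∫⁻ x, ∫⁻ υ, a (T, υ) * b (υ, x) ∂ν ∂ρ ∂μ = ∫⁻ υ, (∫⁻ T, a (T, υ) ∂μ) * ∫⁻ x, b (υ, x) ∂ρ ∂ν := by
  have hB : Measurable (fun υ => ∫⁻ x, b (υ, x) ∂ρ) := hb.lintegral_prod_right'
  have e1 : ∀ T, ∫⁻ x, ∫⁻ υ, a (T, υ) * b (υ, x) ∂ν ∂ρ = ∫⁻ υ, a (T, υ) * ∫⁻ x, b (υ, x) ∂ρ ∂ν := by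
    intro T
    rw [lintegral_lintegral_swap]
    · refine lintegral_congr fun υ => ?_
      have hb' : Measurable (fun x => b (υ, x)) := hb.comp measurable_prodMk_left
      rw [lintegral_const_mul _ hb']
    · apply Measurable.aemeasurable
      have h1 : Measurable (fun q : V × ℝ => a (T, q.2)) := ha.comp (measurable_const.prodMk measurable_snd)
      have h2 : Measurable (fun q : V × ℝ => b (q.2, q.1)) := hb.comp (measurable_snd.prodMk measurable_fst)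
      exact h1.mul h2
  simp_rw [e1]
  rw [lintegral_lintegral_swap]
  · refine lintegral_congr fun υ => ?_
    have ha' : Measurable (fun T => a (T, υ)) := ha.comp measurable_prodMk_right
    rw [lintegral_mul_const _ ha']
  · apply Measurable.aemeasurable
    exact ha.mul (hB.comp measurable_snd)

theorem jb_nu (υ : ℝ) : ∫⁻ T : ℝ, ENNReal.ofReal ((1 + |T - (|υ|)|) ^ (-(2:ℝ))) ≤ ENNReal.ofReal (∫ η, jb η) := by
  have h1 : ∀ T : ℝ, (1 + |T - (|υ|)|) ^ (-(2:ℝ)) = jb (T - |υ|) := fun T => rfl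
  simp_rw [h1]
  rw [← ofReal_integral_eq_lintegral_ofReal (integrable_jb.comp_sub_right _) (by
    filter_upwards with T using jb_nonneg _)]
  rw [integral_sub_right_eq_self (fun x => jb x)]

theorem gT_L1 : ∃ C : ℝ, 0 ≤ C ∧ ∀ (A : ℝ) (θ : ℝ → ℂ), Bump 2 A θ → ∀ Λ T : ℝ, 0 < Λ → Λ ≤ T →
    ∫⁻ υ, ‖gT Λ θ T υ‖ₑ ≤ ENNReal.ofReal (C * A) := by
  obtain ⟨C, hC, h1⟩ := gT_bound 2
  refine ⟨C * (2 * ∫ η, jb η), mul_nonneg hC (mul_nonneg zero_le_two jbJ_nonneg), ?_⟩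
  intro A θ h Λ T hΛ hT
  have hA := h.nonneg
  calc ∫⁻ υ, ‖gT Λ θ T υ‖ₑ ≤ ∫⁻ υ, ENNReal.ofReal (C * A * jT T υ) := by
        apply lintegral_mono
        intro υ
        simp only
        rw [← ofReal_norm]
        apply ENNReal.ofReal_le_ofReal
        have h2 := h1 A θ h Λ T υ hΛ hT
        push_cast at h2
        refine h2.trans ?_
        have := wt2_le_jT T υ
        gcongr
    _ = ENNReal.ofReal (∫ υ, C * A * jT T υ) := by
        rw [ofReal_integral_eq_lintegral_ofReal ((integrable_jT T).const_mul _)]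
        filter_upwards with υ
        have := jT_nonneg T υ
        simp only [Pi.zero_apply]
        positivity
    _ = _ := by
        rw [integral_const_mul, integral_jT]
        congr 1; ring

theorem gT_pt : ∃ C : ℝ, 0 ≤ C ∧ ∀ (A : ℝ) (θ : ℝ → ℂ), Bump 6 A θ → ∀ Λ T υ : ℝ, 1 ≤ Λ → T ∈ Icc Λ (2 * Λ) →
    ‖gT Λ θ T υ‖ₑ ≤ ENNReal.ofReal (C * A) * (ENNReal.ofReal ((1 + |T - (|υ|)|) ^ (-(2:ℝ))) * wN Λ υ) := by
  obtain ⟨C, hC, h1⟩ := gT_bound 6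
  refine ⟨C, hC, ?_⟩
  intro A θ h Λ T υ hΛ hT
  have hA := h.nonneg
  have h2 := h1 A θ h Λ T υ (by linarith) hT.1
  have h3 : (1 + |T - (|υ|)|) ^ (-((6:ℕ):ℝ)) = (1 + |T - (|υ|)|) ^ (-(2:ℝ)) * (1 + |T - (|υ|)|) ^ (-(4:ℝ)) := by
    rw [← Real.rpow_add (by positivity)]
    norm_num
  rw [h3] at h2
  rw [← ofReal_norm]
  refine (ENNReal.ofReal_le_ofReal h2).trans ?_
  rw [ENNReal.ofReal_mul (p := C * A) (by positivity), ENNReal.ofReal_mul (p := (1 + |T - (|υ|)|) ^ (-(2:ℝ))) (by positivity)]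
  exact mul_le_mul' le_rfl (mul_le_mul' le_rfl (wN_ge hΛ hT))

theorem wN_lint {Λ : ℝ} (hΛ : 1 ≤ Λ) {G : ℝ → ℝ≥0∞} (hG : Measurable G) {ε D : ℝ} (hε : 0 < ε) (hε1 : ε ≤ 1) (hD : 0 ≤ D)
    {N : ℝ≥0∞} (h : ∀ Y : ℝ, Λ ≤ Y → ∫⁻ υ in Icc (-Y) Y, G υ ≤ ENNReal.ofReal (D * Y ^ (1 + ε)) * N) :
    ∫⁻ υ, wN Λ υ * G υ ≤ ENNReal.ofReal (32 * (D * Λ ^ (1 + ε))) * N := by
  unfold wN
  have e1 : ∀ υ, (∑' n : ℕ, ENNReal.ofReal ((1/16) ^ n) * (Icc (-(4 * Λ * 2 ^ n)) (4 * Λ * 2 ^ n)).indicator (fun _ => (1:ℝ≥0∞)) υ) * G υ =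
      ∑' n : ℕ, ENNReal.ofReal ((1/16) ^ n) * (Icc (-(4 * Λ * 2 ^ n)) (4 * Λ * 2 ^ n)).indicator G υ := by
    intro υ
    rw [← ENNReal.tsum_mul_right]
    congr 1
    ext n
    by_cases hm : υ ∈ Icc (-(4 * Λ * 2 ^ n)) (4 * Λ * 2 ^ n)
    · rw [indicator_of_mem hm, indicator_of_mem hm, mul_one]
    · rw [indicator_of_notMem hm, indicator_of_notMem hm, mul_zero, zero_mul]
  simp_rw [e1]
  rw [lintegral_tsum (fun n => ((hG.indicator measurableSet_Icc).const_mul _).aemeasurable)]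
  have e2 : ∀ n : ℕ, ∫⁻ υ, ENNReal.ofReal ((1/16) ^ n) * (Icc (-(4 * Λ * 2 ^ n)) (4 * Λ * 2 ^ n)).indicator G υ ≤
      ENNReal.ofReal ((1/2) ^ n) * (ENNReal.ofReal (16 * (D * Λ ^ (1 + ε))) * N) := by
    intro n
    rw [lintegral_const_mul _ (hG.indicator measurableSet_Icc), lintegral_indicator measurableSet_Icc]
    have h2n : (1:ℝ) ≤ 2 ^ n := one_le_pow₀ (by norm_num)
    have hY : Λ ≤ 4 * Λ * 2 ^ n := by nlinarith
    refine (mul_le_mul' le_rfl (h _ hY)).trans ?_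
    rw [← mul_assoc, ← mul_assoc, ← ENNReal.ofReal_mul (by positivity), ← ENNReal.ofReal_mul (by positivity)]
    refine mul_le_mul' (ENNReal.ofReal_le_ofReal ?_) le_rfl
    have h3 : (4 * Λ * 2 ^ n) ^ (1 + ε) = Λ ^ (1 + ε) * (4 * 2 ^ n) ^ (1 + ε) := by
      rw [← Real.mul_rpow (by linarith) (by positivity)]
      congr 1; ring
    have h4 : ((4:ℝ) * 2 ^ n) ^ (1 + ε) ≤ (4 * 2 ^ n) ^ (2:ℝ) :=
      Real.rpow_le_rpow_of_exponent_le (by linarith) (by linarith)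
    have h5 : ((4:ℝ) * 2 ^ n) ^ (2:ℝ) = 16 * 4 ^ n := by
      have : ((4:ℝ) * 2 ^ n) ^ (2:ℝ) = (4 * 2 ^ n) ^ 2 := by exact_mod_cast Real.rpow_natCast ((4:ℝ) * 2 ^ n) 2
      rw [this, mul_pow, ← pow_mul, mul_comm n 2, pow_mul]
      norm_num
    have h6 : ((1:ℝ)/16) ^ n * 4 ^ n ≤ (1/2) ^ n := by
      rw [← mul_pow]
      exact pow_le_pow_left₀ (by norm_num) (by norm_num) n
    have h7 : 0 ≤ Λ ^ (1 + ε) := by positivity
    rw [h3]
    calc ((1:ℝ)/16) ^ n * (D * (Λ ^ (1 + ε) * (4 * 2 ^ n) ^ (1 + ε))) ≤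
        (1/16) ^ n * (D * (Λ ^ (1 + ε) * (16 * 4 ^ n))) := by
          rw [← h5]
          gcongr
      _ = ((1/16) ^ n * 4 ^ n) * (16 * (D * Λ ^ (1 + ε))) := by ring
      _ ≤ _ := by gcongr
  refine (ENNReal.tsum_le_tsum e2).trans (le_of_eq ?_)
  rw [ENNReal.tsum_mul_right, ← ENNReal.ofReal_tsum_of_nonneg (fun n => by positivity)
    (summable_geometric_of_lt_one (by norm_num) (by norm_num)), tsum_geometric_of_lt_one (by norm_num) (by norm_num),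
    ← mul_assoc, ← ENNReal.ofReal_mul (by norm_num)]
  congr 2
  ring

end Vale.Agent.P106
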