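import Vale.Agent.P106.A.D4b

set_option linter.all false

open MeasureTheory Complex Set Filter
open scoped ENNReal NNReal ContDiff FourierTransform SchwartzMap ComplexConjugate Topology

namespace Vale.Agent.P106

open Vale.Agent.P117

/-- the target strip -/
def strip (R : ℝ) : Set E2 := {x : E2 | x 1 ∈ Icc R (2 * R)}

theorem measurableSet_strip (R : ℝ) : MeasurableSet (strip R) := by
  have c : Continuous (fun x : E2 => x 1) := by fun_prop
  exact measurableSet_Icc.preimage c.measurable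

theorem sup_bound {X : E2 → ℂ} (hX : ContDiff ℝ ∞ X) (hXc : HasCompactSupport X) {p a : ℝ} (hp : 1 ≤ p)
    (hEW : EWp X p a) {ε : ℝ} (hε : 0 < ε) (hε1 : ε ≤ 1) :
    ∃ C : ℝ, 0 ≤ C ∧ ∀ (Λ R S σ A : ℝ) (θ : ℝ → ℂ), 1 ≤ Λ → 0 < R → 0 < S → (σ = 1 ∨ σ = -1) → Bump 6 A θ →
    ∀ f : E2 → ℂ, Adm volume f → (∀ y, f y ≠ 0 → σ * y 1 ∈ Icc S (2 * S)) →
    ∫⁻ T in Icc Λ (2 * Λ), ∫⁻ x in strip R, ‖∫ υ : ℝ, gT Λ θ T υ * wv X υ f x‖ₑ ^ p ≤
      ENNReal.ofReal (C * A ^ p * (Λ ^ (1 + ε) * min 1 (R / S) ^ a)) * ∫⁻ x, ‖f x‖ₑ ^ p := by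
  obtain ⟨C1, hC1, h1⟩ := hEW ε hε
  obtain ⟨C2, hC2, h2⟩ := gT_L1
  obtain ⟨C3, hC3, h3⟩ := gT_pt
  set J : ℝ := ∫ η, jb η with hJ
  have hJ0 : 0 ≤ J := jbJ_nonneg
  refine ⟨C2 ^ (p - 1) * C3 * J * (32 * C1), by positivity, ?_⟩
  intro Λ R S σ A θ hΛ hR hS hσ hθ f hf hfs
  have hA := hθ.nonneg
  have hp0 : 0 < p := by linarith
  have hcw := cont_wv hX hXc hf
  -- the function of (υ, x)
  set b : ℝ × E2 → ℝ≥0∞ := fun z => wN Λ z.1 * ‖wv X z.1 f z.2‖ₑ ^ p with hb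
  have hbm : Measurable b := by
    have m1 : Measurable (fun z : ℝ × E2 => ‖wv X z.1 f z.2‖ₑ ^ p) := hcw.measurable.enorm.pow_const p
    exact ((measurable_wN Λ).comp measurable_fst).mul m1
  set a' : ℝ × ℝ → ℝ≥0∞ := fun z => ENNReal.ofReal ((1 + |z.1 - (|z.2|)|) ^ (-(2:ℝ))) with ha'
  have ham : Measurable a' := by
    simp only [ha']
    fun_prop
  have hpt : ∀ T ∈ Icc Λ (2 * Λ), ∀ x : E2, ‖∫ υ : ℝ, gT Λ θ T υ * wv X υ f x‖ₑ ^ p ≤
      ENNReal.ofReal ((C2 * A) ^ (p - 1) * (C3 * A)) * ∫⁻ υ, a' (T, υ) * b (υ, x) := by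
    intro T hT x
    have hg := (continuous_gT hθ Λ T).measurable
    have hw : Measurable (fun υ => wv X υ f x) := (hcw.comp (by fun_prop : Continuous (fun υ : ℝ => (υ, x)))).measurable
    calc ‖∫ υ : ℝ, gT Λ θ T υ * wv X υ f x‖ₑ ^ p ≤ (∫⁻ υ, ‖gT Λ θ T υ‖ₑ * ‖wv X υ f x‖ₑ) ^ p := by
          gcongr
          refine (enorm_integral_le_lintegral_enorm _).trans_eq ?_
          refine lintegral_congr fun υ => ?_
          rw [enorm_mul]
      _ ≤ (∫⁻ υ, ‖gT Λ θ T υ‖ₑ) ^ (p - 1) * ∫⁻ υ, ‖gT Λ θ T υ‖ₑ * ‖wv X υ f x‖ₑ ^ p :=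
          holder_pow volume hg.enorm.aemeasurable hw.enorm.aemeasurable hp
      _ ≤ ENNReal.ofReal (C2 * A) ^ (p - 1) * ∫⁻ υ, ENNReal.ofReal (C3 * A) * (a' (T, υ) * b (υ, x)) := by
          refine mul_le_mul' (ENNReal.rpow_le_rpow (h2 A θ (hθ.mono (by norm_num) le_rfl) Λ T (by linarith) hT.1) (by linarith)) ?_
          apply lintegral_mono
          intro υ
          simp only [ha', hb]
          refine (mul_le_mul' (h3 A θ hθ Λ T υ hΛ hT) le_rfl).trans (le_of_eq ?_)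
          ring
      _ = _ := by
          rw [lintegral_const_mul' _ _ ENNReal.ofReal_ne_top, ← mul_assoc,
            ENNReal.ofReal_rpow_of_nonneg (by positivity) (by linarith), ← ENNReal.ofReal_mul (by positivity)]
  have hms := measurableSet_strip R
  calc ∫⁻ T in Icc Λ (2 * Λ), ∫⁻ x in strip R, ‖∫ υ : ℝ, gT Λ θ T υ * wv X υ f x‖ₑ ^ p ≤
        ∫⁻ T in Icc Λ (2 * Λ), ∫⁻ x in strip R, ENNReal.ofReal ((C2 * A) ^ (p - 1) * (C3 * A)) * ∫⁻ υ, a' (T, υ) * b (υ, x) := by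
        apply setLIntegral_mono' measurableSet_Icc
        intro T hT
        apply lintegral_mono
        intro x
        exact hpt T hT x
    _ = ENNReal.ofReal ((C2 * A) ^ (p - 1) * (C3 * A)) *
        ∫⁻ T in Icc Λ (2 * Λ), ∫⁻ x in strip R, ∫⁻ υ, a' (T, υ) * b (υ, x) := by
        rw [← lintegral_const_mul' _ _ ENNReal.ofReal_ne_top]
        refine lintegral_congr fun T => ?_
        rw [lintegral_const_mul' _ _ ENNReal.ofReal_ne_top]
    _ = ENNReal.ofReal ((C2 * A) ^ (p - 1) * (C3 * A)) *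
        ∫⁻ υ, (∫⁻ T in Icc Λ (2 * Λ), a' (T, υ)) * ∫⁻ x in strip R, b (υ, x) := by
        rw [swap3 ham hbm]
    _ ≤ ENNReal.ofReal ((C2 * A) ^ (p - 1) * (C3 * A)) *
        ∫⁻ υ, ENNReal.ofReal J * ∫⁻ x in strip R, b (υ, x) := by
        refine mul_le_mul' le_rfl (lintegral_mono fun υ => mul_le_mul' ?_ le_rfl)
        refine (lintegral_mono' Measure.restrict_le_self le_rfl).trans ?_
        exact jb_nu υ
    _ = ENNReal.ofReal ((C2 * A) ^ (p - 1) * (C3 * A)) * (ENNReal.ofReal J *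
        ∫⁻ υ, wN Λ υ * ∫⁻ x in strip R, ‖wv X υ f x‖ₑ ^ p) := by
        rw [lintegral_const_mul' _ _ ENNReal.ofReal_ne_top]
        congr 2
        refine lintegral_congr fun υ => ?_
        simp only [hb]
        have m1 : Measurable (fun x : E2 => ‖wv X υ f x‖ₑ ^ p) :=
          (hcw.comp (by fun_prop : Continuous (fun x : E2 => (υ, x)))).measurable.enorm.pow_const p
        rw [lintegral_const_mul _ m1]
    _ ≤ ENNReal.ofReal ((C2 * A) ^ (p - 1) * (C3 * A)) * (ENNReal.ofReal J *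
        (ENNReal.ofReal (32 * (C1 * min 1 (R / S) ^ a * Λ ^ (1 + ε))) * ∫⁻ x, ‖f x‖ₑ ^ p)) := by
        refine mul_le_mul' le_rfl (mul_le_mul' le_rfl ?_)
        have hG : Measurable (fun υ => ∫⁻ x in strip R, ‖wv X υ f x‖ₑ ^ p) :=
          (hcw.measurable.enorm.pow_const p).lintegral_prod_right'
        have hm0 : 0 ≤ min 1 (R / S) ^ a := Real.rpow_nonneg (by positivity) _
        apply wN_lint hΛ hG hε hε1 (by positivity)
        intro Y hY
        have h4 := h1 Y R S σ (by linarith) hR hS hσ f hf hfs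
        refine h4.trans (le_of_eq ?_)
        congr 2
        ring
    _ = _ := by
        have hm0 : 0 ≤ min 1 (R / S) ^ a := Real.rpow_nonneg (by positivity) _
        rw [← mul_assoc, ← mul_assoc, ← ENNReal.ofReal_mul (by positivity), ← ENNReal.ofReal_mul (by positivity)]
        congr 2
        have e5 : (C2 * A) ^ (p - 1) * (C3 * A) = C2 ^ (p - 1) * C3 * A ^ p := by
          rcases hA.eq_or_lt with h0 | h0
          · rw [← h0, Real.zero_rpow hp0.ne']; ring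
          · rw [Real.mul_rpow hC2 hA]
            have : A ^ p = A ^ (p - 1) * A := by
              rw [← Real.rpow_add_one h0.ne']; congr 1; ring
            rw [this]; ring
        rw [e5]
        ring

end Vale.Agent.P106
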