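import Vale.Agent.P106.A.D4c

set_option linter.all false

open MeasureTheory Complex Set Filter
open scoped ENNReal NNReal ContDiff FourierTransform SchwartzMap ComplexConjugate Topology

namespace Vale.Agent.P106

open Vale.Agent.P117

theorem decay3_L1 : ∃ C0 : ℝ, 0 ≤ C0 ∧ ∀ (K : E2 → ℂ) (B : ℝ), 0 ≤ B → (∀ w, (1 + ‖w‖) ^ 3 * ‖K w‖ ≤ B) →
    ∫⁻ w, ‖K w‖ₑ ≤ ENNReal.ofReal (C0 * B) := by
  have hI : Integrable (fun x : E2 => (1 + ‖x‖) ^ (-(3 : ℝ))) := by
    apply integrable_one_add_norm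
    simp only [finrank_euclideanSpace, Fintype.card_fin, Nat.cast_ofNat]
    norm_num
  refine ⟨∫ x : E2, (1 + ‖x‖) ^ (-(3 : ℝ)), integral_nonneg fun x => by positivity, ?_⟩
  intro K B hB h
  calc ∫⁻ w, ‖K w‖ₑ ≤ ∫⁻ w : E2, ENNReal.ofReal (B * (1 + ‖w‖) ^ (-(3 : ℝ))) := by
        apply lintegral_mono
        intro w
        simp only
        rw [← ofReal_norm]
        apply ENNReal.ofReal_le_ofReal
        have h1 := h w
        have h2 : (1 + ‖w‖) ^ (3:ℝ) = (1 + ‖w‖) ^ 3 := by exact_mod_cast Real.rpow_natCast (1 + ‖w‖) 3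
        rw [Real.rpow_neg (by positivity), ← div_eq_mul_inv, le_div_iff₀ (by positivity), h2]
        linarith
    _ = ENNReal.ofReal (∫ w : E2, B * (1 + ‖w‖) ^ (-(3 : ℝ))) := by
        rw [ofReal_integral_eq_lintegral_ofReal (hI.const_mul _)]
        filter_upwards with w
        simp only [Pi.zero_apply]
        positivity
    _ = _ := by
        rw [integral_const_mul]
        congr 1; ring

theorem decay3_line (K : E2 → ℂ) {B : ℝ} (hB : 0 ≤ B) (h : ∀ w, (1 + ‖w‖) ^ 3 * ‖K w‖ ≤ B) {S b : ℝ} (hS : 0 < S)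
    (hb : 4 / 5 * S ≤ |b|) : ∫⁻ a : ℝ, ‖K (mk2 a b)‖ₑ ≤ ENNReal.ofReal ((2 * B * ∫ η, jb η) / S) := by
  have hJ := jbJ_nonneg
  calc ∫⁻ a : ℝ, ‖K (mk2 a b)‖ₑ ≤ ∫⁻ a : ℝ, ENNReal.ofReal (2 * B / S * jb a) := by
        apply lintegral_mono
        intro a
        simp only
        rw [← ofReal_norm]
        apply ENNReal.ofReal_le_ofReal
        have h1 := h (mk2 a b)
        have ha : |a| ≤ ‖mk2 a b‖ := by
          have := EuclideanSpace.norm_eq (mk2 a b)
          rw [this]
          apply Real.le_sqrt_of_sq_le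
          simp [Fin.sum_univ_two, mk2]
          positivity
        have hb' : |b| ≤ ‖mk2 a b‖ := by
          have := EuclideanSpace.norm_eq (mk2 a b)
          rw [this]
          apply Real.le_sqrt_of_sq_le
          simp [Fin.sum_univ_two, mk2]
          positivity
        have hj : jb a = ((1 + |a|) ^ 2)⁻¹ := by
          unfold jb
          rw [Real.rpow_neg (by positivity)]
          congr 1
          exact_mod_cast Real.rpow_natCast (1 + |a|) 2
        rw [hj, ← div_eq_mul_inv, le_div_iff₀ (by positivity), le_div_iff₀ hS]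
        have h0 := norm_nonneg (K (mk2 a b))
        have ha0 := abs_nonneg a
        have h2 : (1 + |a|) ^ 2 * (1 / 2 * S) ≤ (1 + ‖mk2 a b‖) ^ 3 := by
          calc (1 + |a|) ^ 2 * (1 / 2 * S) ≤ (1 + ‖mk2 a b‖) ^ 2 * (1 + ‖mk2 a b‖) := by
                gcongr
                linarith
            _ = _ := by ring
        nlinarith [mul_le_mul_of_nonneg_right h2 h0]
    _ = ENNReal.ofReal (∫ a : ℝ, 2 * B / S * jb a) := by
        rw [ofReal_integral_eq_lintegral_ofReal (integrable_jb.const_mul _)]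
        filter_upwards with w
        have := jb_nonneg w
        simp only [Pi.zero_apply]
        positivity
    _ = _ := by
        rw [integral_const_mul]
        congr 1; ring

theorem ns_bound {p a : ℝ} (hp : 1 ≤ p) (ha : 0 ≤ a) (ha1 : a ≤ 1) :
    ∃ C : ℝ, 0 ≤ C ∧ ∀ (K : E2 → ℂ) (B : ℝ), Continuous K → 0 ≤ B → (∀ w, (1 + ‖w‖) ^ 3 * ‖K w‖ ≤ B) →
    ∀ (R S σ : ℝ), 0 < R → 0 < S → (σ = 1 ∨ σ = -1) →
    ∀ f : E2 → ℂ, Adm volume f → (∀ y, f y ≠ 0 → σ * y 1 ∈ Icc S (2 * S)) →
    ∫⁻ x in strip R, ‖cv K f x‖ₑ ^ p ≤ ENNReal.ofReal (C * B ^ p * min 1 (R / S) ^ a) * ∫⁻ x, ‖f x‖ₑ ^ p := by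
  obtain ⟨C0, hC0, h0⟩ := decay3_L1
  set J : ℝ := ∫ η, jb η with hJ
  have hJ0 : 0 ≤ J := jbJ_nonneg
  have hp0 : 0 < p := by linarith
  refine ⟨10 * C0 ^ p + (8 * J) ^ p, by positivity, ?_⟩
  intro K B hK hB hd R S σ hR hS hσ f hf hfs
  have hq : 0 < min 1 (R / S) := by positivity
  have hq1 : min 1 (R / S) ≤ 1 := min_le_left _ _
  have hqa : min 1 (R / S) ≤ min 1 (R / S) ^ a := by
    conv_lhs => rw [← Real.rpow_one (min 1 (R / S))]
    exact Real.rpow_le_rpow_of_exponent_ge hq hq1 ha1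
  by_cases hc : 10 * R ≤ S
  · have h1 := schur_strip hK.measurable (B := 2 * B * J) (by positivity) hR hc (fun b hb => decay3_line K hB hd hS hb)
      hf.meas (fun y hy => by
        have := hfs y hy
        rcases hσ with h | h
        · rw [h, one_mul] at this
          rw [abs_of_pos (by linarith [this.1])]
          exact this
        · rw [h] at this
          have h2 : y 1 < 0 := by linarith [this.1]
          rw [abs_of_neg h2]
          constructor <;> linarith [this.1, this.2]) hp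
    refine (lintegral_mono_set ?_).trans (h1.trans ?_)
    · intro x hx
      have hx' : x 1 ∈ Icc R (2 * R) := hx
      have : |x 1| ≤ 2 * R := by rw [abs_of_pos (by linarith [hx'.1])]; exact hx'.2
      exact this
    · refine mul_le_mul' (ENNReal.ofReal_le_ofReal ?_) le_rfl
      have e1 : min 1 (R / S) = R / S := min_eq_right (by rw [div_le_one hS]; linarith)
      rw [e1] at hqa ⊢
      have e2 : (4 * (2 * B * J)) ^ p = (8 * J) ^ p * B ^ p := by
        rw [← Real.mul_rpow (by positivity) hB]; congr 1; ring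
      rw [e2]
      have h3 : 0 ≤ 10 * C0 ^ p := by positivity
      calc (8 * J) ^ p * B ^ p * (R / S) ≤ (10 * C0 ^ p + (8 * J) ^ p) * B ^ p * (R / S) := by
            gcongr; linarith
        _ ≤ _ := by gcongr
  · have h1 := young_lintegral hK.measurable.enorm hf.meas.enorm hp
    have h2 : ∫⁻ x in strip R, ‖cv K f x‖ₑ ^ p ≤ (∫⁻ x, ‖K x‖ₑ) ^ p * ∫⁻ x, ‖f x‖ₑ ^ p := by
      refine (lintegral_mono' Measure.restrict_le_self le_rfl).trans ?_
      refine le_trans (lintegral_mono fun x => ?_) h1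
      exact ENNReal.rpow_le_rpow (enorm_cv_le K f x) hp0.le
    refine h2.trans ?_
    refine mul_le_mul' ?_ le_rfl
    refine (ENNReal.rpow_le_rpow (h0 K B hB hd) hp0.le).trans ?_
    rw [ENNReal.ofReal_rpow_of_nonneg (by positivity) hp0.le]
    apply ENNReal.ofReal_le_ofReal
    rw [Real.mul_rpow hC0 hB]
    push Not at hc
    have h3 : 1 / 10 ≤ min 1 (R / S) := by
      apply le_min (by norm_num)
      rw [le_div_iff₀ hS]
      linarith
    have h4 : 1 ≤ 10 * min 1 (R / S) ^ a := by linarith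
    have h5 : 0 ≤ (8 * J) ^ p := by positivity
    calc C0 ^ p * B ^ p = C0 ^ p * B ^ p * 1 := by ring
      _ ≤ C0 ^ p * B ^ p * (10 * min 1 (R / S) ^ a) := by gcongr
      _ = (10 * C0 ^ p) * B ^ p * min 1 (R / S) ^ a := by ring
      _ ≤ _ := by gcongr; linarith

end Vale.Agent.P106
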