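import Vale.Agent.P106.A.D4d

set_option linter.all false

open MeasureTheory Complex Set Filter
open scoped ENNReal NNReal ContDiff FourierTransform SchwartzMap ComplexConjugate Topology

namespace Vale.Agent.P106

open Vale.Agent.P117

/-- bound of the localized operator from the strip to the strip -/
theorem W_bound {X : E2 → ℂ} (hX : ContDiff ℝ ∞ X) (hXc : HasCompactSupport X)
    (hX1 : ∀ ξ, 1/20 ≤ ‖ξ‖ → ‖ξ‖ ≤ 10 → X ξ = 1) (hNS : StNS) {p a : ℝ} (hp : 1 ≤ p) (ha : 0 ≤ a) (ha1 : a ≤ 1)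
    (hEW : EWp X p a) {ε : ℝ} (hε : 0 < ε) (hε1 : ε ≤ 1) :
    ∃ (M : ℕ) (C : ℝ), 6 ≤ M ∧ 0 ≤ C ∧ ∀ (Λ R S σ A : ℝ) (θ : ℝ → ℂ), 1 ≤ Λ → 0 < R → 0 < S → (σ = 1 ∨ σ = -1) → Bump M A θ →
    ∀ f : E2 → ℂ, Adm volume f → (∀ y, f y ≠ 0 → σ * y 1 ∈ Icc S (2 * S)) →
    ∫⁻ T in Icc Λ (2 * Λ), ∫⁻ x in strip R, ‖cv (fun x : E2 => kw Λ θ T (‖x‖ ^ 2)) f x‖ₑ ^ p ≤
      ENNReal.ofReal (C * A ^ p * (Λ ^ (1 + ε) * min 1 (R / S) ^ a)) * ∫⁻ x, ‖f x‖ₑ ^ p := by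
  obtain ⟨C1, hC1, h1⟩ := sup_bound hX hXc hp hEW hε hε1
  obtain ⟨M0, C2, hC2, h2⟩ := hNS X hX hXc hX1
  obtain ⟨C3, hC3, h3⟩ := ns_bound hp ha ha1
  have hp0 : 0 < p := by linarith
  refine ⟨max 6 M0, 2 ^ (p - 1) * (C1 + C3 * C2 ^ p), le_max_left _ _, by positivity, ?_⟩
  intro Λ R S σ A θ hΛ hR hS hσ hθ f hf hfs
  have hA := hθ.nonneg
  have hm0 : 0 ≤ min 1 (R / S) ^ a := Real.rpow_nonneg (by positivity) _
  have hθ6 : Bump 6 A θ := hθ.mono (le_max_left _ _) le_rfl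
  have hθ0 : Bump M0 A θ := hθ.mono (le_max_right _ _) le_rfl
  have hΛ0 : 0 < Λ := by linarith
  have hcw := cont_wv hX hXc hf
  set Nf := ∫⁻ x, ‖f x‖ₑ ^ p with hNf
  -- for each time
  have hT : ∀ T ∈ Icc Λ (2 * Λ), ∫⁻ x in strip R, ‖cv (fun x : E2 => kw Λ θ T (‖x‖ ^ 2)) f x‖ₑ ^ p ≤
      ENNReal.ofReal (2 ^ (p - 1)) * (∫⁻ x in strip R, ‖∫ υ : ℝ, gT Λ θ T υ * wv X υ f x‖ₑ ^ p) +
      ENNReal.ofReal (2 ^ (p - 1) * (C3 * (C2 * A) ^ p * min 1 (R / S) ^ a)) * Nf := by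
    intro T hT
    set K := 𝓕⁻ (fun ξ : E2 => (1 - X ξ) * mult Λ (thT Λ T θ) (‖ξ‖ ^ 2)) with hK
    obtain ⟨k1, k2⟩ := h2 Λ T A θ hΛ hT hθ0
    have kc : Continuous K := continuous_fourierInv k1
    have h4 := h3 K (C2 * A) kc (by positivity) k2 R S σ hR hS hσ f hf hfs
    have hKm : Measurable (cv K f) := (continuous_cv kc (C := C2 * A) (fun x => by
      have := k2 x
      have h5 : (1:ℝ) ≤ (1 + ‖x‖) ^ 3 := one_le_pow₀ (by have := norm_nonneg x; linarith)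
      have h6 := norm_nonneg (K x)
      nlinarith) hf.int).measurable
    calc ∫⁻ x in strip R, ‖cv (fun x : E2 => kw Λ θ T (‖x‖ ^ 2)) f x‖ₑ ^ p ≤
          ∫⁻ x in strip R, (ENNReal.ofReal (2 ^ (p - 1)) * ‖∫ υ : ℝ, gT Λ θ T υ * wv X υ f x‖ₑ ^ p +
            ENNReal.ofReal (2 ^ (p - 1)) * ‖cv K f x‖ₑ ^ p) := by
          apply lintegral_mono
          intro x
          simp only
          rw [WT_split hX hXc hΛ0 hT.1 (hθ6.mono (by norm_num) le_rfl) hf x]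
          have e1 : ENNReal.ofReal (2 ^ (p - 1)) = (2:ℝ≥0∞) ^ (p - 1) := by
            rw [← ENNReal.ofReal_rpow_of_pos (by norm_num)]
            simp
          rw [e1, ← mul_add]
          refine le_trans (ENNReal.rpow_le_rpow (enorm_add_le _ _) hp0.le) ?_
          exact ENNReal.rpow_add_le_mul_rpow_add_rpow _ _ hp
      _ = ENNReal.ofReal (2 ^ (p - 1)) * (∫⁻ x in strip R, ‖∫ υ : ℝ, gT Λ θ T υ * wv X υ f x‖ₑ ^ p) +
            ENNReal.ofReal (2 ^ (p - 1)) * ∫⁻ x in strip R, ‖cv K f x‖ₑ ^ p := by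
          rw [lintegral_add_right _ ((hKm.enorm.pow_const p).const_mul _),
            lintegral_const_mul' _ _ ENNReal.ofReal_ne_top, lintegral_const_mul' _ _ ENNReal.ofReal_ne_top]
      _ ≤ _ := by
          refine add_le_add le_rfl ?_
          refine (mul_le_mul' le_rfl h4).trans (le_of_eq ?_)
          rw [← mul_assoc, ← ENNReal.ofReal_mul (by positivity)]
  calc _ ≤ ∫⁻ T in Icc Λ (2 * Λ), (ENNReal.ofReal (2 ^ (p - 1)) * (∫⁻ x in strip R, ‖∫ υ : ℝ, gT Λ θ T υ * wv X υ f x‖ₑ ^ p) +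
      ENNReal.ofReal (2 ^ (p - 1) * (C3 * (C2 * A) ^ p * min 1 (R / S) ^ a)) * Nf) :=
        setLIntegral_mono' measurableSet_Icc hT
    _ = ENNReal.ofReal (2 ^ (p - 1)) * (∫⁻ T in Icc Λ (2 * Λ), ∫⁻ x in strip R, ‖∫ υ : ℝ, gT Λ θ T υ * wv X υ f x‖ₑ ^ p) +
      ENNReal.ofReal (2 ^ (p - 1) * (C3 * (C2 * A) ^ p * min 1 (R / S) ^ a)) * Nf * ENNReal.ofReal Λ := by
        rw [lintegral_add_right _ measurable_const, lintegral_const_mul' _ _ ENNReal.ofReal_ne_top,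
          setLIntegral_const, Real.volume_Icc]
        congr 3
        ring
    _ ≤ ENNReal.ofReal (2 ^ (p - 1)) * (ENNReal.ofReal (C1 * A ^ p * (Λ ^ (1 + ε) * min 1 (R / S) ^ a)) * Nf) +
      ENNReal.ofReal (2 ^ (p - 1) * (C3 * (C2 * A) ^ p * min 1 (R / S) ^ a)) * Nf * ENNReal.ofReal (Λ ^ (1 + ε)) := by
        refine add_le_add (mul_le_mul' le_rfl (h1 Λ R S σ A θ hΛ hR hS hσ hθ6 f hf hfs)) (mul_le_mul' le_rfl ?_)
        apply ENNReal.ofReal_le_ofReal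
        conv_lhs => rw [← Real.rpow_one Λ]
        exact Real.rpow_le_rpow_of_exponent_le hΛ (by linarith)
    _ = _ := by
        have e : ∀ x y z w : ℝ, 0 ≤ x → 0 ≤ y → 0 ≤ z → 0 ≤ w →
            ENNReal.ofReal x * (ENNReal.ofReal y * Nf) + ENNReal.ofReal z * Nf * ENNReal.ofReal w =
            ENNReal.ofReal (x * y + z * w) * Nf := by
          intro x y z w hx hy hz hw
          rw [ENNReal.ofReal_add (by positivity) (by positivity), ENNReal.ofReal_mul hx, ENNReal.ofReal_mul hz]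
          ring
        rw [e _ _ _ _ (by positivity) (by positivity) (by positivity) (by positivity)]
        congr 2
        rw [Real.mul_rpow hC2 hA]
        ring

/-! ## Transfer to `ℝ × ℝ` and duality -/

theorem lintegral_sw {F : ℝ × ℝ → ℝ≥0∞} (hF : Measurable F) : ∫⁻ x : E2, F (x 1, x 0) = ∫⁻ z, F z := by
  have h1 : ∫⁻ x : E2, F (x 1, x 0) = ∫⁻ z : ℝ × ℝ, F (z.2, z.1) := by
    rw [← lintegral_E2 (fun z => F (z.2, z.1))]
  rw [h1, Measure.volume_eq_prod]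
  exact lintegral_prod_swap F

theorem integral_sw (F : ℝ × ℝ → ℂ) : ∫ x : E2, F (x 1, x 0) = ∫ z, F z := by
  have h1 : ∫ x : E2, F (x 1, x 0) = ∫ z : ℝ × ℝ, F (z.2, z.1) := by
    rw [← integral_E2 (fun z => F (z.2, z.1))]
  rw [h1, Measure.volume_eq_prod]
  exact integral_prod_swap F

/-- transfer of a function -/
noncomputable def fsw (f : ℝ × ℝ → ℂ) (x : E2) : ℂ := f (x 1, x 0)

theorem fsw_adm {f : ℝ × ℝ → ℂ} (hf : Adm volume f) : Adm volume (fsw f) := by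
  have m : Measurable (fsw f) := hf.meas.comp (by fun_prop)
  refine ⟨m, ?_, ?_⟩
  · refine ⟨m.aestronglyMeasurable, ?_⟩
    unfold HasFiniteIntegral
    have := lintegral_sw (F := fun z => ‖f z‖ₑ) hf.meas.enorm
    unfold fsw
    rw [this]
    exact hf.int.2
  · obtain ⟨C, hC⟩ := hf.bdd
    exact ⟨C, fun x => hC _⟩

theorem fsw_pow {f : ℝ × ℝ → ℂ} (hf : Adm volume f) (p : ℝ) : ∫⁻ x, ‖fsw f x‖ₑ ^ p = ∫⁻ z, ‖f z‖ₑ ^ p :=
  lintegral_sw (F := fun z => ‖f z‖ₑ ^ p) (hf.meas.enorm.pow_const p)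

theorem inner_sw {Λ : ℝ} {θ : ℝ → ℂ} (f : ℝ × ℝ → ℂ) (T : ℝ) (w : ℝ × ℝ) :
    ∫ y : ℝ × ℝ, kw Λ θ T ((w.1 - y.1) ^ 2 + (w.2 - y.2) ^ 2) * f y =
      cv (fun x : E2 => kw Λ θ T (‖x‖ ^ 2)) (fsw f) (mk2 w.2 w.1) := by
  rw [← integral_sw]
  unfold cv fsw
  congr 1
  ext y
  congr 2
  rw [EuclideanSpace.norm_sq_eq]
  simp only [Fin.sum_univ_two, mk2, PiLp.sub_apply, Real.norm_eq_abs, sq_abs]
  simp
  ring

end Vale.Agent.P106
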