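import Vale.Agent.P106.A.D4e

set_option linter.all false

open MeasureTheory Complex Set Filter
open scoped ENNReal NNReal ContDiff FourierTransform SchwartzMap ComplexConjugate Topology

namespace Vale.Agent.P106

open Vale.Agent.P117

/-- the inner integral -/
noncomputable def Uin (Λ : ℝ) (θ : ℝ → ℂ) (f : ℝ × ℝ → ℂ) (z : ℝ × (ℝ × ℝ)) : ℂ :=
  ∫ y : ℝ × ℝ, kw Λ θ z.1 ((z.2.1 - y.1) ^ 2 + (z.2.2 - y.2) ^ 2) * f y

theorem measurable_Uin {M : ℕ} {A : ℝ} {θ : ℝ → ℂ} (h : Bump M A θ) {Λ : ℝ} (hΛ : 0 < Λ) {f : ℝ × ℝ → ℂ}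
    (hf : Adm volume f) : Measurable (Uin Λ θ f) := by
  have h1 : Measurable (fun z : (ℝ × (ℝ × ℝ)) × (ℝ × ℝ) =>
      kw Λ θ z.1.1 ((z.1.2.1 - z.2.1) ^ 2 + (z.1.2.2 - z.2.2) ^ 2) * f z.2) := by
    have h2 : (fun z : (ℝ × (ℝ × ℝ)) × (ℝ × ℝ) => kw Λ θ z.1.1 ((z.1.2.1 - z.2.1) ^ 2 + (z.1.2.2 - z.2.2) ^ 2)) =
        fun z => ((Λ ^ (-(1/2:ℝ)) : ℝ) : ℂ) * Psa 1 θ ((z.1.1 ^ 2 - ((z.1.2.1 - z.2.1) ^ 2 + (z.1.2.2 - z.2.2) ^ 2)) / Λ) := by
      ext z
      rw [kw_eq_Psa h hΛ]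
    have h3 : Continuous (fun z : (ℝ × (ℝ × ℝ)) × (ℝ × ℝ) => kw Λ θ z.1.1 ((z.1.2.1 - z.2.1) ^ 2 + (z.1.2.2 - z.2.2) ^ 2)) := by
      rw [h2]
      exact continuous_const.mul ((continuous_Psa h 1).comp (by fun_prop))
    exact h3.measurable.mul (hf.meas.comp measurable_snd)
  have h4 := h1.stronglyMeasurable.integral_prod_right' (ν := (volume : Measure (ℝ × ℝ)))
  exact h4.measurable

theorem eLp_eq {α : Type*} [MeasurableSpace α] {μ : Measure α} {F : α → ℂ} (hF : Adm μ F) {p : ℝ} (hp : 1 ≤ p) :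
    (∫⁻ x, ‖F x‖ₑ ^ p ∂μ) ^ (1 / p) = ENNReal.ofReal (nrm (ENNReal.ofReal p) F μ) := by
  have hp1 : (1:ℝ≥0∞) ≤ ENNReal.ofReal p := by
    rw [← ENNReal.ofReal_one]; exact ENNReal.ofReal_le_ofReal hp
  rw [hF.ofReal_nrm hp1, eLpNorm_eq_lintegral_rpow_enorm_toReal (by simp; linarith) ENNReal.ofReal_ne_top,
    ENNReal.toReal_ofReal (by linarith)]

theorem pwave_gen {X : E2 → ℂ} (hX : ContDiff ℝ ∞ X) (hXc : HasCompactSupport X)
    (hX1 : ∀ ξ, 1/20 ≤ ‖ξ‖ → ‖ξ‖ ≤ 10 → X ξ = 1) (hNS : StNS) {p q a : ℝ} (hpq : p.HolderConjugate q) (ha : 0 ≤ a) (ha1 : a ≤ 1)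
    (hEW : EWp X p a) {ε : ℝ} (hε : 0 < ε) :
    ∃ (M : ℕ) (C : ℝ), 0 ≤ C ∧ ∀ (Λ R S : ℝ), 1 ≤ Λ → 0 < R → 0 < S →
      PWave M Λ R S (C * Λ ^ (1 / p + ε) * min 1 (R / S) ^ (a / p)) (ENNReal.ofReal p) (ENNReal.ofReal q) := by
  have hp1 : 1 < p := hpq.lt
  have hp0 : 0 < p := by linarith
  have hq1 : 1 < q := hpq.symm.lt
  set ε' := min ε 1 with hε'
  obtain ⟨M, C, hM, hC, h⟩ := W_bound hX hXc hX1 hNS hp1.le ha ha1 hEW (ε := ε') (lt_min hε one_pos) (min_le_right _ _)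
  refine ⟨M, C ^ (1 / p), by positivity, ?_⟩
  intro Λ R S hΛ hR hS A θ hθ σ f g hσ hf hg hfs hgs
  have hA := hθ.nonneg
  have hΛ0 : 0 < Λ := by linarith
  set m := min 1 (R / S) with hm
  have hm0 : 0 < m := by rw [hm]; positivity
  have hma : 0 ≤ m ^ a := by positivity
  set U := Uin Λ θ f with hU
  have hUm : Measurable U := measurable_Uin hθ hΛ0 hf
  have e0 : Bw Λ θ f g = ∫ z, U z * g z := rfl
  set E : Set (ℝ × (ℝ × ℝ)) := Icc Λ (2 * Λ) ×ˢ (Icc R (2 * R) ×ˢ univ) with hE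
  have hEm : MeasurableSet E := measurableSet_Icc.prod (measurableSet_Icc.prod MeasurableSet.univ)
  set V : ℝ × (ℝ × ℝ) → ℝ≥0∞ := E.indicator (fun z => ‖U z‖ₑ) with hV
  have hVm : Measurable V := hUm.enorm.indicator hEm
  have s1 : ‖Bw Λ θ f g‖ₑ ≤ ∫⁻ z, V z * ‖g z‖ₑ := by
    rw [e0]
    refine (enorm_integral_le_lintegral_enorm _).trans_eq ?_
    refine lintegral_congr fun z => ?_
    rw [enorm_mul]
    by_cases hz : z ∈ E
    · rw [hV, indicator_of_mem hz]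
    · have : g z = 0 := by
        by_contra hc
        obtain ⟨h1, h2⟩ := hgs z hc
        exact hz ⟨h1, h2, mem_univ _⟩
      rw [this]; simp
  have s2 := ENNReal.lintegral_mul_le_Lp_mul_Lq (volume : Measure (ℝ × (ℝ × ℝ))) hpq hVm.aemeasurable hg.meas.enorm.aemeasurable
  -- the space-time norm
  have s3 : ∫⁻ z, V z ^ p ≤ ENNReal.ofReal (C * A ^ p * (Λ ^ (1 + ε') * m ^ a)) * ∫⁻ x, ‖f x‖ₑ ^ p := by
    have h1 := h Λ R S σ A θ hΛ hR hS hσ hθ (fsw f) (fsw_adm hf) (by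
      intro y hy
      exact hfs _ hy)
    rw [fsw_pow hf] at h1
    refine le_trans (le_of_eq ?_) h1
    rw [Measure.volume_eq_prod, lintegral_prod _ (hVm.pow_const p).aemeasurable, ← lintegral_indicator measurableSet_Icc]
    refine lintegral_congr fun T => ?_
    have hVT : Measurable (fun w : ℝ × ℝ => V (T, w) ^ p) := (hVm.comp measurable_prodMk_left).pow_const p
    rw [← lintegral_sw hVT]
    by_cases hT : T ∈ Icc Λ (2 * Λ)
    · rw [indicator_of_mem hT, ← lintegral_indicator (measurableSet_strip R)]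
      refine lintegral_congr fun x => ?_
      have e1 : U (T, (x 1, x 0)) = cv (fun x : E2 => kw Λ θ T (‖x‖ ^ 2)) (fsw f) x := by
        have h2 := inner_sw (Λ := Λ) (θ := θ) f T (x 1, x 0)
        have h3 : mk2 (x 0) (x 1) = x := by
          ext i; fin_cases i <;> rfl
        simp only at h2
        rw [h3] at h2
        exact h2
      by_cases hx : x ∈ strip R
      · have hz : (T, (x 1, x 0)) ∈ E := ⟨hT, hx, mem_univ _⟩
        rw [hV, indicator_of_mem hz, indicator_of_mem hx, e1]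
      · have hz : (T, (x 1, x 0)) ∉ E := fun h => hx h.2.1
        rw [hV, indicator_of_notMem hz, indicator_of_notMem hx, ENNReal.zero_rpow_of_pos hp0]
    · rw [indicator_of_notMem hT]
      have : ∀ x : E2, V (T, (x 1, x 0)) ^ p = 0 := by
        intro x
        have hz : (T, (x 1, x 0)) ∉ E := fun h => hT h.1
        rw [hV, indicator_of_notMem hz, ENNReal.zero_rpow_of_pos hp0]
      simp_rw [this]
      simp
  have hn : 0 ≤ nrm (ENNReal.ofReal p) f volume := nrm_nonneg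
  have hn' : 0 ≤ nrm (ENNReal.ofReal q) g volume := nrm_nonneg
  have s4 : ‖Bw Λ θ f g‖ₑ ≤ ENNReal.ofReal ((C * A ^ p * (Λ ^ (1 + ε') * m ^ a)) ^ (1 / p) *
      nrm (ENNReal.ofReal p) f volume * nrm (ENNReal.ofReal q) g volume) := by
    refine s1.trans (le_trans s2 ?_)
    rw [eLp_eq hg hq1.le]
    refine (mul_le_mul' (ENNReal.rpow_le_rpow s3 (by positivity)) le_rfl).trans (le_of_eq ?_)
    rw [ENNReal.mul_rpow_of_nonneg _ _ (by positivity), eLp_eq hf hp1.le,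
      ENNReal.ofReal_rpow_of_nonneg (by positivity) (by positivity), ← ENNReal.ofReal_mul (by positivity),
      ← ENNReal.ofReal_mul (by positivity)]
  have s5 : ‖Bw Λ θ f g‖ ≤ (C * A ^ p * (Λ ^ (1 + ε') * m ^ a)) ^ (1 / p) *
      nrm (ENNReal.ofReal p) f volume * nrm (ENNReal.ofReal q) g volume := by
    rw [← ofReal_norm] at s4
    exact (ENNReal.ofReal_le_ofReal_iff (by positivity)).1 s4
  refine s5.trans ?_
  have e2 : (C * A ^ p * (Λ ^ (1 + ε') * m ^ a)) ^ (1 / p) ≤ C ^ (1 / p) * Λ ^ (1 / p + ε) * m ^ (a / p) * A := by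
    rw [Real.mul_rpow (by positivity) (by positivity), Real.mul_rpow hC (by positivity),
      Real.mul_rpow (by positivity) hma, ← Real.rpow_mul hA, mul_one_div_cancel hp0.ne', Real.rpow_one,
      ← Real.rpow_mul hΛ0.le, ← Real.rpow_mul hm0.le]
    have e3 : Λ ^ ((1 + ε') * (1 / p)) ≤ Λ ^ (1 / p + ε) := by
      apply Real.rpow_le_rpow_of_exponent_le hΛ
      have h1 : ε' ≤ ε := min_le_left _ _
      have h2 : 1 / p ≤ 1 := by rw [div_le_one hp0]; exact hp1.le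
      have h3 : 0 ≤ ε' := le_min hε.le zero_le_one
      have h4 : 0 < 1 / p := by positivity
      nlinarith
    have e4 : a * (1 / p) = a / p := by ring
    rw [e4]
    calc C ^ (1 / p) * A * (Λ ^ ((1 + ε') * (1 / p)) * m ^ (a / p)) ≤ C ^ (1 / p) * A * (Λ ^ (1 / p + ε) * m ^ (a / p)) := by
          gcongr
      _ = _ := by ring
  gcongr

theorem stD4 (hNS : StNS) : StD4 := by
  rintro ⟨X, hX, hXc, hX1, hE2, hE3⟩
  constructor
  · intro ε hε
    obtain ⟨M, C, hC, h⟩ := pwave_gen hX hXc hX1 hNS (p := 2) (q := 2) (a := 1) (by constructor <;> norm_num) (by norm_num)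
      le_rfl hE2 hε
    refine ⟨M, C, hC, ?_⟩
    intro Λ R S hΛ hR hS
    have := h Λ R S hΛ hR hS
    have e1 : ENNReal.ofReal 2 = 2 := by simp
    rw [e1] at this
    exact this
  · intro ε hε
    obtain ⟨M, C, hC, h⟩ := pwave_gen hX hXc hX1 hNS (p := 3) (q := 3/2) (a := 1/2) (by constructor <;> norm_num) (by norm_num)
      (by norm_num) hE3 hε
    refine ⟨M, C, hC, ?_⟩
    intro Λ R S hΛ hR hS
    have := h Λ R S hΛ hR hS
    have e1 : ENNReal.ofReal 3 = 3 := by simp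
    have e2 : ENNReal.ofReal (3/2) = 3/2 := by
      rw [ENNReal.ofReal_div_of_pos (by norm_num)]
      simp
    have e3 : (1/2:ℝ)/3 = 1/6 := by norm_num
    rw [e1, e2, e3] at this
    exact this

end Vale.Agent.P106
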