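import Vale.Agent.P106.A.Psi

set_option linter.all false

open MeasureTheory Complex Set Filter
open scoped ENNReal NNReal ContDiff FourierTransform SchwartzMap ComplexConjugate Topology

namespace Vale.Agent.P106

open Vale.Agent.P117

/-- multiplier of the wave-type operator at time `T` -/
noncomputable def mw (Λ : ℝ) (θ : ℝ → ℂ) (T ρ : ℝ) : ℂ := mult Λ (thT Λ T θ) (ρ ^ 2)

/-- its one-dimensional Fourier transform -/
noncomputable def gT (Λ : ℝ) (θ : ℝ → ℂ) (T υ : ℝ) : ℂ := Psa (1/2) θ ((T ^ 2 - υ ^ 2) / Λ)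

theorem gT_even (Λ : ℝ) (θ : ℝ → ℂ) (T υ : ℝ) : gT Λ θ T (-υ) = gT Λ θ T υ := by
  unfold gT; rw [neg_sq]

/-- two-sided weight -/
noncomputable def jT (T υ : ℝ) : ℝ := jb (υ - T) + jb (υ + T)

theorem jT_nonneg (T υ : ℝ) : 0 ≤ jT T υ := add_nonneg (jb_nonneg _) (jb_nonneg _)

theorem integrable_jT (T : ℝ) : Integrable (jT T) :=
  (integrable_jb.comp_sub_right T).add (integrable_jb.comp_add_right T)

theorem integral_jT (T : ℝ) : ∫ υ, jT T υ = 2 * ∫ η, jb η := by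
  unfold jT
  rw [integral_add (integrable_jb.comp_sub_right T) (integrable_jb.comp_add_right T),
    integral_sub_right_eq_self (fun x => jb x) T, integral_add_right_eq_self (fun x => jb x) T]
  ring

theorem abs_dist_le (T υ : ℝ) : |T - (|υ|)| = |υ - T| ∨ |T - (|υ|)| = |υ + T| := by
  rcases abs_cases υ with ⟨h, _⟩ | ⟨h, _⟩
  · left; rw [h, abs_sub_comm]
  · right; rw [h]; congr 1; ring

theorem wt2_le_jT (T υ : ℝ) : (1 + |T - (|υ|)|) ^ (-(2:ℝ)) ≤ jT T υ := by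
  unfold jT jb
  rcases abs_dist_le T υ with h | h
  · rw [h]
    have : 0 ≤ (1 + |υ + T|) ^ (-(2:ℝ)) := by positivity
    linarith
  · rw [h]
    have : 0 ≤ (1 + |υ - T|) ^ (-(2:ℝ)) := by positivity
    linarith

theorem dist_le_v {Λ T υ : ℝ} (hΛ : 0 < Λ) (hT : Λ ≤ T) : |T - (|υ|)| ≤ |(T ^ 2 - υ ^ 2) / Λ| := by
  have h1 : (T ^ 2 - υ ^ 2) / Λ = (T - |υ|) * ((T + |υ|) / Λ) := by
    rw [← sq_abs υ]; field_simp; ring
  rw [h1, abs_mul]
  apply le_mul_of_one_le_right (abs_nonneg _)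
  rw [abs_of_nonneg (by have := abs_nonneg υ; have : 0 ≤ T := by linarith
                        positivity), le_div_iff₀ hΛ]
  have := abs_nonneg υ
  linarith

theorem gT_bound (M : ℕ) : ∃ C : ℝ, 0 ≤ C ∧ ∀ (A : ℝ) (θ : ℝ → ℂ), Bump M A θ → ∀ Λ T υ : ℝ,
    0 < Λ → Λ ≤ T → ‖gT Λ θ T υ‖ ≤ C * A * (1 + |T - (|υ|)|) ^ (-(M:ℝ)) := by
  obtain ⟨C, hC, h⟩ := Psa_decay (1/2) M
  refine ⟨C, hC, ?_⟩
  intro A θ hθ Λ T υ hΛ hT
  have hA := hθ.nonneg
  refine (h A θ hθ _).trans ?_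
  apply mul_le_mul_of_nonneg_left _ (by positivity)
  apply Real.rpow_le_rpow_of_nonpos (by positivity) _ (by simp)
  linarith [dist_le_v (υ := υ) hΛ hT]

section
variable {M : ℕ} {A : ℝ} {θ : ℝ → ℂ}

theorem continuous_gT (h : Bump M A θ) (Λ T : ℝ) : Continuous (gT Λ θ T) :=
  (continuous_Psa h _).comp (by fun_prop)

theorem integrable_gT (h : Bump 2 A θ) {Λ T : ℝ} (hΛ : 0 < Λ) (hT : Λ ≤ T) : Integrable (gT Λ θ T) := by
  obtain ⟨C, hC, h1⟩ := gT_bound 2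
  have hA := h.nonneg
  refine ((integrable_jT T).const_mul (C * A)).mono' (continuous_gT h Λ T).aestronglyMeasurable ?_
  filter_upwards with υ
  have h2 := h1 A θ h Λ T υ hΛ hT
  push_cast at h2
  refine h2.trans ?_
  have := wt2_le_jT T υ
  gcongr

theorem mw_eq (h : Bump 4 A θ) {Λ T : ℝ} (hΛ : 0 < Λ) (hT : Λ ≤ T) (ρ : ℝ) :
    mw Λ θ T ρ = ∫ υ : ℝ, gT Λ θ T υ * cexp (2 * Real.pi * I * υ * ρ) := by
  obtain ⟨A', h'⟩ := thT_bump h Λ T
  set H : ℝ → ℂ := fun ρ => mult Λ (thT Λ T θ) (‖ρ‖ ^ 2) with hH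
  have hHi : Integrable H := integrable_mult (V := ℝ) (by simp) h' hΛ
  have hHc : Continuous H := (continuous_mult h' hΛ).comp (by fun_prop)
  have hinv : 𝓕⁻ H = gT Λ θ T := by
    ext x
    have h1 := kd_eq (V := ℝ) (by simp) h' hΛ x
    rw [Real.fourierInv_eq']
    have e1 : ∫ v : ℝ, cexp ((2 * Real.pi * inner ℝ v x : ℝ) * I) • H v =
        ∫ ξ : ℝ, mult Λ (thT Λ T θ) (‖ξ‖ ^ 2) * cexp (2 * Real.pi * I * (inner ℝ x ξ : ℝ)) := by
      congr 1
      ext ξ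
      rw [smul_eq_mul, mul_comm]
      congr 2
      rw [real_inner_comm]
      push_cast; ring
    rw [e1, ← h1, kd_thT h hΛ]
    unfold gT
    simp
  have hi : Integrable (𝓕⁻ H) := by
    rw [hinv]; exact integrable_gT (h.mono (by norm_num) le_rfl) hΛ hT
  have h2 := hHc.fourier_fourierInv_eq hHi (integrable_fourierInv_iff.1 hi)
  rw [hinv] at h2
  have h3 : mw Λ θ T ρ = 𝓕 (gT Λ θ T) ρ := by
    rw [h2]
    simp only [hH, mw]
    congr 1
    rw [Real.norm_eq_abs, sq_abs]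
  rw [h3, Real.fourier_real_eq_integral_exp_smul, ← integral_neg_eq_self]
  congr 1
  ext υ
  rw [gT_even, smul_eq_mul, mul_comm]
  congr 2
  push_cast
  ring

theorem inv_tb (h : Bump M A θ) (hM : 2 ≤ M) (a : ℝ) {s : ℝ} (hs : 0 < s) (ρ : ℝ) :
    ∫ υ : ℝ, Psa a θ (-(2 * s * υ)) * cexp (2 * Real.pi * I * υ * ρ) = (2 / s : ℝ) * tb a θ (2 * ρ / s) := by
  obtain ⟨C, hC, h1⟩ := tb_bump a 2
  have hb := h1 A θ (h.mono hM le_rfl)
  have hFi : Integrable (𝓕 (tb a θ)) := by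
    have hA := h.nonneg
    refine (integrable_jb.const_mul (2 ^ 2 * 8 * (C * A))).mono' (continuous_fourier hb.integrable).aestronglyMeasurable ?_
    filter_upwards with v
    have h2 := norm_Th_le' hb (-v)
    rw [Th_eq_fourier, neg_neg, abs_neg] at h2
    push_cast at h2
    exact h2
  set g : ℝ → ℂ := fun υ' => 𝓕 (tb a θ) υ' * cexp (2 * Real.pi * I * υ' * (2 * ρ / s : ℝ)) with hg
  have e1 : ∀ υ : ℝ, Psa a θ (-(2 * s * υ)) * cexp (2 * Real.pi * I * υ * ρ) = g (s / 2 * υ) := by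
    intro υ
    simp only [hg]
    rw [Psa_eq_Th h, Th_eq_fourier]
    congr 2
    · ring
    · have : (s : ℂ) ≠ 0 := by exact_mod_cast hs.ne'
      push_cast
      field_simp
  simp_rw [e1]
  rw [Measure.integral_comp_mul_left g (s / 2), abs_of_pos (by positivity), inv_div, Complex.real_smul]
  congr 1
  have h3 := hb.continuous.fourierInv_fourier_eq hb.integrable hFi
  have h4 : 𝓕⁻ (𝓕 (tb a θ)) (2 * ρ / s) = tb a θ (2 * ρ / s) := by rw [h3]
  rw [← h4, Real.fourierInv_eq']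
  congr 1
  ext υ
  simp only [hg]
  rw [smul_eq_mul, mul_comm]
  congr 2
  have : inner ℝ υ (2 * ρ / s) = υ * (2 * ρ / s) := by
    simp [mul_comm]
  rw [this]
  push_cast
  ring

/-- difference between the exact one dimensional transform and its leading part -/
noncomputable def dT (Λ : ℝ) (θ : ℝ → ℂ) (T υ : ℝ) : ℂ :=
  gT Λ θ T υ - Psa (1/2) θ (-(2 * (T / Λ) * (υ - T))) - Psa (1/2) θ (2 * (T / Λ) * (υ + T))

theorem dT_even (Λ : ℝ) (θ : ℝ → ℂ) (T υ : ℝ) : dT Λ θ T (-υ) = dT Λ θ T υ := by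
  unfold dT
  rw [gT_even]
  have e1 : -(2 * (T / Λ) * (-υ - T)) = 2 * (T / Λ) * (υ + T) := by ring
  have e2 : 2 * (T / Λ) * (-υ + T) = -(2 * (T / Λ) * (υ - T)) := by ring
  rw [e1, e2]
  ring

end

theorem dT_bound (M : ℕ) : ∃ C : ℝ, 0 ≤ C ∧ ∀ (A : ℝ) (θ : ℝ → ℂ), Bump (M + 3) A θ → ∀ Λ T υ : ℝ,
    0 < Λ → Λ ≤ T → ‖dT Λ θ T υ‖ ≤ C * A * Λ⁻¹ * (1 + |T - (|υ|)|) ^ (-(M:ℝ)) := by
  obtain ⟨C1, hC1, h1⟩ := Psa_decay (1/2) (M + 3)
  obtain ⟨C2, hC2, h2⟩ := Psa_decay (1/2 + 1) (M + 3)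
  refine ⟨Real.pi * C2 + C1, by have := Real.pi_pos; positivity, ?_⟩
  intro A θ hθ Λ T υ hΛ hT
  have hA := hθ.nonneg
  have hpi := Real.pi_pos
  have hT0 : 0 < T := by linarith
  wlog hυ : 0 ≤ υ generalizing υ
  · have h3 := this (-υ) (by linarith)
    rwa [dT_even, abs_neg] at h3
  rw [abs_of_nonneg hυ]
  set δ := υ - T with hδ
  have hδa : |T - υ| = |δ| := by rw [hδ, abs_sub_comm]
  rw [hδa]
  have hR0 : 0 < 1 + |δ| := by positivity
  have e1 : (T ^ 2 - υ ^ 2) / Λ = -(δ * ((T + υ) / Λ)) := by rw [hδ]; field_simp; ring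
  have e2 : -(2 * (T / Λ) * (υ - T)) = -(δ * (2 * (T / Λ))) := by rw [hδ]; ring
  have k1 : 1 ≤ (T + υ) / Λ := by rw [le_div_iff₀ hΛ]; linarith
  have k2 : 1 ≤ 2 * (T / Λ) := by
    have : 1 ≤ T / Λ := by rw [le_div_iff₀ hΛ]; linarith
    linarith
  -- main difference
  have main : ‖gT Λ θ T υ - Psa (1/2) θ (-(2 * (T / Λ) * (υ - T)))‖ ≤
      (Real.pi * (C2 * A * (1 + |δ|) ^ (-((M + 3 : ℕ):ℝ)))) * |(T ^ 2 - υ ^ 2) / Λ - (-(2 * (T / Λ) * (υ - T)))| := by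
    unfold gT
    have hseg : ∀ w ∈ uIcc (-(2 * (T / Λ) * (υ - T))) ((T ^ 2 - υ ^ 2) / Λ), |δ| ≤ |w| := by
      intro w hw
      rw [e1, e2] at hw
      rcases le_total 0 δ with hd | hd
      · have h3 : w ≤ -δ := by
          rcases mem_uIcc.1 hw with h | h
          · refine h.2.trans ?_
            nlinarith
          · refine h.2.trans ?_
            nlinarith
        rw [abs_of_nonneg hd]
        have := neg_abs_le w
        linarith
      · have h3 : -δ ≤ w := by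
          rcases mem_uIcc.1 hw with h | h
          · refine le_trans ?_ h.1
            nlinarith
          · refine le_trans ?_ h.1
            nlinarith
        rw [abs_of_nonpos hd]
        exact h3.trans (le_abs_self w)
    have h5 := Convex.norm_image_sub_le_of_norm_hasDerivWithin_le
      (f := Psa (1/2) θ) (f' := fun w => Real.pi * Psa (1/2 + 1) θ w)
      (C := Real.pi * (C2 * A * (1 + |δ|) ^ (-((M + 3 : ℕ):ℝ))))
      (s := uIcc (-(2 * (T / Λ) * (υ - T))) ((T ^ 2 - υ ^ 2) / Λ))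
      (fun w hw => (hasDerivAt_Psa hθ (1/2) w).hasDerivWithinAt)
      (fun w hw => by
        rw [norm_mul, Complex.norm_real, Real.norm_of_nonneg hpi.le]
        apply mul_le_mul_of_nonneg_left _ hpi.le
        refine (h2 A θ hθ w).trans ?_
        apply mul_le_mul_of_nonneg_left _ (by positivity)
        apply Real.rpow_le_rpow_of_nonpos hR0 _ (by push_cast; linarith [Nat.cast_nonneg (α := ℝ) M])
        linarith [hseg w hw])
      (convex_uIcc _ _) left_mem_uIcc right_mem_uIcc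
    rw [Real.norm_eq_abs] at h5
    exact h5
  have e3 : (T ^ 2 - υ ^ 2) / Λ - (-(2 * (T / Λ) * (υ - T))) = -(δ ^ 2 / Λ) := by
    rw [hδ]; field_simp; ring
  have e4 : |-(δ ^ 2 / Λ)| = δ ^ 2 / Λ := by rw [abs_neg, abs_of_nonneg (by positivity)]
  rw [e3, e4] at main
  have hpow : (1 + |δ|) ^ (-((M + 3 : ℕ):ℝ)) * δ ^ 2 ≤ (1 + |δ|) ^ (-(M:ℝ)) := by
    have h3 : δ ^ 2 ≤ (1 + |δ|) ^ (3:ℝ) := by
      have : (1 + |δ|) ^ (3:ℝ) = (1 + |δ|) ^ 3 := by exact_mod_cast Real.rpow_natCast (1 + |δ|) 3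
      rw [this, ← sq_abs]
      have h0 := abs_nonneg δ
      nlinarith [pow_nonneg h0 3]
    calc (1 + |δ|) ^ (-((M + 3 : ℕ):ℝ)) * δ ^ 2 ≤ (1 + |δ|) ^ (-((M + 3 : ℕ):ℝ)) * (1 + |δ|) ^ (3:ℝ) := by gcongr
      _ = _ := by
        rw [← Real.rpow_add hR0]
        congr 1
        push_cast; ring
  have third : ‖Psa (1/2) θ (2 * (T / Λ) * (υ + T))‖ ≤ C1 * A * Λ⁻¹ * (1 + |δ|) ^ (-(M:ℝ)) := by
    refine (h1 A θ hθ _).trans ?_
    have hle : |δ| ≤ υ + T := by rw [abs_le, hδ]; constructor <;> linarith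
    have h4 : 1 + (υ + T) ≤ 1 + |2 * (T / Λ) * (υ + T)| := by
      rw [abs_of_nonneg (by positivity)]
      nlinarith
    have h5 : (1 + |2 * (T / Λ) * (υ + T)|) ^ (-((M + 3 : ℕ):ℝ)) ≤ Λ⁻¹ * (1 + |δ|) ^ (-(M:ℝ)) := by
      have hX1 : 1 ≤ 1 + (υ + T) := by linarith
      calc (1 + |2 * (T / Λ) * (υ + T)|) ^ (-((M + 3 : ℕ):ℝ)) ≤ (1 + (υ + T)) ^ (-((M + 3 : ℕ):ℝ)) :=
            Real.rpow_le_rpow_of_nonpos (by linarith) h4 (by push_cast; linarith [Nat.cast_nonneg (α := ℝ) M])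
        _ ≤ (1 + (υ + T)) ^ (-(1:ℝ) + -(M:ℝ)) := by
            apply Real.rpow_le_rpow_of_exponent_le hX1
            push_cast; linarith
        _ = (1 + (υ + T)) ^ (-(1:ℝ)) * (1 + (υ + T)) ^ (-(M:ℝ)) := Real.rpow_add (by linarith) _ _
        _ ≤ Λ⁻¹ * (1 + |δ|) ^ (-(M:ℝ)) := by
            apply mul_le_mul
            · rw [Real.rpow_neg_one]
              apply inv_anti₀ hΛ
              linarith
            · apply Real.rpow_le_rpow_of_nonpos hR0 _ (by simp)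
              linarith
            · positivity
            · positivity
    calc C1 * A * (1 + |2 * (T / Λ) * (υ + T)|) ^ (-((M + 3 : ℕ):ℝ)) ≤ C1 * A * (Λ⁻¹ * (1 + |δ|) ^ (-(M:ℝ))) := by
          gcongr
      _ = _ := by ring
  have hd : dT Λ θ T υ = (gT Λ θ T υ - Psa (1/2) θ (-(2 * (T / Λ) * (υ - T)))) -
      Psa (1/2) θ (2 * (T / Λ) * (υ + T)) := rfl
  rw [hd]
  refine (norm_sub_le _ _).trans ?_
  have m2 : Real.pi * (C2 * A * (1 + |δ|) ^ (-((M + 3 : ℕ):ℝ))) * (δ ^ 2 / Λ) ≤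
      Real.pi * C2 * A * Λ⁻¹ * (1 + |δ|) ^ (-(M:ℝ)) := by
    calc _ = Real.pi * C2 * A * Λ⁻¹ * ((1 + |δ|) ^ (-((M + 3 : ℕ):ℝ)) * δ ^ 2) := by
          rw [div_eq_mul_inv]; ring
      _ ≤ _ := by gcongr
  calc _ ≤ Real.pi * C2 * A * Λ⁻¹ * (1 + |δ|) ^ (-(M:ℝ)) + C1 * A * Λ⁻¹ * (1 + |δ|) ^ (-(M:ℝ)) :=
        add_le_add (main.trans m2) third
    _ = _ := by ring

section
variable {M : ℕ} {A : ℝ} {θ : ℝ → ℂ}

theorem continuous_dT (h : Bump M A θ) (Λ T : ℝ) : Continuous (dT Λ θ T) := by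
  unfold dT
  have := continuous_Psa h (1/2)
  exact ((continuous_gT h Λ T).sub (this.comp (by fun_prop))).sub (this.comp (by fun_prop))

theorem integrable_Psa_scale (h : Bump M A θ) (hM : 2 ≤ M) (a : ℝ) {s : ℝ} (hs : 0 < s) :
    Integrable (fun υ : ℝ => Psa a θ (-(2 * s * υ))) := by
  obtain ⟨C, hC, h1⟩ := Psa_decay a 2
  have hA := h.nonneg
  have h2 : Integrable (Psa a θ) := by
    refine (integrable_jb.const_mul (C * A)).mono' (continuous_Psa h a).aestronglyMeasurable ?_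
    filter_upwards with v
    have := h1 A θ (h.mono hM le_rfl) v
    push_cast at this
    exact this
  have h3 := h2.comp_mul_left' (show -(2 * s) ≠ 0 by simp [hs.ne'])
  refine h3.congr ?_
  filter_upwards with υ
  congr 1; ring

/-- the exact identity: leading part plus error -/
theorem mw_split (h : Bump 5 A θ) {Λ T : ℝ} (hΛ : 0 < Λ) (hT : Λ ≤ T) {ρ : ℝ} (hρ : 0 < ρ) :
    mw Λ θ T ρ = cexp (2 * Real.pi * I * T * ρ) * ((2 / (T / Λ) : ℝ) * tb (1/2) θ (2 * ρ / (T / Λ))) +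
      ∫ υ : ℝ, dT Λ θ T υ * cexp (2 * Real.pi * I * υ * ρ) := by
  have hT0 : 0 < T := by linarith
  set s := T / Λ with hs
  have hs0 : 0 < s := by positivity
  rw [mw_eq (h.mono (by norm_num) le_rfl) hΛ hT]
  have hn : ∀ x y : ℝ, ‖cexp (2 * Real.pi * I * x * y)‖ = 1 := by
    intro x y
    have : (2 * Real.pi * I * x * y : ℂ) = ((2 * Real.pi * x * y : ℝ) : ℂ) * I := by push_cast; ring
    rw [this, Complex.norm_exp_ofReal_mul_I]
  have hcexp : ∀ y : ℝ, Continuous (fun x : ℝ => cexp (2 * Real.pi * I * x * y)) := fun y => by fun_prop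
  have hmulI : ∀ {g : ℝ → ℂ}, Integrable g → Integrable (fun υ : ℝ => g υ * cexp (2 * Real.pi * I * υ * ρ)) := by
    intro g hg
    apply hg.mul_bdd (c := 1) (hcexp ρ).aestronglyMeasurable
    filter_upwards with x
    exact (hn x ρ).le
  have i1 := integrable_Psa_scale (h.mono (M' := 2) (by norm_num) le_rfl) le_rfl (1/2) hs0
  have i2 : Integrable (fun υ : ℝ => Psa (1/2) θ (-(2 * s * (υ - T)))) := i1.comp_sub_right T
  have i3 : Integrable (fun υ : ℝ => Psa (1/2) θ (2 * s * (υ + T))) := by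
    have := i1.comp_neg.comp_add_right T
    refine this.congr ?_
    filter_upwards with υ
    congr 1; ring
  have i4 := integrable_gT (h.mono (M' := 2) (by norm_num) le_rfl) hΛ hT
  have i5 : Integrable (dT Λ θ T) := (i4.sub i2).sub i3
  have j2 : ∫ υ : ℝ, Psa (1/2) θ (-(2 * s * (υ - T))) * cexp (2 * Real.pi * I * υ * ρ) =
      cexp (2 * Real.pi * I * T * ρ) * ((2 / s : ℝ) * tb (1/2) θ (2 * ρ / s)) := by
    rw [← inv_tb (h.mono (M' := 2) (by norm_num) le_rfl) le_rfl (1/2) hs0, ← integral_const_mul]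
    rw [← integral_add_right_eq_self (fun υ : ℝ => Psa (1/2) θ (-(2 * s * (υ - T))) * cexp (2 * Real.pi * I * υ * ρ)) T]
    congr 1
    ext υ
    rw [add_sub_cancel_right]
    have : cexp (2 * Real.pi * I * ((υ + T : ℝ) : ℂ) * ρ) = cexp (2 * Real.pi * I * T * ρ) * cexp (2 * Real.pi * I * υ * ρ) := by
      rw [← Complex.exp_add]; congr 1; push_cast; ring
    rw [this]; ring
  have j3 : ∫ υ : ℝ, Psa (1/2) θ (2 * s * (υ + T)) * cexp (2 * Real.pi * I * υ * ρ) = 0 := by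
    have h3 := inv_tb (h.mono (M' := 2) (by norm_num) le_rfl) le_rfl (1/2) hs0 (-ρ)
    have h4 : tb (1/2) θ (2 * (-ρ) / s) = 0 := by
      by_contra h0
      have h5 := (tb_supp h h0).1
      have h6 : 2 * (-ρ) / s ≤ 0 := by
        apply div_nonpos_of_nonpos_of_nonneg _ hs0.le
        linarith
      linarith
    rw [h4, mul_zero, ← integral_neg_eq_self] at h3
    rw [← integral_sub_right_eq_self (fun υ : ℝ => Psa (1/2) θ (2 * s * (υ + T)) * cexp (2 * Real.pi * I * υ * ρ)) T]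
    have e : ∀ υ : ℝ, Psa (1/2) θ (2 * s * (υ - T + T)) * cexp (2 * Real.pi * I * ((υ - T : ℝ) : ℂ) * ρ) =
        cexp (-(2 * Real.pi * I * T * ρ)) * (Psa (1/2) θ (-(2 * s * -υ)) * cexp (2 * Real.pi * I * ((-υ : ℝ) : ℂ) * ((-ρ : ℝ) : ℂ))) := by
      intro υ
      rw [sub_add_cancel]
      have e1 : cexp (2 * Real.pi * I * ((υ - T : ℝ) : ℂ) * ρ) = cexp (-(2 * Real.pi * I * T * ρ)) *
          cexp (2 * Real.pi * I * ((-υ : ℝ) : ℂ) * ((-ρ : ℝ) : ℂ)) := by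
        rw [← Complex.exp_add]; congr 1; push_cast; ring
      have e2 : -(2 * s * -υ) = 2 * s * υ := by ring
      rw [e1, e2]; ring
    simp_rw [e]
    rw [integral_const_mul, h3, mul_zero]
  have hsum : ∀ υ : ℝ, gT Λ θ T υ * cexp (2 * Real.pi * I * υ * ρ) =
      dT Λ θ T υ * cexp (2 * Real.pi * I * υ * ρ) +
      (Psa (1/2) θ (-(2 * s * (υ - T))) * cexp (2 * Real.pi * I * υ * ρ) +
        Psa (1/2) θ (2 * s * (υ + T)) * cexp (2 * Real.pi * I * υ * ρ)) := by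
    intro υ
    unfold dT
    rw [← hs]
    ring
  simp_rw [hsum]
  have k1 := integral_add (hmulI i5) ((hmulI i2).add (hmulI i3))
  have k2 := integral_add (hmulI i2) (hmulI i3)
  simp only [Pi.add_apply] at k1
  rw [k1, k2, j2, j3]
  ring

end

end Vale.Agent.P106
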