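import Vale.Agent.P106.A.ScaleAll

set_option linter.all false

open MeasureTheory Complex Set Filter
open scoped ENNReal NNReal ContDiff FourierTransform SchwartzMap ComplexConjugate Topology

namespace Vale.Agent.P106

open Vale.Agent.P117

section
variable {α : Type*} [MeasurableSpace α] {μ : Measure α}

/-- dual weight -/
noncomputable def wg (a : ℝ) (E : Set α) (u : α → ℂ) (x : α) : ℂ :=
  E.indicator (fun x => conj (u x) * ((‖u x‖ ^ a : ℝ) : ℂ)) x

variable {a : ℝ} {E : Set α} {u : α → ℂ}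

theorem wg_mul (ha : 0 < a + 2) (x : α) :
    u x * wg a E u x = E.indicator (fun x => ((‖u x‖ ^ (a + 2) : ℝ) : ℂ)) x := by
  unfold wg
  by_cases hx : x ∈ E
  · rw [indicator_of_mem hx, indicator_of_mem hx]
    by_cases hu : u x = 0
    · rw [hu, norm_zero, Real.zero_rpow ha.ne']; simp
    · have hn : 0 < ‖u x‖ := norm_pos_iff.2 hu
      have h1 : u x * conj (u x) = ((‖u x‖ ^ (2:ℝ) : ℝ) : ℂ) := by
        rw [Complex.mul_conj, Complex.normSq_eq_norm_sq]
        congr 1
        exact_mod_cast (Real.rpow_natCast ‖u x‖ 2).symm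
      rw [← mul_assoc, h1, ← Complex.ofReal_mul, ← Real.rpow_add hn]
      congr 2; ring
  · rw [indicator_of_notMem hx, indicator_of_notMem hx, mul_zero]

theorem norm_wg_le (x : α) : ‖wg a E u x‖ ≤ E.indicator (fun x => ‖u x‖ ^ (a + 1)) x := by
  unfold wg
  by_cases hx : x ∈ E
  · rw [indicator_of_mem hx, indicator_of_mem hx]
    by_cases hu : u x = 0
    · rw [hu]; simp; positivity
    · have hn : 0 < ‖u x‖ := norm_pos_iff.2 hu
      rw [norm_mul, RCLike.norm_conj, Complex.norm_real, Real.norm_of_nonneg (by positivity),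
        Real.rpow_add_one hn.ne', mul_comm]
  · rw [indicator_of_notMem hx, indicator_of_notMem hx, norm_zero]

theorem wg_adm (ha : 0 ≤ a + 1) (hE : MeasurableSet E) (hEf : μ E ≠ ⊤) (hu : Measurable u)
    {C : ℝ} (hC0 : 0 ≤ C) (hC : ∀ x, ‖u x‖ ≤ C) : Adm μ (wg a E u) := by
  have hm : Measurable (wg a E u) := by
    have hg : Measurable (fun x => conj (u x) * ((‖u x‖ ^ a : ℝ) : ℂ)) := by
      have h1 : Measurable (fun x => conj (u x)) := Complex.continuous_conj.measurable.comp hu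
      fun_prop
    exact hg.indicator hE
  have hb : ∀ x, ‖wg a E u x‖ ≤ E.indicator (fun _ => C ^ (a + 1)) x := by
    intro x
    refine (norm_wg_le x).trans ?_
    apply indicator_le_indicator
    exact Real.rpow_le_rpow (norm_nonneg _) (hC x) ha
  refine ⟨hm, ?_, C ^ (a + 1), ?_⟩
  · have hi : Integrable (E.indicator (fun _ : α => C ^ (a + 1))) μ :=
      (integrable_indicator_iff hE).2 (integrableOn_const hEf)
    exact hi.mono' hm.aestronglyMeasurable (by filter_upwards with x using hb x)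
  · intro x
    refine (hb x).trans ?_
    apply indicator_le_self'
    intro _ _
    positivity

theorem wg_integral (ha : 0 < a + 2) (hE : MeasurableSet E) :
    ∫ x, u x * wg a E u x ∂μ = ((∫ x in E, ‖u x‖ ^ (a + 2) ∂μ : ℝ) : ℂ) := by
  simp_rw [wg_mul ha]
  rw [integral_indicator hE]
  exact integral_complex_ofReal

/-- local bound -/
theorem dualg_local {P : ℝ} (hP : 1 < P) (hu : Measurable u) {C : ℝ} (hC0 : 0 ≤ C) (hC : ∀ x, ‖u x‖ ≤ C)
    {D : ℝ} (hD : 0 ≤ D)
    (h : ∀ g, Adm μ g → ‖∫ x, u x * g x ∂μ‖ ≤ D * nrm (ENNReal.ofReal (P / (P - 1))) g μ)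
    (hEm : MeasurableSet E) (hEf : μ E ≠ ⊤) :
    ∫⁻ x in E, ‖u x‖ₑ ^ P ∂μ ≤ ENNReal.ofReal (D ^ P) := by
  set Q := P / (P - 1) with hQ
  have hPQ : P.HolderConjugate Q := Real.HolderConjugate.conjExponent hP
  have hQ1 : 1 < Q := hPQ.symm.lt
  have hQr : (ENNReal.ofReal Q).toReal = Q := ENNReal.toReal_ofReal (by linarith)
  have hQ1' : 1 ≤ ENNReal.ofReal Q := by
    rw [← ENNReal.ofReal_one]; exact ENNReal.ofReal_le_ofReal hQ1.le
  set g := wg (P - 2) E u with hg
  have hga : Adm μ g := wg_adm (by linarith) hEm hEf hu hC0 hC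
  have h1 := h g hga
  have h2 := wg_integral (μ := μ) (a := P - 2) (E := E) (u := u) (by linarith) hEm
  have e1 : P - 2 + 2 = P := by ring
  rw [e1] at h2
  rw [hg, h2, Complex.norm_real] at h1
  set J := ∫ x in E, ‖u x‖ ^ P ∂μ with hJ
  have hJ0 : 0 ≤ J := integral_nonneg fun x => by positivity
  rw [Real.norm_of_nonneg hJ0, ← hg] at h1
  have hgn : ∀ x, ‖g x‖ ≤ E.indicator (fun x => ‖u x‖ ^ (P - 1)) x := by
    intro x
    have := norm_wg_le (a := P - 2) (E := E) (u := u) x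
    have e2 : P - 2 + 1 = P - 1 := by ring
    rwa [e2] at this
  have hexp : (P - 1) * Q = P := hPQ.sub_one_mul_conj
  have hint : IntegrableOn (fun x => ‖u x‖ ^ P) E μ := by
    apply Measure.integrableOn_of_bounded (M := C ^ P) hEf
    · exact (hu.norm.pow_const P).aestronglyMeasurable
    · filter_upwards with x
      rw [Real.norm_of_nonneg (by positivity)]
      exact Real.rpow_le_rpow (norm_nonneg _) (hC x) (by linarith)
  have hJe : ∫⁻ x in E, ‖u x‖ₑ ^ P ∂μ = ENNReal.ofReal J := by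
    rw [hJ, ofReal_integral_eq_lintegral_ofReal hint (by filter_upwards with x; positivity)]
    congr 1
    ext x
    rw [← ofReal_norm, ENNReal.ofReal_rpow_of_nonneg (norm_nonneg _) (by linarith)]
  have h3 : nrm (ENNReal.ofReal Q) g μ ≤ J ^ (1 / Q) := by
    have h4 := nrm_rpow g hQ1' ENNReal.ofReal_ne_top (μ := μ)
    rw [hQr] at h4
    have h5 : (∫⁻ x, ‖g x‖ₑ ^ Q ∂μ) ≤ ENNReal.ofReal J := by
      rw [← hJe, ← lintegral_indicator hEm]
      apply lintegral_mono
      intro x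
      simp only
      by_cases hx : x ∈ E
      · rw [indicator_of_mem hx]
        have h6 := hgn x
        rw [indicator_of_mem hx] at h6
        rw [← ofReal_norm, ← ofReal_norm, ENNReal.ofReal_rpow_of_nonneg (norm_nonneg _) (by linarith),
          ENNReal.ofReal_rpow_of_nonneg (norm_nonneg _) (by linarith)]
        apply ENNReal.ofReal_le_ofReal
        calc ‖g x‖ ^ Q ≤ (‖u x‖ ^ (P - 1)) ^ Q := Real.rpow_le_rpow (norm_nonneg _) h6 (by linarith)
          _ = ‖u x‖ ^ P := by rw [← Real.rpow_mul (norm_nonneg _), hexp]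
      · have h6 := hgn x
        rw [indicator_of_notMem hx] at h6
        have h7 : g x = 0 := norm_eq_zero.1 (le_antisymm h6 (norm_nonneg _))
        rw [h7, enorm_zero, ENNReal.zero_rpow_of_pos (by linarith)]
        exact zero_le
    have h6 : nrm (ENNReal.ofReal Q) g μ ^ Q ≤ J := by
      rw [h4]
      have := ENNReal.toReal_mono ENNReal.ofReal_ne_top h5
      rwa [ENNReal.toReal_ofReal hJ0] at this
    calc nrm (ENNReal.ofReal Q) g μ = (nrm (ENNReal.ofReal Q) g μ ^ Q) ^ (1 / Q) := by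
          rw [← Real.rpow_mul nrm_nonneg, mul_one_div, div_self (by linarith), Real.rpow_one]
      _ ≤ J ^ (1 / Q) := Real.rpow_le_rpow (Real.rpow_nonneg nrm_nonneg _) h6 (by positivity)
  have h7 := dual_alg hJ0 hD hPQ (h1.trans (by gcongr))
  rw [hJe]
  apply ENNReal.ofReal_le_ofReal
  calc J = (J ^ (1 / P)) ^ P := by
        rw [← Real.rpow_mul hJ0, one_div, inv_mul_cancel₀ (by linarith), Real.rpow_one]
    _ ≤ D ^ P := Real.rpow_le_rpow (by positivity) h7 (by linarith)

/-- general duality -/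
theorem dual_gen [SigmaFinite μ] {P : ℝ} (hP : 1 < P) (hu : Measurable u) {C : ℝ} (hC0 : 0 ≤ C)
    (hC : ∀ x, ‖u x‖ ≤ C) {D : ℝ} (hD : 0 ≤ D)
    (h : ∀ g, Adm μ g → ‖∫ x, u x * g x ∂μ‖ ≤ D * nrm (ENNReal.ofReal (P / (P - 1))) g μ) :
    ∫⁻ x, ‖u x‖ₑ ^ P ∂μ ≤ ENNReal.ofReal (D ^ P) := by
  have hloc : ∀ n : ℕ, ∫⁻ x, (spanningSets μ n).indicator (fun x => ‖u x‖ₑ ^ P) x ∂μ ≤
      ENNReal.ofReal (D ^ P) := by
    intro n
    rw [lintegral_indicator (measurableSet_spanningSets μ n)]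
    exact dualg_local hP hu hC0 hC hD h (measurableSet_spanningSets μ n) (measure_spanningSets_lt_top μ n).ne
  have hsup : ∫⁻ x, ‖u x‖ₑ ^ P ∂μ = ⨆ n : ℕ, ∫⁻ x,
      (spanningSets μ n).indicator (fun x => ‖u x‖ₑ ^ P) x ∂μ := by
    rw [← lintegral_iSup]
    · congr 1
      ext x
      have hx : x ∈ ⋃ n, spanningSets μ n := by rw [iUnion_spanningSets]; trivial
      obtain ⟨N, hN⟩ := mem_iUnion.1 hx
      apply le_antisymm
      · refine le_iSup_of_le N ?_
        rw [indicator_of_mem hN]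
      · apply iSup_le
        intro n
        exact indicator_le_self _ _ _
    · intro n
      exact (hu.enorm.pow_const _).indicator (measurableSet_spanningSets μ n)
    · intro a b hab x
      apply indicator_le_indicator_of_subset
      · exact monotone_spanningSets μ hab
      · intro _; exact zero_le
  rw [hsup]
  exact iSup_le hloc

end

instance : SigmaFinite nu := by
  unfold nu
  apply SigmaFinite.withDensity_of_ne_top
  filter_upwards with x
  exact ENNReal.ofReal_ne_top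

instance : SigmaFinite nuT := by unfold nuT; infer_instance

section
variable {M : ℕ} {A : ℝ} {θ : ℝ → ℂ}

theorem measurable_UW (h : Bump M A θ) (Λ : ℝ) (m : ℤ) {F : ℝ × ℝ → ℂ} (hF : Adm nu F) :
    Measurable (UW Λ θ m F) := by
  unfold UW
  apply StronglyMeasurable.measurable
  apply StronglyMeasurable.integral_prod_right' (f := fun z : W3 × (ℝ × ℝ) =>
    angK (kw3 Λ θ z.1.1) m z.1.2.1 z.2.1 z.1.2.2 z.2.2 * F z.2)
  apply Measurable.stronglyMeasurable
  have h1 := angK_kw3_meas h Λ m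
  exact h1.mul (hF.meas.comp measurable_snd)

end

/-- space-time bound for the profile -/
theorem UW_bound (hD2 : StD2) (hD3 : StD3) {P : ℝ} (hP : 2 < P) {e : ℝ} (he : max (1 - 3 * (1 / P)) 0 < e) :
    ∃ (M K : ℕ) (C : ℝ), 0 ≤ C ∧
    ∀ (Λ : ℝ), 1 ≤ Λ → ∀ (A : ℝ) (θ : ℝ → ℂ), Bump M A θ → ∀ (m : ℤ) (F : ℝ × ℝ → ℂ),
    Adm nu F → ∫⁻ X in winT Λ, ‖UW Λ θ m F X‖ₑ ^ P ∂nuT ≤ ENNReal.ofReal ((C * A * Λ ^ (1/P + e) * (1 + |(m:ℝ)|) ^ K *
      nrm (ENNReal.ofReal P) F nu) ^ P) := by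
  obtain ⟨M, K, C, hC, h⟩ := scaleAll hD2 hD3 hP he
  obtain ⟨C2, hC2, h2⟩ := kw3_L1
  refine ⟨max M 4, K, 2 * Real.pi * C, by have := Real.pi_pos; positivity, ?_⟩
  intro Λ hΛ A θ hθ m F hF
  have hpi := Real.pi_pos
  have hΛ0 : 0 < Λ := by linarith
  have hA := hθ.nonneg
  set u : W3 → ℂ := (winT Λ).indicator (UW Λ θ m F) with hu
  have hum : Measurable u := (measurable_UW hθ Λ m hF).indicator (measurableSet_winT Λ)
  have hub : ∀ X, ‖u X‖ ≤ C2 * A * Λ * nrm ⊤ F nu := by
    intro X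
    have n1 : 0 ≤ nrm ⊤ F nu := nrm_nonneg
    by_cases hX : X ∈ winT Λ
    · rw [hu, indicator_of_mem hX]
      exact norm_UW_le (by positivity) hΛ0 hθ (h2 Λ hΛ A θ (hθ.mono (le_max_right _ _) le_rfl) X.1 hX) m hF X.2
    · rw [hu, indicator_of_notMem hX, norm_zero]; positivity
  have n1 : 0 ≤ nrm ⊤ F nu := nrm_nonneg
  have n2 : 0 ≤ nrm (ENNReal.ofReal P) F nu := nrm_nonneg
  have h3 := dual_gen (μ := nuT) (P := P) (by linarith) hum (C := C2 * A * Λ * nrm ⊤ F nu) (by positivity) hub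
    (D := 2 * Real.pi * C * A * Λ ^ (1/P + e) * (1 + |(m:ℝ)|) ^ K * nrm (ENNReal.ofReal P) F nu)
    (by positivity) (by
      intro g hg
      have h4 := h Λ hΛ A θ (hθ.mono (le_max_left _ _) le_rfl) m F _ hF
        (hg.indicator (measurableSet_winT Λ)) (winT_supp Λ g)
      have h5 : ∫ x, u x * g x ∂nuT = (2 * Real.pi : ℂ) * FormW Λ θ m F ((winT Λ).indicator g) := by
        rw [nuT_eq, integral_smul_measure, FormW_eq]
        rw [ENNReal.toReal_ofReal (by positivity), Complex.real_smul]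
        push_cast
        congr 1
        congr 1
        ext X
        rw [hu]
        by_cases hX : X ∈ winT Λ
        · rw [indicator_of_mem hX, indicator_of_mem hX]
        · rw [indicator_of_notMem hX, indicator_of_notMem hX]; ring
      rw [h5, norm_mul]
      have e1 : ‖(2 * Real.pi : ℂ)‖ = 2 * Real.pi := by
        rw [norm_mul]; simp [abs_of_pos hpi]
      rw [e1]
      have hQ : (1:ℝ≥0∞) ≤ ENNReal.ofReal (P / (P - 1)) := by
        rw [← ENNReal.ofReal_one]
        apply ENNReal.ofReal_le_ofReal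
        rw [le_div_iff₀ (by linarith)]; linarith
      have n3 := nrmT_indicator_le hg (winT Λ) hQ
      calc 2 * Real.pi * ‖FormW Λ θ m F ((winT Λ).indicator g)‖ ≤
            2 * Real.pi * (C * A * Λ ^ (1/P + e) * (1 + |(m:ℝ)|) ^ K *
              nrm (ENNReal.ofReal P) F nu * nrm (ENNReal.ofReal (P / (P - 1))) ((winT Λ).indicator g) nuT) := by gcongr
        _ ≤ 2 * Real.pi * (C * A * Λ ^ (1/P + e) * (1 + |(m:ℝ)|) ^ K *
              nrm (ENNReal.ofReal P) F nu * nrm (ENNReal.ofReal (P / (P - 1))) g nuT) := by gcongr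
        _ = _ := by ring)
  rw [← lintegral_indicator (measurableSet_winT Λ)]
  refine le_trans (le_of_eq ?_) h3
  congr 1
  ext X
  rw [hu]
  by_cases hX : X ∈ winT Λ
  · rw [indicator_of_mem hX, indicator_of_mem hX]
  · rw [indicator_of_notMem hX, indicator_of_notMem hX, enorm_zero, ENNReal.zero_rpow_of_pos (by linarith)]

end Vale.Agent.P106
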