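import Vale.Agent.P106.A.Op

set_option linter.all false

open MeasureTheory Complex Set Filter
open scoped ENNReal NNReal ContDiff FourierTransform SchwartzMap ComplexConjugate Topology

namespace Vale.Agent.P106

open Vale.Agent.P117

theorem jbJ_nonneg : 0 ≤ ∫ η, jb η := integral_nonneg jb_nonneg

theorem dT_int_bound : ∃ C : ℝ, 0 ≤ C ∧ ∀ Λ T υ : ℝ, 0 < Λ → Λ ≤ T →
    ‖dT Λ th0 T υ‖ ≤ C * Λ⁻¹ * (1 + |T - (|υ|)|) ^ (-(4:ℝ)) := by
  obtain ⟨C, hC, h⟩ := dT_bound 4
  obtain ⟨A, hA, hb⟩ := bump_of_compact contDiff_th0 (fun t ht => th0_supp ht) (4 + 3)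
  refine ⟨C * A, by positivity, ?_⟩
  intro Λ T υ hΛ hT
  have := h A th0 hb Λ T υ hΛ hT
  push_cast at this
  exact this

theorem wt4_le (T υ : ℝ) : (1 + |T - (|υ|)|) ^ (-(4:ℝ)) ≤ jT T υ := by
  refine le_trans ?_ (wt2_le_jT T υ)
  apply Real.rpow_le_rpow_of_exponent_le
  · linarith [abs_nonneg (T - |υ|)]
  · norm_num

theorem continuous_dT0 (Λ T : ℝ) : Continuous (dT Λ th0 T) := by
  obtain ⟨A, hA, hb⟩ := bump_of_compact contDiff_th0 (fun t ht => th0_supp ht) 5
  exact continuous_dT hb Λ T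

theorem integrable_dT {Λ T : ℝ} (hΛ : 0 < Λ) (hT : Λ ≤ T) : Integrable (dT Λ th0 T) := by
  obtain ⟨C, hC, h⟩ := dT_int_bound
  refine ((integrable_jT T).const_mul (C * Λ⁻¹)).mono' (continuous_dT0 Λ T).aestronglyMeasurable ?_
  filter_upwards with υ
  refine (h Λ T υ hΛ hT).trans ?_
  have := wt4_le T υ
  gcongr

theorem norm_ph2 (x y : ℝ) : ‖cexp (2 * Real.pi * I * x * y)‖ = 1 := by
  have : (2 * Real.pi * I * x * y : ℂ) = ((2 * Real.pi * x * y : ℝ) : ℂ) * I := by push_cast; ring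
  rw [this, Complex.norm_exp_ofReal_mul_I]

theorem Em_bound : ∃ C : ℝ, 0 ≤ C ∧ ∀ Λ T ρ : ℝ, 0 < Λ → Λ ≤ T → ‖Em Λ T ρ‖ ≤ C * Λ⁻¹ := by
  obtain ⟨C, hC, h⟩ := dT_int_bound
  have hJ := jbJ_nonneg
  refine ⟨C * (2 * ∫ η, jb η), by positivity, ?_⟩
  intro Λ T ρ hΛ hT
  unfold Em
  calc ‖∫ υ : ℝ, dT Λ th0 T υ * cexp (2 * Real.pi * I * υ * ρ)‖ ≤ ∫ υ, C * Λ⁻¹ * jT T υ := by
        apply norm_integral_le_of_norm_le ((integrable_jT T).const_mul _)
        filter_upwards with υ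
        rw [norm_mul, norm_ph2, mul_one]
        refine (h Λ T υ hΛ hT).trans ?_
        have := wt4_le T υ
        gcongr
    _ = _ := by rw [integral_const_mul, integral_jT]; ring

theorem Em_eq (Λ T ρ : ℝ) : Em Λ T ρ = 𝓕⁻ (dT Λ th0 T) ρ := by
  rw [Real.fourierInv_eq']
  unfold Em
  congr 1
  ext υ
  rw [smul_eq_mul, mul_comm]
  congr 2
  have : inner ℝ υ ρ = υ * ρ := by simp [mul_comm]
  rw [this]
  push_cast; ring

theorem continuous_Em {Λ T : ℝ} (hΛ : 0 < Λ) (hT : Λ ≤ T) : Continuous (Em Λ T) := by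
  have : Em Λ T = 𝓕⁻ (dT Λ th0 T) := by ext ρ; exact Em_eq Λ T ρ
  rw [this]
  exact continuous_fourierInv (integrable_dT hΛ hT)

/-- error symbol on `E3` -/
noncomputable def ES (Λ T : ℝ) (ξ : E3) : ℂ := Em Λ T ‖ξ‖ * X1 ξ

theorem integrable_X1 : Integrable X1 := contDiff_X1.continuous.integrable_of_hasCompactSupport compact_X1

theorem X1_bdd : ∃ C : ℝ, 0 ≤ C ∧ ∀ ξ, ‖X1 ξ‖ ≤ C := by
  obtain ⟨C, hC⟩ := compact_X1.exists_bound_of_continuous contDiff_X1.continuous
  exact ⟨C, (norm_nonneg _).trans (hC 0), hC⟩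

theorem integrable_ES {Λ T : ℝ} (hΛ : 0 < Λ) (hT : Λ ≤ T) : Integrable (ES Λ T) := by
  obtain ⟨C, hC, h⟩ := Em_bound
  unfold ES
  apply integrable_X1.bdd_mul (c := C * Λ⁻¹)
  · exact ((continuous_Em hΛ hT).comp continuous_norm).aestronglyMeasurable
  · filter_upwards with ξ
    exact h Λ T _ hΛ hT

/-- error kernel -/
noncomputable def KE (Λ T : ℝ) : E3 → ℂ := 𝓕⁻ (ES Λ T)

theorem KE_eq {Λ T : ℝ} (hΛ : 0 < Λ) (hT : Λ ≤ T) (x : E3) :
    KE Λ T x = ∫ υ : ℝ, dT Λ th0 T υ * 𝓕⁻ (wm1 X1 υ) x := by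
  unfold KE
  rw [Real.fourierInv_eq']
  have e1 : ∀ ξ : E3, cexp ((2 * Real.pi * inner ℝ ξ x : ℝ) * I) • ES Λ T ξ =
      ∫ υ : ℝ, dT Λ th0 T υ * (cexp ((2 * Real.pi * inner ℝ ξ x : ℝ) * I) * wm1 X1 υ ξ) := by
    intro ξ
    unfold ES Em
    rw [smul_eq_mul, ← integral_mul_const, ← integral_const_mul]
    congr 1
    ext υ
    unfold wm1
    have : cexp (2 * Real.pi * I * ((υ * ‖ξ‖ : ℝ) : ℂ)) = cexp (2 * Real.pi * I * υ * ‖ξ‖) := by
      congr 1; push_cast; ring
    rw [this]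
    ring
  simp_rw [e1]
  rw [integral_integral_swap]
  · congr 1
    ext υ
    rw [integral_const_mul, Real.fourierInv_eq']
    rfl
  · have hI : Integrable (fun z : E3 × ℝ => X1 z.1 * dT Λ th0 T z.2) (volume.prod volume) :=
      integrable_X1.mul_prod (integrable_dT hΛ hT)
    refine hI.mono ?_ ?_
    · apply Continuous.aestronglyMeasurable
      have h1 := continuous_dT0 Λ T
      have h2 := contDiff_X1.continuous
      unfold Function.uncurry wm1
      fun_prop
    · filter_upwards with z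
      simp only [Function.uncurry, norm_mul]
      rw [norm_wm1, Complex.norm_exp_ofReal_mul_I, one_mul, mul_comm]

theorem KE_L1 : ∃ C : ℝ, 0 ≤ C ∧ ∀ Λ T : ℝ, 1 ≤ Λ → T ∈ Icc Λ (2 * Λ) →
    ∫⁻ x, ‖KE Λ T x‖ₑ ≤ ENNReal.ofReal (C * Λ) := by
  obtain ⟨C1, hC1, h1⟩ := dT_int_bound
  obtain ⟨C2, hC2, h2⟩ := wave_L1 X1 contDiff_X1 compact_X1 (r0 := 3/8) (by norm_num) (fun ξ hξ => X1_supp hξ)
    (ε := 1/2) (by norm_num)
  have hJ := jbJ_nonneg
  refine ⟨9 * C1 * C2 * (2 * ∫ η, jb η), by positivity, ?_⟩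
  intro Λ T hΛ hT
  have hΛ0 : 0 < Λ := by linarith
  have hT0 : 0 ≤ T := by linarith [hT.1]
  have hmeas : Measurable (fun z : E3 × ℝ => 𝓕⁻ (wm1 X1 z.2) z.1) := by
    apply StronglyMeasurable.measurable
    have : (fun z : E3 × ℝ => 𝓕⁻ (wm1 X1 z.2) z.1) = fun z : E3 × ℝ =>
        ∫ ξ : E3, cexp ((2 * Real.pi * inner ℝ ξ z.1 : ℝ) * I) • wm1 X1 z.2 ξ := by
      ext z; rw [Real.fourierInv_eq']
    rw [this]
    apply StronglyMeasurable.integral_prod_right' (f := fun w : (E3 × ℝ) × E3 =>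
      cexp ((2 * Real.pi * inner ℝ w.2 w.1.1 : ℝ) * I) • wm1 X1 w.1.2 w.2)
    apply Continuous.stronglyMeasurable
    have h3 := contDiff_X1.continuous
    unfold wm1
    fun_prop
  have hdm : Measurable (dT Λ th0 T) := (continuous_dT0 Λ T).measurable
  calc ∫⁻ x, ‖KE Λ T x‖ₑ ≤ ∫⁻ x, ∫⁻ υ, ‖dT Λ th0 T υ‖ₑ * ‖𝓕⁻ (wm1 X1 υ) x‖ₑ := by
        apply lintegral_mono
        intro x
        simp only
        rw [KE_eq hΛ0 hT.1]
        refine (enorm_integral_le_lintegral_enorm _).trans (le_of_eq ?_)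
        simp_rw [enorm_mul]
    _ = ∫⁻ υ, ∫⁻ x, ‖dT Λ th0 T υ‖ₑ * ‖𝓕⁻ (wm1 X1 υ) x‖ₑ := by
        rw [lintegral_lintegral_swap]
        exact ((hdm.comp measurable_snd).enorm.mul hmeas.enorm).aemeasurable
    _ ≤ ∫⁻ υ, ENNReal.ofReal (9 * C1 * C2 * Λ * jT T υ) := by
        apply lintegral_mono
        intro υ
        simp only
        rw [lintegral_const_mul' _ _ (by exact enorm_ne_top)]
        calc ‖dT Λ th0 T υ‖ₑ * ∫⁻ x, ‖𝓕⁻ (wm1 X1 υ) x‖ₑ ≤
            ENNReal.ofReal (C1 * Λ⁻¹ * (1 + |T - (|υ|)|) ^ (-(4:ℝ))) *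
              ENNReal.ofReal (C2 * (1 + |υ|) ^ (3/2 + 1/2 : ℝ)) := by
              gcongr
              · rw [← ofReal_norm]
                exact ENNReal.ofReal_le_ofReal (h1 Λ T υ hΛ0 hT.1)
              · exact h2 υ
          _ = ENNReal.ofReal (C1 * Λ⁻¹ * (1 + |T - (|υ|)|) ^ (-(4:ℝ)) * (C2 * (1 + |υ|) ^ (3/2 + 1/2 : ℝ))) := by
              rw [← ENNReal.ofReal_mul (by positivity)]
          _ ≤ _ := by
              apply ENNReal.ofReal_le_ofReal
              set Y := 1 + |T - (|υ|)| with hY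
              have hY1 : 1 ≤ Y := by rw [hY]; linarith [abs_nonneg (T - |υ|)]
              have hY0 : 0 < Y := by linarith
              have h5 : 1 + |υ| ≤ 3 * Λ * Y := by
                have a1 : |υ| ≤ T + |T - (|υ|)| := by
                  have := neg_abs_le (T - |υ|)
                  linarith
                have a2 := hT.2
                rw [hY]
                have a3 := abs_nonneg (T - |υ|)
                nlinarith
              have h6 : (1 + |υ|) ^ (3/2 + 1/2 : ℝ) ≤ 9 * Λ ^ 2 * Y ^ (2:ℝ) := by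
                have e1 : (3/2 + 1/2 : ℝ) = 2 := by norm_num
                rw [e1]
                calc (1 + |υ|) ^ (2:ℝ) ≤ (3 * Λ * Y) ^ (2:ℝ) :=
                      Real.rpow_le_rpow (by positivity) h5 (by norm_num)
                  _ = _ := by
                    rw [Real.mul_rpow (by positivity) hY0.le]
                    congr 1
                    have : (3 * Λ) ^ (2:ℝ) = (3 * Λ) ^ 2 := by exact_mod_cast Real.rpow_natCast (3 * Λ) 2
                    rw [this]; ring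
              have h7 : Y ^ (-(4:ℝ)) * Y ^ (2:ℝ) ≤ jT T υ := by
                rw [← Real.rpow_add hY0]
                have := wt2_le_jT T υ
                rw [← hY] at this
                refine le_trans (le_of_eq ?_) this
                norm_num
              calc C1 * Λ⁻¹ * Y ^ (-(4:ℝ)) * (C2 * (1 + |υ|) ^ (3/2 + 1/2 : ℝ)) ≤
                  C1 * Λ⁻¹ * Y ^ (-(4:ℝ)) * (C2 * (9 * Λ ^ 2 * Y ^ (2:ℝ))) := by gcongr
                _ = 9 * C1 * C2 * (Λ⁻¹ * Λ ^ 2) * (Y ^ (-(4:ℝ)) * Y ^ (2:ℝ)) := by ring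
                _ ≤ 9 * C1 * C2 * (Λ⁻¹ * Λ ^ 2) * jT T υ := by gcongr
                _ = _ := by
                  congr 2
                  field_simp
    _ = ENNReal.ofReal (∫ υ, 9 * C1 * C2 * Λ * jT T υ) := by
        rw [ofReal_integral_eq_lintegral_ofReal ((integrable_jT T).const_mul _)]
        filter_upwards with υ
        have := jT_nonneg T υ
        simp only [Pi.zero_apply]
        positivity
    _ = _ := by
        rw [integral_const_mul, integral_jT]
        congr 1; ring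

theorem rpow_interp' {X Λ e0 e1 t : ℝ} (hX : 0 ≤ X) (hΛ : 0 < Λ) :
    (X * Λ ^ e0) ^ (1 - t) * (X * Λ ^ e1) ^ t = X * Λ ^ (e0 * (1 - t) + e1 * t) := rpow_interp hX hΛ

/-- bound for the error operator -/
theorem Err_op {P : ℝ} (hP : 2 < P) {e : ℝ} (he : max (1 - 3 * (1 / P)) 0 < e) :
    ∃ C : ℝ, 0 ≤ C ∧ ∀ Λ T : ℝ, 1 ≤ Λ → T ∈ Icc Λ (2 * Λ) → ∀ f : E3 → ℂ, Adm volume f →
    ∫⁻ x : E3, ‖cv (KE Λ T) f x‖ₑ ^ P ≤ ENNReal.ofReal ((C * Λ ^ e * nrm (ENNReal.ofReal P) f volume) ^ P) := by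
  obtain ⟨C1, hC1, h1⟩ := Em_bound
  obtain ⟨B, hB, hX⟩ := X1_bdd
  obtain ⟨C2, hC2, h2⟩ := KE_L1
  have hP0 : 0 < P := by linarith
  set Cm := max (C1 * B) C2 with hCm
  have hCm0 : 0 ≤ Cm := le_max_of_le_right hC2
  refine ⟨Cm, hCm0, ?_⟩
  intro Λ T hΛ hT f hf
  have hΛ0 : 0 < Λ := by linarith
  have hESi := integrable_ES hΛ0 hT.1
  have hKc : Continuous (KE Λ T) := continuous_fourierInv hESi
  have hKb : ∀ x, ‖KE Λ T x‖ ≤ ∫ ξ, ‖ES Λ T ξ‖ := fun x => norm_fourierInv_le _ x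
  have hBil := bilAdm_BK hKc hKb
  set t : ℝ := 1 - 2 / P with ht
  have h2P : 2 / P < 1 := by rw [div_lt_one hP0]; exact hP
  have ht0 : 0 < t := by rw [ht]; linarith
  have ht1 : t < 1 := by rw [ht]; have : 0 < 2 / P := by positivity
                         linarith
  have hQ1 : 0 < P / (P - 1) := div_pos hP0 (by linarith)
  have hform : ∀ g : E3 → ℂ, Adm volume g → ‖∫ x, cv (KE Λ T) f x * g x‖ ≤
      (Cm * Λ ^ e * nrm (ENNReal.ofReal P) f volume) * nrm (ENNReal.ofReal (P / (P - 1))) g volume := by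
    intro g hg
    have hT1 := T01 hBil (p0 := 2) (p1 := ⊤) (q0 := 2)
      (q1 := 1) (p := ENNReal.ofReal P) (q := ENNReal.ofReal (P / (P - 1)))
      (by norm_num) (by norm_num) le_top (by norm_num) (by norm_num) le_rfl ht0 ht1
      (by
        rw [toReal_inv_ofReal hP0]
        simp only [ENNReal.div_top, ENNReal.toReal_zero, mul_zero, add_zero]
        rw [ht, one_div, one_div, ENNReal.toReal_inv, ENNReal.toReal_ofNat]; field_simp; ring)
      (by
        rw [toReal_inv_ofReal hQ1]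
        simp only [div_one, ENNReal.toReal_one, mul_one]
        rw [ht, one_div_div, one_div, ENNReal.toReal_inv, ENNReal.toReal_ofNat]; field_simp; ring)
      (by rw [← ENNReal.ofReal_one]; exact ENNReal.ofReal_le_ofReal (by linarith))
      (by
        rw [← ENNReal.ofReal_one]
        apply ENNReal.ofReal_le_ofReal
        rw [le_div_iff₀ (by linarith)]; linarith)
      (M0 := Cm * Λ ^ (-1:ℝ)) (M1 := Cm * Λ ^ (1:ℝ)) (by positivity) (by positivity)
      (fun F G hF hG => by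
        have h3 := multiplier_L2 (G := ES Λ T) hESi (B := Cm * Λ ^ (-1:ℝ)) (by
          intro ξ
          unfold ES
          rw [norm_mul, Real.rpow_neg_one]
          calc ‖Em Λ T ‖ξ‖‖ * ‖X1 ξ‖ ≤ C1 * Λ⁻¹ * B := by
                gcongr
                · exact h1 Λ T _ hΛ0 hT.1
                · exact hX ξ
            _ = C1 * B * Λ⁻¹ := by ring
            _ ≤ Cm * Λ⁻¹ := by
                have := le_max_left (C1 * B) C2
                gcongr) hF hG
        exact h3)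
      (fun F G hF hG => by
        have h4 : ∀ x, ‖cv (KE Λ T) F x‖ ≤ Cm * Λ * nrm ⊤ F volume := by
          intro x
          have h5 := linf_cv hKc.measurable hF.meas x
          have h6 : ‖cv (KE Λ T) F x‖ₑ ≤ ENNReal.ofReal (Cm * Λ * nrm ⊤ F volume) := by
            refine h5.trans ?_
            rw [ENNReal.ofReal_mul (by positivity), hF.ofReal_nrm le_top]
            gcongr
            refine (h2 Λ T hΛ hT).trans (ENNReal.ofReal_le_ofReal ?_)
            have := le_max_right (C1 * B) C2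
            gcongr
          rw [← ofReal_norm] at h6
          have n0 : 0 ≤ nrm ⊤ F volume := nrm_nonneg
          exact (ENNReal.ofReal_le_ofReal_iff (by positivity)).1 h6
        have n0 : 0 ≤ nrm ⊤ F volume := nrm_nonneg
        unfold BK
        have h7 : ‖∫ x, cv (KE Λ T) F x * G x‖ ≤ ∫ x, Cm * Λ * nrm ⊤ F volume * ‖G x‖ := by
          apply norm_integral_le_of_norm_le (hG.int.norm.const_mul _)
          filter_upwards with x
          rw [norm_mul]
          have := h4 x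
          gcongr
        refine h7.trans (le_of_eq ?_)
        rw [integral_const_mul, Real.rpow_one]
        congr 1
        unfold nrm
        rw [eLpNorm_one_eq_lintegral_enorm, integral_norm_eq_lintegral_enorm hG.int.aestronglyMeasurable])
      hf hg
    rw [rpow_interp hCm0 hΛ0] at hT1
    unfold BK at hT1
    refine hT1.trans ?_
    have h7 : Λ ^ (-1 * (1 - t) + 1 * t) ≤ Λ ^ e := by
      apply Real.rpow_le_rpow_of_exponent_le hΛ
      have e8 : -1 * (1 - t) + 1 * t = 1 - 4 * (1 / P) := by rw [ht]; ring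
      rw [e8]
      have := le_max_left (1 - 3 * (1 / P)) 0
      have : 0 < 1 / P := by positivity
      linarith
    have n1 : 0 ≤ nrm (ENNReal.ofReal P) f volume := nrm_nonneg
    have n2 : 0 ≤ nrm (ENNReal.ofReal (P / (P - 1))) g volume := nrm_nonneg
    gcongr
  have n1 : 0 ≤ nrm (ENNReal.ofReal P) f volume := nrm_nonneg
  have hcvm : Measurable (cv (KE Λ T) f) := (continuous_cv hKc hKb hf.int).measurable
  have hES0 : 0 ≤ ∫ ξ, ‖ES Λ T ξ‖ := integral_nonneg fun _ => norm_nonneg _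
  have hf0 : 0 ≤ ∫ y, ‖f y‖ := integral_nonneg fun _ => norm_nonneg _
  exact dual_gen (by linarith) hcvm (C := (∫ ξ, ‖ES Λ T ξ‖) * ∫ y, ‖f y‖) (by positivity)
    (fun x => norm_cv_le hKb hf.int x) (by positivity) hform

end Vale.Agent.P106
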