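import Vale.Agent.P106.A.AllM

set_option linter.all false

open MeasureTheory Complex Set Filter
open scoped ENNReal NNReal ContDiff FourierTransform SchwartzMap ComplexConjugate Topology

namespace Vale.Agent.P106

open Vale.Agent.P117

/-- symbol of `J^α` -/
noncomputable def jw (α : ℝ) (ξ : E3) : ℂ := (((1 + 4 * Real.pi ^ 2 * ‖ξ‖ ^ 2) ^ (α / 2) : ℝ) : ℂ)

theorem jw_temperate (α : ℝ) : (jw α).HasTemperateGrowth := by
  have h1 : (fun ξ : E3 => (1 + ‖ξ‖ ^ 2) ^ (α / 2)).HasTemperateGrowth :=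
    Function.hasTemperateGrowth_one_add_norm_sq_rpow E3 (α / 2)
  have h2 : (fun ξ : E3 => ((2 * Real.pi) • ContinuousLinearMap.id ℝ E3) ξ).HasTemperateGrowth :=
    ContinuousLinearMap.hasTemperateGrowth _
  have h3 := Function.HasTemperateGrowth.comp Function.Complex.hasTemperateGrowth_ofReal (h1.comp h2)
  have e : (Complex.ofReal ∘ ((fun ξ : E3 => (1 + ‖ξ‖ ^ 2) ^ (α / 2)) ∘ fun ξ : E3 => ((2 * Real.pi) • ContinuousLinearMap.id ℝ E3) ξ)) = jw α := by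
    ext ξ
    simp only [Function.comp, jw]
    congr 3
    have hpi := Real.pi_pos
    simp only [ContinuousLinearMap.smul_apply, ContinuousLinearMap.id_apply]
    rw [norm_smul, Real.norm_of_nonneg (by positivity)]
    ring
  rw [← e]
  exact h3

/-- `J^α f` as a Schwartz function -/
noncomputable def jS (α : ℝ) (f : 𝓢(E3, ℂ)) : 𝓢(E3, ℂ) :=
  𝓕⁻ (SchwartzMap.smulLeftCLM ℂ (jw α) (𝓕 f) : 𝓢(E3, ℂ))

theorem fourier_jS (α : ℝ) (f : 𝓢(E3, ℂ)) (ξ : E3) : 𝓕 (jS α f : E3 → ℂ) ξ = jw α ξ * 𝓕 (f : E3 → ℂ) ξ := by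
  unfold jS
  rw [← SchwartzMap.fourier_coe]
  have : 𝓕 (𝓕⁻ (SchwartzMap.smulLeftCLM ℂ (jw α) (𝓕 f)) : 𝓢(E3, ℂ)) = SchwartzMap.smulLeftCLM ℂ (jw α) (𝓕 f) := by simp
  rw [this, SchwartzMap.smulLeftCLM_apply_apply (jw_temperate α), smul_eq_mul, SchwartzMap.fourier_coe]

theorem jS_eq (α : ℝ) (f : 𝓢(E3, ℂ)) : (jS α f : E3 → ℂ) = 𝓕⁻ (fun ξ => jw α ξ * 𝓕 (f : E3 → ℂ) ξ) := by
  have h1 : (fun ξ => jw α ξ * 𝓕 (f : E3 → ℂ) ξ) = 𝓕 (jS α f : E3 → ℂ) := by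
    ext ξ; rw [fourier_jS]
  rw [h1]
  exact ((jS α f).continuous.fourierInv_fourier_eq (jS α f).integrable (fint_sch _)).symm

theorem bf_jw (α : ℝ) (ξ : E3) : bf α ‖ξ‖ * jw α ξ = 1 := by
  unfold bf jw
  have hpi := Real.pi_pos
  rw [← Complex.ofReal_mul, ← Real.rpow_add (by positivity)]
  have : -α / 2 + α / 2 = 0 := by ring
  rw [this, Real.rpow_zero]
  simp

theorem uu_jS (α : ℝ) (f : 𝓢(E3, ℂ)) (t : ℝ) (x : E3) : uu α (jS α f) t x =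
    𝓕⁻ (fun ξ => cexp (2 * Real.pi * I * (t * ‖ξ‖ : ℝ)) * 𝓕 (f : E3 → ℂ) ξ) x := by
  have : (fun ξ => sm α t ξ * 𝓕 (jS α f : E3 → ℂ) ξ) =
      fun ξ => cexp (2 * Real.pi * I * (t * ‖ξ‖ : ℝ)) * 𝓕 (f : E3 → ℂ) ξ := by
    ext ξ
    rw [fourier_jS]
    unfold sm
    linear_combination (cexp (2 * Real.pi * I * (t * ‖ξ‖ : ℝ)) * 𝓕 (f : E3 → ℂ) ξ) * bf_jw α ξ
  unfold uu
  rw [this]

/-- change of normalization -/
theorem norml (f : E3 → ℂ) (M : E3 → ℂ) (x : E3) :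
    ((1 / (2 * Real.pi) ^ 3 : ℝ) : ℂ) * ∫ ξ : E3, cexp (I * ((inner ℝ x ξ : ℝ) : ℂ)) * (M ξ *
      ∫ y : E3, cexp (-(I * ((inner ℝ y ξ : ℝ) : ℂ))) * f y) =
    𝓕⁻ (fun η => M ((2 * Real.pi) • η) * 𝓕 f η) x := by
  have hpi := Real.pi_pos
  rw [Real.fourierInv_eq']
  have h1 := Measure.integral_comp_smul (volume : Measure E3)
    (fun ξ : E3 => cexp (I * ((inner ℝ x ξ : ℝ) : ℂ)) * (M ξ *
      ∫ y : E3, cexp (-(I * ((inner ℝ y ξ : ℝ) : ℂ))) * f y)) (2 * Real.pi)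
  simp only [finrank_euclideanSpace, Fintype.card_fin] at h1
  rw [abs_of_pos (by positivity)] at h1
  have h2 : ∀ v : E3, cexp ((2 * Real.pi * inner ℝ v x : ℝ) * I) • (M ((2 * Real.pi) • v) * 𝓕 f v) =
      cexp (I * ((inner ℝ x ((2 * Real.pi) • v) : ℝ) : ℂ)) * (M ((2 * Real.pi) • v) *
      ∫ y : E3, cexp (-(I * ((inner ℝ y ((2 * Real.pi) • v) : ℝ) : ℂ))) * f y) := by
    intro v
    rw [Real.fourier_eq', smul_eq_mul]
    congr 1
    · congr 1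
      rw [inner_smul_right, real_inner_comm]
      push_cast
      ring
    · congr 1
      congr 1
      ext y
      rw [smul_eq_mul]
      congr 2
      rw [inner_smul_right]
      push_cast
      ring
  simp_rw [h2]
  rw [h1, Complex.real_smul, one_div]

end Vale.Agent.P106
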