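import Vale.Agent.P106.A.Red

set_option linter.all false

open MeasureTheory Complex Set
open scoped ENNReal NNReal ContDiff FourierTransform SchwartzMap ComplexConjugate Topology

namespace Vale.Agent.P106

open Vale.Agent.P117

/-- time and half plane variables -/
abbrev W3 := ℝ × (ℝ × ℝ)

noncomputable def nuT : Measure W3 := (volume : Measure ℝ).prod nu
noncomputable def nuT2 : Measure W3 := (volume : Measure ℝ).prod nu2

instance : SFinite nu2 := by unfold nu2; infer_instance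
instance : SFinite nu := by rw [nu_eq]; infer_instance
instance : SFinite nuT := by unfold nuT; infer_instance
instance : SFinite nuT2 := by unfold nuT2; infer_instance

theorem nuT2_eq : nuT2 = (volume.restrict {X : W3 | 0 < X.2.1}).withDensity
    (fun X => ENNReal.ofReal X.2.1) := by
  unfold nuT2
  rw [nu2_eq, prod_withDensity_right (by fun_prop)]
  congr 1
  have h1 : {X : W3 | 0 < X.2.1} = univ ×ˢ {p : ℝ × ℝ | 0 < p.1} := by ext p; simp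
  rw [h1, Measure.volume_eq_prod ℝ (ℝ × ℝ), ← Measure.prod_restrict, Measure.restrict_univ]

theorem nuT_eq : nuT = ENNReal.ofReal (2 * Real.pi) • nuT2 := by
  unfold nuT nuT2
  rw [nu_eq, Measure.prod_smul_right]

theorem integral_nuT2' {f : W3 → ℂ} (hf : ∀ p, f p ≠ 0 → 0 < p.2.1) :
    ∫ p, f p ∂nuT2 = ∫ p, (p.2.1 : ℂ) * f p := by
  have hs : MeasurableSet {X : W3 | 0 < X.2.1} :=
    measurableSet_lt measurable_const (measurable_fst.comp measurable_snd)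
  have h1 : ∫ p, f p ∂nuT2 = ∫ p in {X : W3 | 0 < X.2.1}, (p.2.1 : ℂ) * f p := by
    rw [nuT2_eq, integral_withDensity_eq_integral_toReal_smul (by fun_prop)
      (by filter_upwards with p; exact ENNReal.ofReal_lt_top)]
    apply setIntegral_congr_fun hs
    intro p hp
    have : 0 < p.2.1 := hp
    simp only
    rw [ENNReal.toReal_ofReal this.le, Complex.real_smul]
  rw [h1, setIntegral_eq_integral_of_forall_compl_eq_zero]
  intro p hp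
  by_cases h : f p = 0
  · rw [h, mul_zero]
  · exact absurd (hf p h) hp

theorem lintegral_nuT2 {f : W3 → ℝ≥0∞} (hf : Measurable f) :
    ∫⁻ p, f p ∂nuT2 = ∫⁻ p in {p : W3 | 0 < p.2.1}, ENNReal.ofReal p.2.1 * f p := by
  rw [nuT2_eq, lintegral_withDensity_eq_lintegral_mul _ (by fun_prop) hf]
  rfl

theorem nuT2_le : nuT2 ≤ nuT := by
  rw [nuT_eq]
  have h1 : (1 : ℝ≥0∞) ≤ ENNReal.ofReal (2 * Real.pi) := by
    rw [← ENNReal.ofReal_one]
    apply ENNReal.ofReal_le_ofReal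
    linarith [Real.pi_gt_three]
  intro s
  rw [Measure.smul_apply, smul_eq_mul]
  exact le_mul_of_one_le_left (zero_le) h1

theorem integrable_nuT2 {F : W3 → ℂ} (hF : Adm nuT F) : Integrable F nuT2 := hF.int.mono_measure nuT2_le

theorem wnormT {S : ℝ} (hS : 0 < S) {F : W3 → ℂ} (hF : Measurable F)
    (hFs : ∀ y, F y ≠ 0 → y.2.1 ∈ Icc S (2 * S)) {p : ℝ≥0∞} (hp : 1 ≤ p) (hp' : p ≠ ⊤) :
    eLpNorm (fun y => (y.2.1 : ℂ) * F y) p volume ≤
      ENNReal.ofReal ((2 * S) ^ (1 - 1 / p.toReal)) * eLpNorm F p nuT := by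
  have hp0 : p ≠ 0 := fun h => by rw [h] at hp; exact absurd hp (by norm_num)
  have hp1 : 1 ≤ p.toReal := by
    rw [← ENNReal.toReal_one]
    exact ENNReal.toReal_mono hp' hp
  have hpp : 0 < p.toReal := by linarith
  have hs : MeasurableSet {X : W3 | 0 < X.2.1} :=
    measurableSet_lt measurable_const (measurable_fst.comp measurable_snd)
  rw [eLpNorm_eq_lintegral_rpow_enorm_toReal hp0 hp', eLpNorm_eq_lintegral_rpow_enorm_toReal hp0 hp']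
  have h1 : ∫⁻ y, ‖(y.2.1 : ℂ) * F y‖ₑ ^ p.toReal ≤
      ENNReal.ofReal ((2 * S) ^ (p.toReal - 1)) * ∫⁻ y, ‖F y‖ₑ ^ p.toReal ∂nuT := by
    calc ∫⁻ y, ‖(y.2.1 : ℂ) * F y‖ₑ ^ p.toReal ≤
          ∫⁻ y in {X : W3 | 0 < X.2.1}, ENNReal.ofReal ((2 * S) ^ (p.toReal - 1)) *
            (ENNReal.ofReal y.2.1 * ‖F y‖ₑ ^ p.toReal) := by
          rw [← lintegral_indicator hs]
          apply lintegral_mono
          intro y
          by_cases hy : F y = 0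
          · simp [hy, hpp]
          have hy1 := hFs y hy
          have hy0 : 0 < y.2.1 := by linarith [hy1.1]
          simp only
          rw [indicator_of_mem (show y ∈ {X : W3 | 0 < X.2.1} from hy0), enorm_mul,
            ENNReal.mul_rpow_of_nonneg _ _ hpp.le, ← mul_assoc]
          gcongr
          have e1 : ‖(y.2.1 : ℂ)‖ₑ = ENNReal.ofReal y.2.1 := by
            rw [← ofReal_norm, Complex.norm_real, Real.norm_of_nonneg hy0.le]
          rw [e1, ENNReal.ofReal_rpow_of_pos hy0, ← ENNReal.ofReal_mul (by positivity)]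
          apply ENNReal.ofReal_le_ofReal
          have e2 : y.2.1 ^ p.toReal = y.2.1 ^ (p.toReal - 1) * y.2.1 := by
            conv_rhs => rw [← Real.rpow_one y.2.1, ← Real.rpow_mul hy0.le, one_mul]
            rw [← Real.rpow_add hy0]
            congr 1; ring
          rw [e2]
          gcongr
          exact hy1.2
      _ = ENNReal.ofReal ((2 * S) ^ (p.toReal - 1)) * ∫⁻ y, ‖F y‖ₑ ^ p.toReal ∂nuT2 := by
          have hF1 : Measurable fun y => ‖F y‖ₑ ^ p.toReal := hF.enorm.pow_const _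
          have hF2 : Measurable fun y : W3 => ENNReal.ofReal y.2.1 * ‖F y‖ₑ ^ p.toReal :=
            (measurable_fst.comp measurable_snd).ennreal_ofReal.mul hF1
          rw [lintegral_const_mul _ hF2, lintegral_nuT2 hF1]
      _ ≤ _ := by
          gcongr
          exact nuT2_le
  calc _ ≤ (ENNReal.ofReal ((2 * S) ^ (p.toReal - 1)) * ∫⁻ y, ‖F y‖ₑ ^ p.toReal ∂nuT) ^ (1 / p.toReal) := by
        gcongr
    _ = _ := by
        rw [ENNReal.mul_rpow_of_nonneg _ _ (by positivity), ENNReal.ofReal_rpow_of_pos (by positivity),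
          ← Real.rpow_mul (by positivity)]
        congr 4
        field_simp

theorem wadmT {S : ℝ} (hS : 0 < S) {F : W3 → ℂ} (hF : Adm nuT F)
    (hFs : ∀ y, F y ≠ 0 → y.2.1 ∈ Icc S (2 * S)) : Adm volume (fun y : W3 => (y.2.1 : ℂ) * F y) := by
  have hm : Measurable (fun y : W3 => (y.2.1 : ℂ) * F y) := by
    have := hF.meas
    fun_prop
  refine ⟨hm, ⟨hm.aestronglyMeasurable, ?_⟩, ?_⟩
  · have h1 := wnormT hS hF.meas hFs (p := 1) le_rfl (by norm_num)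
    rw [eLpNorm_one_eq_lintegral_enorm] at h1
    refine lt_of_le_of_lt h1 ?_
    exact ENNReal.mul_lt_top ENNReal.ofReal_lt_top (hF.eLpNorm_ne_top le_rfl).lt_top
  · obtain ⟨C, hC⟩ := hF.bdd
    have hC0 : 0 ≤ C := (norm_nonneg _).trans (hC 0)
    refine ⟨2 * S * C, fun y => ?_⟩
    by_cases hy : F y = 0
    · rw [hy]; simp; positivity
    have hy1 := hFs y hy
    have hy0 : 0 < y.2.1 := by linarith [hy1.1]
    rw [norm_mul, Complex.norm_real, Real.norm_of_nonneg hy0.le]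
    have := hC y
    have := hy1.2
    gcongr

theorem wnrmT {S : ℝ} (hS : 0 < S) {F : W3 → ℂ} (hF : Adm nuT F)
    (hFs : ∀ y, F y ≠ 0 → y.2.1 ∈ Icc S (2 * S)) {p : ℝ≥0∞} (hp : 1 ≤ p) (hp' : p ≠ ⊤) :
    nrm p (fun y : W3 => (y.2.1 : ℂ) * F y) volume ≤ (2 * S) ^ (1 - 1 / p.toReal) * nrm p F nuT := by
  have h1 := wnormT hS hF.meas hFs hp hp'
  have h2 : (2 * S) ^ (1 - 1 / p.toReal) * nrm p F nuT =
      (ENNReal.ofReal ((2 * S) ^ (1 - 1 / p.toReal)) * eLpNorm F p nuT).toReal := by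
    rw [ENNReal.toReal_mul, ENNReal.toReal_ofReal (by positivity)]
    rfl
  rw [h2]
  exact ENNReal.toReal_mono (ENNReal.mul_ne_top ENNReal.ofReal_ne_top (hF.eLpNorm_ne_top hp)) h1

theorem T_eq_Bw {Λ : ℝ} {θ : ℝ → ℂ} (σ : Bool) {f : ℝ × ℝ → ℂ} {g : W3 → ℂ} (hf : ∀ p, f p ≠ 0 → 0 < p.1)
    (hg : ∀ p, g p ≠ 0 → 0 < p.2.1) :
    ∫ X, (∫ y, kw Λ θ X.1 ((X.2.1 - sg σ * y.1) ^ 2 + (X.2.2 - y.2) ^ 2) * f y * g X ∂nu2) ∂nuT2 =
    Bw Λ θ ((fun y : ℝ × ℝ => (y.1 : ℂ) * f y) ∘ rfe σ) (fun X : W3 => (X.2.1 : ℂ) * g X) := by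
  unfold Bw
  rw [integral_nuT2']
  · congr 1
    ext X
    rw [integral_nu2', ← (mp_rfe σ).integral_comp (rfe σ).measurableEmbedding, ← integral_const_mul,
      ← integral_mul_const]
    · congr 1
      ext y
      have e1 : X.2.1 - sg σ * (rfe σ y).1 = X.2.1 - y.1 := by
        rw [rfe_apply, ← mul_assoc, sg_sq, one_mul]
      have e2 : (rfe σ y).2 = y.2 := by rw [rfe_apply]
      rw [e1, e2]
      simp only [Function.comp_apply]
      ring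
    · intro p hp
      exact hf p (right_ne_zero_of_mul (left_ne_zero_of_mul hp))
  · intro X hX
    by_contra h
    apply hX
    have : g X = 0 := by
      by_contra h'
      exact h (hg X h')
    simp [this]

/-- block kernel -/
noncomputable def KerW (Λ R S : ℝ) (θ c : ℝ → ℂ) (e : ℝ) (X : W3) (y : ℝ × ℝ) : ℂ :=
  ∫ η : ℝ, c η * cexp (2 * Real.pi * I * η * ((Real.log (X.2.1 / R) + Real.log (y.1 / S) : ℝ) : ℂ)) *
    kw Λ (tht θ η) X.1 ((X.2.1 - e * y.1) ^ 2 + (X.2.2 - y.2) ^ 2)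

section refl
variable {M : ℕ} {A : ℝ} {θ : ℝ → ℂ}

theorem KerW_meas_aux {K : ℝ × (ℝ × ℝ) → ℂ} (hk : Measurable K) {c : ℝ → ℂ} (hc : Continuous c)
    (R S e : ℝ) :
    Measurable (fun p : (W3 × (ℝ × ℝ)) × ℝ => c p.2 *
      cexp (2 * Real.pi * I * p.2 * ((Real.log (p.1.1.2.1 / R) + Real.log (p.1.2.1 / S) : ℝ) : ℂ)) *
      K (p.2, (p.1.1.1, (p.1.1.2.1 - e * p.1.2.1) ^ 2 + (p.1.1.2.2 - p.1.2.2) ^ 2))) := by
  have hcm := hc.measurable
  fun_prop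

theorem KerW_integrand_norm {C : ℝ} (hCt : ∀ η : ℝ, Bump M (C * A * (1 + |η|) ^ M) (tht θ η))
    (hC : 0 ≤ C * A) {Λ : ℝ} (hΛ : 0 < Λ) {c : ℝ → ℂ} {K0 : ℝ}
    (hK : ∀ η, (1 + |η|) ^ (M + 2) * ‖c η‖ ≤ K0) (a T q η : ℝ) :
    ‖c η * cexp (2 * Real.pi * I * η * (a : ℂ)) * kw Λ (tht θ η) T q‖ ≤
      8 * (C * A) * Λ ^ (-(1/2:ℝ)) * K0 * jb η := by
  rw [norm_mul, norm_mul, norm_phase, mul_one]
  have h1 := norm_kw_le (hCt η) hΛ T q
  have h2 := jb_bound hK η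
  calc ‖c η‖ * ‖kw Λ (tht θ η) T q‖ ≤ ‖c η‖ * (8 * (C * A * (1 + |η|) ^ M) * Λ ^ (-(1/2:ℝ))) := by gcongr
    _ = 8 * (C * A) * Λ ^ (-(1/2:ℝ)) * (‖c η‖ * (1 + |η|) ^ M) := by ring
    _ ≤ 8 * (C * A) * Λ ^ (-(1/2:ℝ)) * (K0 * jb η) := by gcongr
    _ = _ := by ring

theorem kform_swapW {K : ℝ × (ℝ × ℝ) → ℂ} (hk : Measurable K) {c : ℝ → ℂ} (hc : Continuous c)
    (R S e : ℝ) {B : ℝ} (hB : ∀ η T q, ‖c η‖ * ‖K (η, (T, q))‖ ≤ B * jb η) {F : ℝ × ℝ → ℂ} {G : W3 → ℂ}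
    (hF : Integrable F nu2) (hFm : Measurable F) (hG : Integrable G nuT2) (hGm : Measurable G) :
    ∫ X, (∫ y, (∫ η : ℝ, c η *
      cexp (2 * Real.pi * I * η * ((Real.log (X.2.1 / R) + Real.log (y.1 / S) : ℝ) : ℂ)) *
      K (η, (X.1, (X.2.1 - e * y.1) ^ 2 + (X.2.2 - y.2) ^ 2))) * F y * G X ∂nu2) ∂nuT2 =
    ∫ η : ℝ, c η * ∫ X, (∫ y, K (η, (X.1, (X.2.1 - e * y.1) ^ 2 + (X.2.2 - y.2) ^ 2)) *
      (cexp (2 * Real.pi * I * η * ((Real.log (y.1 / S) : ℝ) : ℂ)) * F y) *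
      (cexp (2 * Real.pi * I * η * ((Real.log (X.2.1 / R) : ℝ) : ℂ)) * G X) ∂nu2) ∂nuT2 := by
  have hm := KerW_meas_aux hk hc R S e
  have hm2 : Measurable (fun p : (W3 × (ℝ × ℝ)) × ℝ => (c p.2 *
      cexp (2 * Real.pi * I * p.2 * ((Real.log (p.1.1.2.1 / R) + Real.log (p.1.2.1 / S) : ℝ) : ℂ)) *
      K (p.2, (p.1.1.1, (p.1.1.2.1 - e * p.1.2.1) ^ 2 + (p.1.1.2.2 - p.1.2.2) ^ 2))) * F p.1.2 * G p.1.1) :=
    (hm.mul (hFm.comp (by fun_prop))).mul (hGm.comp (by fun_prop))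
  have h1 := triple_swap (μ := nuT2) (ν' := nu2) (ρ := volume)
    (Ψ := fun (X : W3) (y : ℝ × ℝ) (η : ℝ) => (c η *
      cexp (2 * Real.pi * I * η * ((Real.log (X.2.1 / R) + Real.log (y.1 / S) : ℝ) : ℂ)) *
      K (η, (X.1, (X.2.1 - e * y.1) ^ 2 + (X.2.2 - y.2) ^ 2))) * F y * G X) hm2
    hG.norm hF.norm (integrable_jb.const_mul B) (by
      intro X y η
      rw [norm_mul, norm_mul, norm_mul, norm_mul, norm_phase, mul_one]
      have := hB η X.1 ((X.2.1 - e * y.1) ^ 2 + (X.2.2 - y.2) ^ 2)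
      calc ‖c η‖ * ‖K (η, (X.1, (X.2.1 - e * y.1) ^ 2 + (X.2.2 - y.2) ^ 2))‖ * ‖F y‖ * ‖G X‖
          ≤ (B * jb η) * ‖F y‖ * ‖G X‖ := by gcongr
        _ = _ := by ring)
  simp_rw [← integral_mul_const]
  rw [h1]
  congr 1
  ext η
  rw [← integral_const_mul]
  congr 1
  ext X
  rw [← integral_const_mul]
  congr 1
  ext y
  have : cexp (2 * Real.pi * I * η * ((Real.log (X.2.1 / R) + Real.log (y.1 / S) : ℝ) : ℂ)) =
      cexp (2 * Real.pi * I * η * ((Real.log (y.1 / S) : ℝ) : ℂ)) *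
      cexp (2 * Real.pi * I * η * ((Real.log (X.2.1 / R) : ℝ) : ℂ)) := by
    rw [← Complex.exp_add]; congr 1; push_cast; ring
  rw [this]
  ring

theorem Adm.phaseT {F : W3 → ℂ} (hF : Adm nuT F) (η S : ℝ) :
    Adm nuT (fun y : W3 => cexp (2 * Real.pi * I * η * ((Real.log (y.2.1 / S) : ℝ) : ℂ)) * F y) :=
  hF.mul_bdd (C := 1) (by fun_prop) (fun y => (norm_phase _ _).le)

theorem nrm_phaseT {F : W3 → ℂ} (p : ℝ≥0∞) (η S : ℝ) :
    nrm p (fun y : W3 => cexp (2 * Real.pi * I * η * ((Real.log (y.2.1 / S) : ℝ) : ℂ)) * F y) nuT = nrm p F nuT := by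
  unfold nrm
  congr 1
  apply eLpNorm_congr_norm_ae
  filter_upwards with y
  rw [norm_mul, norm_phase, one_mul]

theorem Tw_bound {Λ R S N : ℝ} (hR : 0 < R) (hS : 0 < S) (hN0 : 0 ≤ N) {p q : ℝ≥0∞} (hp : 1 ≤ p)
    (hp' : p ≠ ⊤) (hq : 1 ≤ q) (hq' : q ≠ ⊤)
    (hN : PWave M Λ R S N p q) (h : Bump M A θ) (σ : Bool) {F : ℝ × ℝ → ℂ} {G : W3 → ℂ}
    (hF : Adm nu F) (hG : Adm nuT G) (hFs : ∀ y, F y ≠ 0 → y.1 ∈ Icc S (2 * S))
    (hGs : ∀ X, G X ≠ 0 → X.1 ∈ Icc Λ (2 * Λ) ∧ X.2.1 ∈ Icc R (2 * R)) :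
    ‖∫ X, (∫ y, kw Λ θ X.1 ((X.2.1 - sg σ * y.1) ^ 2 + (X.2.2 - y.2) ^ 2) * F y * G X ∂nu2) ∂nuT2‖ ≤
      N * A * ((2 * S) ^ (1 - 1 / p.toReal) * nrm p F nu) * ((2 * R) ^ (1 - 1 / q.toReal) * nrm q G nuT) := by
  have hA := h.nonneg
  have hGs2 : ∀ X, G X ≠ 0 → X.2.1 ∈ Icc R (2 * R) := fun X hX => (hGs X hX).2
  have h1 := T_eq_Bw (Λ := Λ) (θ := θ) σ (f := F) (g := G)
    (fun p hp => by have := (hFs p hp).1; linarith) (fun p hp => by have := (hGs2 p hp).1; linarith)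
  rw [h1]
  have hf := wadm hS hF hFs
  have hg := wadmT hR hG hGs2
  have hfn := wnrm hS hF hFs hp hp'
  have hgn := wnrmT hR hG hGs2 hq hq'
  have hf' := hf.comp_mp (mp_rfe σ) (rfe σ).measurableEmbedding
  have hfn' := nrm_comp_mp (F := fun y : ℝ × ℝ => (y.1 : ℂ) * F y) (mp_rfe σ) (rfe σ).measurableEmbedding p
  have h2 := hN A θ h (sg σ) _ _ (by cases σ <;> simp [sg]) hf' hg (by
    intro y hy
    have h3 : F (rfe σ y) ≠ 0 := right_ne_zero_of_mul hy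
    have := hFs _ h3
    rw [rfe_apply] at this
    exact this) (by
    intro x hx
    exact hGs x (right_ne_zero_of_mul hx))
  rw [hfn'] at h2
  refine h2.trans ?_
  have n1 : 0 ≤ nrm p (fun y : ℝ × ℝ => (y.1 : ℂ) * F y) volume := nrm_nonneg
  have n2 : 0 ≤ nrm q (fun y : W3 => (y.2.1 : ℂ) * G y) volume := nrm_nonneg
  have n3 : 0 ≤ nrm p F nu := nrm_nonneg
  gcongr

theorem KformW_bound {C : ℝ} (hC : 0 ≤ C) (hCt : ∀ η : ℝ, Bump M (C * A * (1 + |η|) ^ M) (tht θ η))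
    (h : Bump M A θ) {Λ R S N : ℝ} (hΛ : 0 < Λ) (hR : 0 < R) (hS : 0 < S) (hN0 : 0 ≤ N)
    {p q : ℝ≥0∞} (hp : 1 ≤ p) (hp' : p ≠ ⊤) (hq : 1 ≤ q) (hq' : q ≠ ⊤)
    (hN : PWave M Λ R S N p q) {c : ℝ → ℂ} (hc : Continuous c) {K0 : ℝ}
    (hK : ∀ η, (1 + |η|) ^ (M + 2) * ‖c η‖ ≤ K0) (σ : Bool) {F : ℝ × ℝ → ℂ} {G : W3 → ℂ}
    (hF : Adm nu F) (hG : Adm nuT G) (hFs : ∀ y, F y ≠ 0 → y.1 ∈ Icc S (2 * S))
    (hGs : ∀ X, G X ≠ 0 → X.1 ∈ Icc Λ (2 * Λ) ∧ X.2.1 ∈ Icc R (2 * R)) :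
    ‖∫ X, (∫ y, KerW Λ R S θ c (sg σ) X y * F y * G X ∂nu2) ∂nuT2‖ ≤
      (C * A * K0 * ∫ η, jb η) * (N * ((2 * S) ^ (1 - 1 / p.toReal) * nrm p F nu) *
        ((2 * R) ^ (1 - 1 / q.toReal) * nrm q G nuT)) := by
  have hA := h.nonneg
  have hCA : 0 ≤ C * A := by positivity
  have hk := measurable_kw_tht h Λ
  have h1 := kform_swapW hk hc R S (sg σ) (B := 8 * (C * A) * Λ ^ (-(1/2:ℝ)) * K0) (by
    intro η T q
    have := KerW_integrand_norm hCt hCA hΛ hK 0 T q η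
    rwa [norm_mul, norm_mul, norm_phase, mul_one] at this)
    (integrable_nu2 hF) hF.meas (integrable_nuT2 hG) hG.meas
  unfold KerW
  rw [h1]
  set X := N * ((2 * S) ^ (1 - 1 / p.toReal) * nrm p F nu) *
        ((2 * R) ^ (1 - 1 / q.toReal) * nrm q G nuT) with hX
  have hX0 : 0 ≤ X := by
    have n3 : 0 ≤ nrm p F nu := nrm_nonneg
    have n4 : 0 ≤ nrm q G nuT := nrm_nonneg
    positivity
  have e1 : (C * A * K0 * ∫ η, jb η) * X = ∫ η, C * A * K0 * jb η * X := by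
    rw [integral_mul_const, integral_const_mul]
  rw [e1]
  apply norm_integral_le_of_norm_le ((integrable_jb.const_mul _).mul_const _)
  filter_upwards with η
  have h2 := Tw_bound hR hS hN0 hp hp' hq hq' hN (hCt η) σ (hF.phase η S) (Adm.phaseT hG η R)
    (supp_phase hFs _) (fun X hX => hGs X (right_ne_zero_of_mul hX))
  rw [nrm_phase, nrm_phaseT] at h2
  rw [norm_mul]
  calc _ ≤ ‖c η‖ * (N * (C * A * (1 + |η|) ^ M) * ((2 * S) ^ (1 - 1 / p.toReal) * nrm p F nu) *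
        ((2 * R) ^ (1 - 1 / q.toReal) * nrm q G nuT)) := mul_le_mul_of_nonneg_left h2 (norm_nonneg _)
    _ = (C * A) * (‖c η‖ * (1 + |η|) ^ M) * X := by rw [hX]; ring
    _ ≤ (C * A) * (K0 * jb η) * X := by
        have := jb_bound hK η
        gcongr
    _ = _ := by ring

theorem formW_split {K1 K2 : W3 → ℝ × ℝ → ℂ} (hm1 : Measurable (Function.uncurry K1))
    (hm2 : Measurable (Function.uncurry K2)) {B : ℝ} (hB1 : ∀ x y, ‖K1 x y‖ ≤ B)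
    (hB2 : ∀ x y, ‖K2 x y‖ ≤ B) {F : ℝ × ℝ → ℂ} {G : W3 → ℂ} (hF : Integrable F nu2) (hFm : Measurable F)
    (hG : Integrable G nuT2) (hGm : Measurable G) (z : ℂ) :
    ∫ x, (∫ y, z * (K1 x y + K2 x y) * F y * G x ∂nu2) ∂nuT2 =
    z * ((∫ x, (∫ y, K1 x y * F y * G x ∂nu2) ∂nuT2) + ∫ x, (∫ y, K2 x y * F y * G x ∂nu2) ∂nuT2) := by
  have hi : ∀ K : W3 → ℝ × ℝ → ℂ, Measurable (Function.uncurry K) → (∀ x y, ‖K x y‖ ≤ B) →
      ∀ x, Integrable (fun y => K x y * F y * G x) nu2 := by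
    intro K hm hB x
    apply Integrable.mul_const
    refine hF.bdd_mul (c := B) ?_ (by filter_upwards with y using hB x y)
    exact (hm.comp (by fun_prop : Measurable (fun y : ℝ × ℝ => (x, y)))).aestronglyMeasurable
  have hj : ∀ K : W3 → ℝ × ℝ → ℂ, Measurable (Function.uncurry K) → (∀ x y, ‖K x y‖ ≤ B) →
      Integrable (fun x => ∫ y, K x y * F y * G x ∂nu2) nuT2 := by
    intro K hm hB
    have h1 : StronglyMeasurable (fun x => ∫ y, K x y * F y * G x ∂nu2) := by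
      apply StronglyMeasurable.integral_prod_right' (f := fun p : W3 × (ℝ × ℝ) =>
        Function.uncurry K p * F p.2 * G p.1)
      apply Measurable.stronglyMeasurable
      fun_prop
    refine ((hG.norm.const_mul (B * ∫ y, ‖F y‖ ∂nu2))).mono' h1.aestronglyMeasurable ?_
    filter_upwards with x
    calc ‖∫ y, K x y * F y * G x ∂nu2‖ ≤ ∫ y, B * ‖F y‖ * ‖G x‖ ∂nu2 := by
          apply norm_integral_le_of_norm_le ((hF.norm.const_mul _).mul_const _)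
          filter_upwards with y
          rw [norm_mul, norm_mul]
          have := hB x y
          gcongr
      _ = _ := by rw [integral_mul_const, integral_const_mul]
  rw [← integral_add (hj K1 hm1 hB1) (hj K2 hm2 hB2), ← integral_const_mul]
  congr 1
  ext x
  rw [← integral_add (hi K1 hm1 hB1 x) (hi K2 hm2 hB2 x), ← integral_const_mul]
  congr 1
  ext y
  ring

theorem KerW_meas (h : Bump M A θ) (Λ : ℝ) {c : ℝ → ℂ} (hc : Continuous c)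
    (R S e : ℝ) : Measurable (Function.uncurry (KerW Λ R S θ c e)) := by
  have := KerW_meas_aux (measurable_kw_tht h Λ) hc R S e
  exact this.stronglyMeasurable.integral_prod_right'.measurable

theorem KerW_norm {C : ℝ} (hCt : ∀ η : ℝ, Bump M (C * A * (1 + |η|) ^ M) (tht θ η))
    (hC : 0 ≤ C * A) {Λ : ℝ} (hΛ : 0 < Λ) {c : ℝ → ℂ} {K0 : ℝ}
    (hK : ∀ η, (1 + |η|) ^ (M + 2) * ‖c η‖ ≤ K0) (R S e : ℝ) (x : W3) (y : ℝ × ℝ) :
    ‖KerW Λ R S θ c e x y‖ ≤ 8 * (C * A) * Λ ^ (-(1/2:ℝ)) * K0 * ∫ η, jb η := by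
  unfold KerW
  rw [← integral_const_mul]
  apply norm_integral_le_of_norm_le (integrable_jb.const_mul _)
  filter_upwards with η
  exact KerW_integrand_norm hCt hC hΛ hK _ _ _ η

/-- the space-time form on the half plane with the angular averaged wave kernel -/
noncomputable def FormW (Λ : ℝ) (θ : ℝ → ℂ) (m : ℤ) (F : ℝ × ℝ → ℂ) (G : W3 → ℂ) : ℂ :=
  ∫ X, (∫ y, angK (kw3 Λ θ X.1) m X.2.1 y.1 X.2.2 y.2 * F y ∂nu2) * G X ∂nuT2

theorem FormW_rep {C : ℝ} (hC : 0 ≤ C) (hCt : ∀ η : ℝ, Bump M (C * A * (1 + |η|) ^ M) (tht θ η))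
    (h : Bump M A θ) {Λ R S : ℝ} (hΛ : 0 < Λ) (hR : 0 < R) (hS : 0 < S) (m : ℤ)
    {c : ℝ → ℂ} (hc : Continuous c) {K0 : ℝ}
    (hK : ∀ η, (1 + |η|) ^ (M + 2) * ‖c η‖ ≤ K0)
    (hcr : ∀ τ : ℝ, |τ| ≤ 3 → bI (wm m) (Real.pi * R * S / Λ * Real.exp τ) =
      ∫ η : ℝ, cexp (((2 * Real.pi * (η * τ) : ℝ) : ℂ) * I) * c η) {F : ℝ × ℝ → ℂ} {G : W3 → ℂ}
    (hF : Adm nu F) (hG : Adm nuT G) (hFs : ∀ y, F y ≠ 0 → y.1 ∈ Icc S (2 * S))
    (hGs : ∀ x, G x ≠ 0 → x.2.1 ∈ Icc R (2 * R)) :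
    FormW Λ θ m F G = (I / (2 * Λ)) ^ (1 / 2 : ℂ) *
      ((∫ x, (∫ y, KerW Λ R S θ c (sg true) x y * F y * G x ∂nu2) ∂nuT2) +
        ∫ x, (∫ y, KerW Λ R S θ (crefl m c) (sg false) x y * F y * G x ∂nu2) ∂nuT2) := by
  have hA := h.nonneg
  have hCA : 0 ≤ C * A := by positivity
  have hc' := crefl_cont m hc
  have hK' := crefl_bound m hK
  have hci := integrable_of_decay hc hK
  rw [← formW_split (KerW_meas h Λ hc R S (sg true)) (KerW_meas h Λ hc' R S (sg false))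
    (KerW_norm hCt hCA hΛ hK R S (sg true)) (KerW_norm hCt hCA hΛ hK' R S (sg false)) (integrable_nu2 hF) hF.meas
    (integrable_nuT2 hG) hG.meas]
  unfold FormW
  congr 1
  ext x
  rw [← integral_mul_const]
  congr 1
  ext y
  by_cases hF0 : F y = 0
  · rw [hF0]; ring
  by_cases hG0 : G x = 0
  · rw [hG0]; ring
  have e := angK_w h hΛ x.1 m hR hS hc hci hcr (hGs x hG0) (hFs y hF0) x.2.2 y.2
  rw [e]
  unfold KerW
  congr 3
  congr 1
  · congr 1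
    ext η
    congr 3
    simp [sg]
  · congr 1
    ext η
    congr 3
    simp [sg]

end refl

theorem blockW (M : ℕ) : ∃ C : ℝ, 0 ≤ C ∧ ∀ (Λ R S N : ℝ), 0 < Λ → 0 < R → 0 < S → 0 ≤ N →
    ∀ (p q : ℝ≥0∞), 1 ≤ p → p ≠ ⊤ → 1 ≤ q → q ≠ ⊤ → PWave M Λ R S N p q →
    ∀ (A : ℝ) (θ : ℝ → ℂ), Bump M A θ → ∀ (m : ℤ) (F : ℝ × ℝ → ℂ) (G : W3 → ℂ), Adm nu F → Adm nuT G →
    (∀ y, F y ≠ 0 → y.1 ∈ Icc S (2 * S)) → (∀ x, G x ≠ 0 → x.1 ∈ Icc Λ (2 * Λ) ∧ x.2.1 ∈ Icc R (2 * R)) →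
    ‖FormW Λ θ m F G‖ ≤ C * N * A * (1 + |(m:ℝ)|) ^ (M + 3) *
      ((R * S) ^ (-(1/2:ℝ)) * (2 * S) ^ (1 - 1 / p.toReal) * (2 * R) ^ (1 - 1 / q.toReal)) *
      nrm p F nu * nrm q G nuT := by
  obtain ⟨C1, hC1, h1⟩ := T10_amp (M + 2)
  obtain ⟨C2, hC2, h2⟩ := Bump.tht M
  have hJ : 0 ≤ ∫ η, jb η := integral_nonneg jb_nonneg
  refine ⟨2 * C2 * C1 * ∫ η, jb η, by positivity, ?_⟩
  intro Λ R S N hΛ hR hS hN0 p q hp hp' hq hq' hN A θ h m F G hF hG hFs hGs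
  have hA := h.nonneg
  have hU : 0 < Real.pi * R * S / Λ := by positivity
  obtain ⟨c, hc, hK, hcr⟩ := h1 m (Real.pi * R * S / Λ) hU
  have hK' := crefl_bound m hK
  have hc' := crefl_cont m hc
  have hCt := h2 A θ h
  rw [FormW_rep hC2 hCt h hΛ hR hS m hc hK hcr hF hG hFs (fun x hx => (hGs x hx).2), norm_mul]
  have b1 := KformW_bound hC2 hCt h hΛ hR hS hN0 hp hp' hq hq' hN hc hK true hF hG hFs hGs
  have b2 := KformW_bound hC2 hCt h hΛ hR hS hN0 hp hp' hq hq' hN hc' hK' false hF hG hFs hGs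
  set K1 := C1 * (1 + |(m:ℝ)|) ^ (M + 2 + 1) with hK1
  have hK10 : 0 ≤ K1 := by positivity
  set X := N * ((2 * S) ^ (1 - 1 / p.toReal) * nrm p F nu) *
        ((2 * R) ^ (1 - 1 / q.toReal) * nrm q G nuT) with hX
  have hX0 : 0 ≤ X := by
    have n3 : 0 ≤ nrm p F nu := nrm_nonneg
    have n4 : 0 ≤ nrm q G nuT := nrm_nonneg
    positivity
  have b3 := (norm_add_le _ _).trans (add_le_add b1 b2)
  have b4 := pref_bound hΛ hR hS
  calc _ ≤ ‖(I / (2 * Λ)) ^ (1 / 2 : ℂ)‖ * (C2 * A * (K1 * (1 + Real.pi * R * S / Λ) ^ (-(1/2:ℝ))) * (∫ η, jb η) * X +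
        C2 * A * (K1 * (1 + Real.pi * R * S / Λ) ^ (-(1/2:ℝ))) * (∫ η, jb η) * X) :=
        mul_le_mul_of_nonneg_left b3 (norm_nonneg _)
    _ = (2 * C2 * A * K1 * (∫ η, jb η) * X) *
        (‖(I / (2 * Λ)) ^ (1 / 2 : ℂ)‖ * (1 + Real.pi * R * S / Λ) ^ (-(1/2:ℝ))) := by ring
    _ ≤ (2 * C2 * A * K1 * (∫ η, jb η) * X) * (R * S) ^ (-(1/2:ℝ)) := by gcongr
    _ = _ := by rw [hX, hK1]; ring

end Vale.Agent.P106
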