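import Vale.Agent.P106.A.LPk

set_option linter.all false

open MeasureTheory Complex Set Filter
open scoped ENNReal NNReal ContDiff FourierTransform SchwartzMap ComplexConjugate Topology

namespace Vale.Agent.P106

open Vale.Agent.P117

/-! ## Scaling -/

/-- dilation -/
noncomputable def dil (Λ : ℝ) (g : E3 → ℂ) (y : E3) : ℂ := g (Λ⁻¹ • y)

theorem fourier_dil {Λ : ℝ} (hΛ : 0 < Λ) (g : E3 → ℂ) (η : E3) : 𝓕 (dil Λ g) η = ((Λ ^ 3 : ℝ) : ℂ) * 𝓕 g (Λ • η) := by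
  rw [Real.fourier_eq', Real.fourier_eq']
  have h1 := Measure.integral_comp_smul (volume : Measure E3)
    (fun v : E3 => cexp ((-2 * Real.pi * inner ℝ v (Λ • η) : ℝ) * I) • g v) Λ⁻¹
  have h2 : ∀ v : E3, cexp ((-2 * Real.pi * inner ℝ (Λ⁻¹ • v) (Λ • η) : ℝ) * I) • g (Λ⁻¹ • v) =
      cexp ((-2 * Real.pi * inner ℝ v η : ℝ) * I) • dil Λ g v := by
    intro v
    unfold dil
    rw [inner_smul_left, inner_smul_right]
    simp only [RCLike.conj_to_real]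
    rw [← mul_assoc Λ⁻¹ Λ, inv_mul_cancel₀ hΛ.ne', one_mul]
  simp_rw [h2] at h1
  rw [h1]
  simp only [finrank_euclideanSpace, Fintype.card_fin]
  rw [inv_pow, inv_inv, abs_of_pos (by positivity), Complex.real_smul]

theorem scal {Λ : ℝ} (hΛ : 0 < Λ) (M : E3 → ℂ) (g : E3 → ℂ) (x : E3) :
    𝓕⁻ (fun ξ => M ξ * 𝓕 g ξ) x = 𝓕⁻ (fun η => M (Λ • η) * 𝓕 (dil Λ g) η) (Λ • x) := by
  rw [Real.fourierInv_eq', Real.fourierInv_eq']
  have h1 := Measure.integral_comp_smul (volume : Measure E3)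
    (fun v : E3 => cexp ((2 * Real.pi * inner ℝ v x : ℝ) * I) • (M v * 𝓕 g v)) Λ
  simp only [finrank_euclideanSpace, Fintype.card_fin] at h1
  rw [abs_of_pos (by positivity)] at h1
  have h2 : ∀ v : E3, cexp ((2 * Real.pi * inner ℝ v (Λ • x) : ℝ) * I) • (M (Λ • v) * 𝓕 (dil Λ g) v) =
      (Λ ^ 3 : ℝ) • (cexp ((2 * Real.pi * inner ℝ (Λ • v) x : ℝ) * I) • (M (Λ • v) * 𝓕 g (Λ • v))) := by
    intro v
    rw [fourier_dil hΛ, inner_smul_left, inner_smul_right, Complex.real_smul]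
    simp only [RCLike.conj_to_real, smul_eq_mul]
    ring
  simp_rw [h2]
  rw [integral_smul, h1, smul_smul, mul_inv_cancel₀ (by positivity), one_smul]

theorem lintegral_smul3 {Λ : ℝ} (hΛ : 0 < Λ) (F : E3 → ℝ≥0∞) :
    ∫⁻ x : E3, F (Λ • x) = ENNReal.ofReal ((Λ ^ 3)⁻¹) * ∫⁻ x, F x := by
  have h1 := Measure.map_addHaar_smul (volume : Measure E3) hΛ.ne'
  simp only [finrank_euclideanSpace, Fintype.card_fin] at h1
  have h2 : ∫⁻ x : E3, F (Λ • x) = ∫⁻ x, F x ∂(Measure.map (Λ • ·) (volume : Measure E3)) :=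
    (MeasureTheory.lintegral_map_equiv F (Homeomorph.smulOfNeZero Λ hΛ.ne').toMeasurableEquiv).symm
  rw [h2, h1, lintegral_smul_measure, abs_of_pos (by positivity)]
  rfl

theorem lintegral_scaleT {Λ : ℝ} (hΛ : 0 < Λ) (F : ℝ → ℝ≥0∞) :
    ∫⁻ t in Icc (1:ℝ) 2, F (Λ * t) = ENNReal.ofReal Λ⁻¹ * ∫⁻ T in Icc Λ (2 * Λ), F T := by
  rw [← lintegral_indicator measurableSet_Icc, ← lintegral_indicator measurableSet_Icc]
  have h1 := Real.map_volume_mul_left hΛ.ne'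
  have h2 : ∀ t : ℝ, (Icc (1:ℝ) 2).indicator (fun t => F (Λ * t)) t =
      ((Icc Λ (2 * Λ)).indicator F) (Λ * t) := by
    intro t
    by_cases ht : t ∈ Icc (1:ℝ) 2
    · rw [indicator_of_mem ht, indicator_of_mem]
      exact ⟨by nlinarith [ht.1], by nlinarith [ht.2]⟩
    · rw [indicator_of_notMem ht, indicator_of_notMem]
      intro h
      apply ht
      constructor
      · have := h.1
        nlinarith
      · have := h.2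
        nlinarith
  simp_rw [h2]
  have h3 : ∫⁻ t : ℝ, ((Icc Λ (2 * Λ)).indicator F) (Λ * t) =
      ∫⁻ T, ((Icc Λ (2 * Λ)).indicator F) T ∂(Measure.map (Λ * ·) (volume : Measure ℝ)) :=
    (MeasureTheory.lintegral_map_equiv _ (Homeomorph.mulLeft₀ Λ hΛ.ne').toMeasurableEquiv).symm
  rw [h3, h1, lintegral_smul_measure, abs_of_pos (inv_pos.2 hΛ)]
  rfl

theorem dil_adm {Λ : ℝ} (hΛ : 0 < Λ) {g : E3 → ℂ} (hg : Adm volume g) : Adm volume (dil Λ g) := by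
  refine ⟨hg.meas.comp (by fun_prop), hg.int.comp_smul (inv_ne_zero hΛ.ne'), ?_⟩
  obtain ⟨C, hC⟩ := hg.bdd
  exact ⟨C, fun y => hC _⟩

theorem dil_equi {Λ : ℝ} {m : ℤ} {g : E3 → ℂ} (he : Equi m g) : Equi m (dil Λ g) := by
  intro φ y
  unfold dil
  rw [← map_smul, he φ]

theorem nrm_pow {P : ℝ} (hP : 1 ≤ P) {f : E3 → ℂ} (hf : Adm volume f) :
    ∫⁻ x, ‖f x‖ₑ ^ P = ENNReal.ofReal (nrm (ENNReal.ofReal P) f volume ^ P) := by
  have hP1 : (1:ℝ≥0∞) ≤ ENNReal.ofReal P := by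
    rw [← ENNReal.ofReal_one]; exact ENNReal.ofReal_le_ofReal hP
  have h1 := nrm_rpow f hP1 ENNReal.ofReal_ne_top (μ := (volume : Measure E3))
  rw [ENNReal.toReal_ofReal (by linarith)] at h1
  rw [h1, ENNReal.ofReal_toReal]
  have h2 := hf.eLpNorm_ne_top hP1
  rw [eLpNorm_eq_lintegral_rpow_enorm_toReal (by simp; linarith) ENNReal.ofReal_ne_top,
    ENNReal.toReal_ofReal (by linarith)] at h2
  intro h3
  rw [h3, ENNReal.top_rpow_of_pos (by positivity)] at h2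
  exact h2 rfl

theorem nrm_dil {Λ P : ℝ} (hΛ : 0 < Λ) (hP : 1 ≤ P) {g : E3 → ℂ} (hg : Adm volume g) :
    nrm (ENNReal.ofReal P) (dil Λ g) volume = Λ ^ (3 / P) * nrm (ENNReal.ofReal P) g volume := by
  have hP0 : 0 < P := by linarith
  have h1 := nrm_pow hP (dil_adm hΛ hg)
  have h2 := nrm_pow hP hg
  have h3 := lintegral_smul3 (inv_pos.2 hΛ) (fun x => ‖g x‖ₑ ^ P)
  unfold dil at h1
  rw [h3, h2, ← ENNReal.ofReal_mul (by positivity), inv_pow, inv_inv] at h1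
  have n0 : 0 ≤ nrm (ENNReal.ofReal P) g volume := nrm_nonneg
  have n1 : 0 ≤ nrm (ENNReal.ofReal P) (dil Λ g) volume := nrm_nonneg
  have h4 : Λ ^ 3 * nrm (ENNReal.ofReal P) g volume ^ P = nrm (ENNReal.ofReal P) (dil Λ g) volume ^ P :=
    (ENNReal.ofReal_eq_ofReal_iff (by positivity) (by positivity)).1 h1
  have h5 : (Λ ^ (3 / P) * nrm (ENNReal.ofReal P) g volume) ^ P = nrm (ENNReal.ofReal P) (dil Λ g) volume ^ P := by
    rw [← h4, Real.mul_rpow (by positivity) n0, ← Real.rpow_mul hΛ.le, div_mul_cancel₀ _ hP0.ne']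
    congr 1
    exact_mod_cast Real.rpow_natCast Λ 3
  exact ((Real.rpow_left_inj (by positivity) n1 hP0.ne').1 h5).symm

/-! ## Pieces -/

/-- multiplier of the dyadic piece -/
noncomputable def pm (α t : ℝ) (l : ℤ) (ξ : E3) : ℂ :=
  chd ((4 * ‖ξ‖ / 3) / (2:ℝ) ^ l) * (bf α ‖ξ‖ * (cexp (2 * Real.pi * I * (t * ‖ξ‖ : ℝ)) - if 0 < l then 0 else 1))

/-- dyadic piece -/
noncomputable def pp (α : ℝ) (g : E3 → ℂ) (l : ℤ) (t : ℝ) (x : E3) : ℂ := 𝓕⁻ (fun ξ => pm α t l ξ * 𝓕 g ξ) x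

theorem norm_smulE {Λ : ℝ} (hΛ : 0 < Λ) (η : E3) : ‖Λ • η‖ = Λ * ‖η‖ := by
  rw [norm_smul, Real.norm_of_nonneg hΛ.le]

theorem pm_hi (α t : ℝ) {l : ℤ} (hl : 0 < l) (η : E3) :
    pm α t l ((2:ℝ) ^ l • η) = ((((2:ℝ) ^ l) ^ (-α) : ℝ) : ℂ) * (wm1 X0 ((2:ℝ) ^ l * t) η * symB α (η, ((2:ℝ) ^ l)⁻¹)) := by
  set Λ : ℝ := (2:ℝ) ^ l with hΛ
  have hΛ0 : 0 < Λ := by positivity
  unfold pm wm1 X0 q0 symB
  rw [norm_smulE hΛ0, ← hΛ, if_pos hl]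
  have e1 : 4 * (Λ * ‖η‖) / 3 / Λ = 4 * ‖η‖ / 3 := by field_simp
  rw [e1]
  by_cases h : chd (4 * ‖η‖ / 3) = 0
  · rw [h]; ring
  · have h1 : 3/8 ≤ ‖η‖ ∧ ‖η‖ ≤ 3/2 := q0_supp (r := ‖η‖) h
    simp only
    rw [q2_one h1.1 h1.2]
    have hpi := Real.pi_pos
    have hη : 0 < ‖η‖ := by linarith [h1.1]
    have e2 : bf α (Λ * ‖η‖) = ((Λ ^ (-α) : ℝ) : ℂ) * (((Λ⁻¹ ^ 2 + 4 * Real.pi ^ 2 * ‖η‖ ^ 2) ^ (-α / 2) : ℝ) : ℂ) := by
      unfold bf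
      rw [← Complex.ofReal_mul]
      congr 1
      have e3 : 1 + 4 * Real.pi ^ 2 * (Λ * ‖η‖) ^ 2 = Λ ^ 2 * (Λ⁻¹ ^ 2 + 4 * Real.pi ^ 2 * ‖η‖ ^ 2) := by
        field_simp
      rw [e3, Real.mul_rpow (by positivity) (by positivity)]
      congr 1
      have : Λ ^ 2 = Λ ^ (2:ℝ) := by exact_mod_cast (Real.rpow_natCast Λ 2).symm
      rw [this, ← Real.rpow_mul hΛ0.le]
      congr 1; ring
    have e4 : t * (Λ * ‖η‖) = Λ * t * ‖η‖ := by ring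
    rw [e2, e4]
    ring

theorem pm_lo (α t : ℝ) {l : ℤ} (hl : ¬ 0 < l) (η : E3) :
    pm α t l ((2:ℝ) ^ l • η) = ((cexp (2 * Real.pi * I * (((2:ℝ) ^ l * t) * ‖η‖ : ℝ)) - 1) * X0 η) * symG α (η, (2:ℝ) ^ l) := by
  set Λ : ℝ := (2:ℝ) ^ l with hΛ
  have hΛ0 : 0 < Λ := by positivity
  unfold pm X0 q0 symG
  rw [norm_smulE hΛ0, ← hΛ, if_neg hl]
  have e1 : 4 * (Λ * ‖η‖) / 3 / Λ = 4 * ‖η‖ / 3 := by field_simp
  rw [e1]
  by_cases h : chd (4 * ‖η‖ / 3) = 0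
  · rw [h]; ring
  · have h1 : 3/8 ≤ ‖η‖ ∧ ‖η‖ ≤ 3/2 := q0_supp (r := ‖η‖) h
    simp only
    rw [q2_one h1.1 h1.2]
    have e2 : bf α (Λ * ‖η‖) = (((1 + 4 * Real.pi ^ 2 * (Λ ^ 2 * ‖η‖ ^ 2)) ^ (-α / 2) : ℝ) : ℂ) := by
      unfold bf
      congr 3
      ring
    have e4 : t * (Λ * ‖η‖) = Λ * t * ‖η‖ := by ring
    rw [e2, e4]
    ring

theorem piece_hi (hD2 : StD2) (hD3 : StD3) {P : ℝ} (hP : 2 < P) {e : ℝ} (he : max (1 - 3 * (1 / P)) 0 < e) (α : ℝ) :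
    ∃ (K : ℕ) (C : ℝ), 0 ≤ C ∧ ∀ l : ℤ, 0 < l → ∀ (m : ℤ) (g : E3 → ℂ), Adm volume g → Equi m g →
    ∫⁻ t in Icc (1:ℝ) 2, ∫⁻ x : E3, ‖pp α g l t x‖ₑ ^ P ≤
      ENNReal.ofReal ((C * ((2:ℝ) ^ l) ^ (e - α) * (1 + |(m:ℝ)|) ^ K * nrm (ENNReal.ofReal P) g volume) ^ P) := by
  obtain ⟨K, C, hC, h⟩ := V_op hD2 hD3 hP he
  obtain ⟨B, hB, hL⟩ := paramL1 (contDiff_symB α) 2 (fun η κ h => symB_supp h)
  refine ⟨K, C * B, by positivity, ?_⟩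
  intro l hl m g hg hge
  have hP0 : 0 < P := by linarith
  set Λ : ℝ := (2:ℝ) ^ l with hΛ
  have hΛ0 : 0 < Λ := by positivity
  have hΛ1 : 1 ≤ Λ := by rw [hΛ]; exact one_le_zpow₀ (by norm_num) hl.le
  have hinv : Λ⁻¹ ∈ Icc (0:ℝ) 1 := ⟨by positivity, inv_le_one_of_one_le₀ hΛ1⟩
  have hga := dil_adm hΛ0 hg
  obtain ⟨s1, s2, s3, s4⟩ := smop_props (M := fun η => symB α (η, Λ⁻¹)) ((contDiff_symB α).comp (by fun_prop))
    (compact_of_supp (fun η h => symB_supp h)) hga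
  set h' := 𝓕⁻ (fun ξ => (fun η => symB α (η, Λ⁻¹)) ξ * 𝓕 (dil Λ g) ξ) with hh'
  have hh'e : Equi m h' := fi_equi (dil_equi hge)
    (fun r => q2 r * (((Λ⁻¹ ^ 2 + 4 * Real.pi ^ 2 * r ^ 2) ^ (-α / 2) : ℝ) : ℂ))
  have hn := s3 B hB (hL Λ⁻¹ hinv) (ENNReal.ofReal P) (by
    rw [← ENNReal.ofReal_one]; exact ENNReal.ofReal_le_ofReal (by linarith))
  rw [nrm_dil hΛ0 (by linarith) hg] at hn
  have hV := h Λ hΛ1 m h' s1 hh'e
  have e1 : ∀ t x, ‖pp α g l t x‖ₑ ^ P = ENNReal.ofReal ((Λ ^ (-α)) ^ P) *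
      ‖𝓕⁻ (fun ξ => wm1 X0 (Λ * t) ξ * 𝓕 h' ξ) (Λ • x)‖ₑ ^ P := by
    intro t x
    unfold pp
    rw [scal hΛ0]
    have e2 : (fun η => pm α t l (Λ • η) * 𝓕 (dil Λ g) η) = fun η => ((Λ ^ (-α) : ℝ) : ℂ) *
        (wm1 X0 (Λ * t) η * 𝓕 h' η) := by
      ext η
      rw [s2, pm_hi α t hl]
      ring
    rw [e2, fi_const, enorm_mul, ENNReal.mul_rpow_of_nonneg _ _ hP0.le]
    congr 1
    rw [← ofReal_norm, Complex.norm_real, Real.norm_of_nonneg (by positivity),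
      ENNReal.ofReal_rpow_of_nonneg (by positivity) hP0.le]
  simp_rw [e1]
  have e3 : ∀ t : ℝ, ∫⁻ x : E3, ENNReal.ofReal ((Λ ^ (-α)) ^ P) *
      ‖𝓕⁻ (fun ξ => wm1 X0 (Λ * t) ξ * 𝓕 h' ξ) (Λ • x)‖ₑ ^ P =
      ENNReal.ofReal ((Λ ^ (-α)) ^ P * (Λ ^ 3)⁻¹) * ∫⁻ x : E3, ‖𝓕⁻ (fun ξ => wm1 X0 (Λ * t) ξ * 𝓕 h' ξ) x‖ₑ ^ P := by
    intro t
    rw [lintegral_const_mul' _ _ ENNReal.ofReal_ne_top,
      lintegral_smul3 hΛ0 (fun y => ‖𝓕⁻ (fun ξ => wm1 X0 (Λ * t) ξ * 𝓕 h' ξ) y‖ₑ ^ P), ← mul_assoc,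
      ← ENNReal.ofReal_mul (by positivity)]
  simp_rw [e3]
  rw [lintegral_const_mul' _ _ ENNReal.ofReal_ne_top,
    lintegral_scaleT hΛ0 (fun T => ∫⁻ x : E3, ‖𝓕⁻ (fun ξ => wm1 X0 T ξ * 𝓕 h' ξ) x‖ₑ ^ P), ← mul_assoc,
    ← ENNReal.ofReal_mul (by positivity)]
  have n0 : 0 ≤ nrm (ENNReal.ofReal P) g volume := nrm_nonneg
  have n1 : 0 ≤ nrm (ENNReal.ofReal P) h' volume := nrm_nonneg
  calc _ ≤ ENNReal.ofReal ((Λ ^ (-α)) ^ P * (Λ ^ 3)⁻¹ * Λ⁻¹) *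
        ENNReal.ofReal ((C * Λ ^ (1/P + e) * (1 + |(m:ℝ)|) ^ K * nrm (ENNReal.ofReal P) h' volume) ^ P) := by gcongr
    _ = ENNReal.ofReal ((Λ ^ (-α)) ^ P * (Λ ^ 3)⁻¹ * Λ⁻¹ *
        (C * Λ ^ (1/P + e) * (1 + |(m:ℝ)|) ^ K * nrm (ENNReal.ofReal P) h' volume) ^ P) := by
        rw [← ENNReal.ofReal_mul (by positivity)]
    _ ≤ _ := by
        apply ENNReal.ofReal_le_ofReal
        have e4 : (Λ ^ (-α)) ^ P * (Λ ^ 3)⁻¹ * Λ⁻¹ = (Λ ^ (-α - 4 / P)) ^ P := by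
          rw [← Real.rpow_mul hΛ0.le, ← Real.rpow_mul hΛ0.le]
          have a1 : (Λ ^ 3)⁻¹ = Λ ^ (-3:ℝ) := by
            rw [Real.rpow_neg hΛ0.le]
            congr 1
            exact_mod_cast (Real.rpow_natCast Λ 3).symm
          have a2 : Λ⁻¹ = Λ ^ (-1:ℝ) := (Real.rpow_neg_one Λ).symm
          rw [a1, a2, ← Real.rpow_add hΛ0, ← Real.rpow_add hΛ0]
          congr 1
          field_simp
          ring
        rw [e4, ← Real.mul_rpow (by positivity) (by positivity)]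
        apply Real.rpow_le_rpow (by positivity) _ hP0.le
        calc Λ ^ (-α - 4 / P) * (C * Λ ^ (1/P + e) * (1 + |(m:ℝ)|) ^ K * nrm (ENNReal.ofReal P) h' volume) ≤
            Λ ^ (-α - 4 / P) * (C * Λ ^ (1/P + e) * (1 + |(m:ℝ)|) ^ K *
              (B * (Λ ^ (3 / P) * nrm (ENNReal.ofReal P) g volume))) := by gcongr
          _ = C * B * (Λ ^ (-α - 4 / P) * Λ ^ (1/P + e) * Λ ^ (3 / P)) * (1 + |(m:ℝ)|) ^ K *
              nrm (ENNReal.ofReal P) g volume := by ring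
          _ = _ := by
              rw [← Real.rpow_add hΛ0, ← Real.rpow_add hΛ0]
              congr 4
              ring

theorem pow_nrm_le {P : ℝ} (hP : 1 ≤ P) {f : E3 → ℂ} (hf : Adm volume f) {D : ℝ} (h : nrm (ENNReal.ofReal P) f volume ≤ D) :
    ∫⁻ x, ‖f x‖ₑ ^ P ≤ ENNReal.ofReal (D ^ P) := by
  rw [nrm_pow hP hf]
  apply ENNReal.ofReal_le_ofReal
  exact Real.rpow_le_rpow nrm_nonneg h (by linarith)

theorem piece_lo {P : ℝ} (hP : 2 < P) (α : ℝ) :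
    ∃ C : ℝ, 0 ≤ C ∧ ∀ l : ℤ, ¬ 0 < l → ∀ (g : E3 → ℂ), Adm volume g →
    ∫⁻ t in Icc (1:ℝ) 2, ∫⁻ x : E3, ‖pp α g l t x‖ₑ ^ P ≤
      ENNReal.ofReal ((C * (2:ℝ) ^ l * nrm (ENNReal.ofReal P) g volume) ^ P) := by
  obtain ⟨C, hC, h⟩ := smallwave
  obtain ⟨B, hB, hL⟩ := paramL1 (contDiff_symG α) 2 (fun η κ h => symG_supp h)
  refine ⟨2 * C * B, by positivity, ?_⟩
  intro l hl g hg
  have hP0 : 0 < P := by linarith
  set Λ : ℝ := (2:ℝ) ^ l with hΛ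
  have hΛ0 : 0 < Λ := by positivity
  have hΛ1 : Λ ≤ 1 := by rw [hΛ]; exact zpow_le_one_of_nonpos₀ (by norm_num) (not_lt.1 hl)
  have hga := dil_adm hΛ0 hg
  have hP1 : (1:ℝ≥0∞) ≤ ENNReal.ofReal P := by
    rw [← ENNReal.ofReal_one]; exact ENNReal.ofReal_le_ofReal (by linarith)
  obtain ⟨s1, s2, s3, s4⟩ := smop_props (M := fun η => symG α (η, Λ)) ((contDiff_symG α).comp (by fun_prop))
    (compact_of_supp (fun η h => symG_supp h)) hga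
  set h' := 𝓕⁻ (fun ξ => (fun η => symG α (η, Λ)) ξ * 𝓕 (dil Λ g) ξ) with hh'
  have hn := s3 B hB (hL Λ ⟨hΛ0.le, hΛ1⟩) (ENNReal.ofReal P) hP1
  rw [nrm_dil hΛ0 (by linarith) hg] at hn
  have n0 : 0 ≤ nrm (ENNReal.ofReal P) g volume := nrm_nonneg
  have hpt : ∀ t ∈ Icc (1:ℝ) 2, ∫⁻ x : E3, ‖pp α g l t x‖ₑ ^ P ≤
      ENNReal.ofReal ((2 * C * B * Λ * nrm (ENNReal.ofReal P) g volume) ^ P) := by
    intro t ht
    have ht0 : 0 < t := by linarith [ht.1]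
    set κ : ℝ := Λ * t with hκ
    have hκ0 : 0 < κ := by positivity
    have hκ2 : κ ≤ 2 * Λ := by rw [hκ]; nlinarith [ht.2]
    have hc : ContDiff ℝ ∞ (fun η : E3 => (cexp (2 * Real.pi * I * (κ * ‖η‖ : ℝ)) - 1) * X0 η) := by
      have h1 := (wm1_DB X0 contDiff_X0 compact_X0 (by norm_num : (0:ℝ) < 3/8) (fun ξ h => X0_supp h) 0).1 κ
      have e5 : (fun η : E3 => (cexp (2 * Real.pi * I * (κ * ‖η‖ : ℝ)) - 1) * X0 η) = fun η => wm1 X0 κ η - X0 η := by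
        ext η; unfold wm1; ring
      rw [e5]
      exact h1.sub contDiff_X0
    have hcc : HasCompactSupport (fun η : E3 => (cexp (2 * Real.pi * I * (κ * ‖η‖ : ℝ)) - 1) * X0 η) :=
      compact_X0.mul_left
    obtain ⟨r1, r2, r3, r4⟩ := smop_props hc hcc s1
    have hn2 := r3 (C * κ) (by positivity) (h κ ⟨hκ0.le, by linarith⟩) (ENNReal.ofReal P) hP1
    have e1 : ∀ x, ‖pp α g l t x‖ₑ ^ P =
        ‖𝓕⁻ (fun ξ => ((cexp (2 * Real.pi * I * (κ * ‖ξ‖ : ℝ)) - 1) * X0 ξ) * 𝓕 h' ξ) (Λ • x)‖ₑ ^ P := by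
      intro x
      unfold pp
      rw [scal hΛ0]
      have e2 : (fun η => pm α t l (Λ • η) * 𝓕 (dil Λ g) η) = fun ξ =>
          ((cexp (2 * Real.pi * I * (κ * ‖ξ‖ : ℝ)) - 1) * X0 ξ) * 𝓕 h' ξ := by
        ext η
        rw [s2, pm_lo α t hl]
        ring
      rw [e2]
    simp_rw [e1]
    rw [lintegral_smul3 hΛ0 (fun y => ‖𝓕⁻ (fun ξ => ((cexp (2 * Real.pi * I * (κ * ‖ξ‖ : ℝ)) - 1) * X0 ξ) * 𝓕 h' ξ) y‖ₑ ^ P)]
    have h6 := pow_nrm_le (P := P) (by linarith) r1 (D := 2 * C * B * Λ * (Λ ^ (3 / P) * nrm (ENNReal.ofReal P) g volume)) (by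
      refine hn2.trans ?_
      have n1 : 0 ≤ nrm (ENNReal.ofReal P) h' volume := nrm_nonneg
      calc C * κ * nrm (ENNReal.ofReal P) h' volume ≤
          C * (2 * Λ) * (B * (Λ ^ (3 / P) * nrm (ENNReal.ofReal P) g volume)) := by gcongr
        _ = _ := by ring)
    calc _ ≤ ENNReal.ofReal ((Λ ^ 3)⁻¹) * ENNReal.ofReal ((2 * C * B * Λ * (Λ ^ (3 / P) * nrm (ENNReal.ofReal P) g volume)) ^ P) := by
          gcongr
      _ = ENNReal.ofReal ((Λ ^ 3)⁻¹ * (2 * C * B * Λ * (Λ ^ (3 / P) * nrm (ENNReal.ofReal P) g volume)) ^ P) := by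
          rw [← ENNReal.ofReal_mul (by positivity)]
      _ = _ := by
          congr 1
          have a1 : 2 * C * B * Λ * (Λ ^ (3 / P) * nrm (ENNReal.ofReal P) g volume) =
              Λ ^ (3 / P) * (2 * C * B * Λ * nrm (ENNReal.ofReal P) g volume) := by ring
          have a2 : (Λ ^ (3 / P)) ^ P = Λ ^ 3 := by
            rw [← Real.rpow_mul hΛ0.le, div_mul_cancel₀ _ hP0.ne']
            exact_mod_cast Real.rpow_natCast Λ 3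
          rw [a1, Real.mul_rpow (by positivity) (by positivity), a2, ← mul_assoc, inv_mul_cancel₀ (by positivity), one_mul]
  calc ∫⁻ t in Icc (1:ℝ) 2, ∫⁻ x : E3, ‖pp α g l t x‖ₑ ^ P ≤
        ∫⁻ t in Icc (1:ℝ) 2, ENNReal.ofReal ((2 * C * B * Λ * nrm (ENNReal.ofReal P) g volume) ^ P) :=
        setLIntegral_mono' measurableSet_Icc hpt
    _ = _ := by
        rw [setLIntegral_const, Real.volume_Icc]
        norm_num

end Vale.Agent.P106
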