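import Vale.Agent.P106.A.Vop

set_option linter.all false

open MeasureTheory Complex Set Filter
open scoped ENNReal NNReal ContDiff FourierTransform SchwartzMap ComplexConjugate Topology

namespace Vale.Agent.P106

open Vale.Agent.P117

theorem L1_of_decay : ∃ C0 : ℝ, 0 ≤ C0 ∧ ∀ (K : E3 → ℂ) (B : ℝ), 0 ≤ B → (∀ w, (1 + ‖w‖) ^ 4 * ‖K w‖ ≤ B) →
    ∫⁻ w, ‖K w‖ₑ ≤ ENNReal.ofReal (C0 * B) := by
  have hI : Integrable (fun x : E3 => (1 + ‖x‖) ^ (-(4 : ℝ))) := by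
    apply integrable_one_add_norm
    simp only [finrank_euclideanSpace, Fintype.card_fin, Nat.cast_ofNat]
    norm_num
  refine ⟨∫ x : E3, (1 + ‖x‖) ^ (-(4 : ℝ)), integral_nonneg fun x => by positivity, ?_⟩
  intro K B hB h
  calc ∫⁻ w, ‖K w‖ₑ ≤ ∫⁻ w : E3, ENNReal.ofReal (B * (1 + ‖w‖) ^ (-(4 : ℝ))) := by
        apply lintegral_mono
        intro w
        simp only
        rw [← ofReal_norm]
        apply ENNReal.ofReal_le_ofReal
        have h1 := h w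
        have h2 : (1 + ‖w‖) ^ (4:ℝ) = (1 + ‖w‖) ^ 4 := by exact_mod_cast Real.rpow_natCast (1 + ‖w‖) 4
        rw [Real.rpow_neg (by positivity), ← div_eq_mul_inv, le_div_iff₀ (by positivity), h2]
        linarith
    _ = ENNReal.ofReal (∫ w : E3, B * (1 + ‖w‖) ^ (-(4 : ℝ))) := by
        rw [ofReal_integral_eq_lintegral_ofReal (hI.const_mul _)]
        filter_upwards with w
        simp only [Pi.zero_apply]
        positivity
    _ = _ := by
        rw [integral_const_mul]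
        congr 1; ring

/-- uniform `L¹` bounds for kernels depending smoothly on a parameter -/
theorem paramL1 {Ψ : E3 × ℝ → ℂ} (hΨ : ContDiff ℝ ∞ Ψ) (R : ℝ) (hs : ∀ η κ, Ψ (η, κ) ≠ 0 → ‖η‖ ≤ R) :
    ∃ C : ℝ, 0 ≤ C ∧ ∀ κ ∈ Icc (0:ℝ) 1, ∫⁻ w, ‖𝓕⁻ (fun η : E3 => Ψ (η, κ)) w‖ₑ ≤ ENNReal.ofReal C := by
  obtain ⟨C0, hC0, h0⟩ := L1_of_decay
  obtain ⟨C1, hC1, h1⟩ := DB.of_param (K := Metric.closedBall (0:E3) R ×ˢ Icc (0:ℝ) 1)
    ((isCompact_closedBall _ _).prod isCompact_Icc) hΨ 4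
  obtain ⟨C2, hC2, h2⟩ := fourier_decay (V := E3) 4 R
  refine ⟨C0 * (C2 * C1), by positivity, ?_⟩
  intro κ hκ
  apply h0 _ _ (by positivity)
  intro w
  have h3 := h2 (fun η => Ψ (η, κ)) C1 (hΨ.comp (by fun_prop)) (fun η hη => hs η κ hη)
    (fun η hη => h1 η κ ⟨by simpa using hη, hκ⟩) (by linarith) (-w)
  rw [norm_neg] at h3
  rw [Real.fourierInv_eq_fourier_neg]
  exact h3

/-- multiplier operators with smooth compactly supported symbols -/
theorem smop_props {M : E3 → ℂ} (hs : ContDiff ℝ ∞ M) (hc : HasCompactSupport M) {f : E3 → ℂ} (hf : Adm volume f) :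
    Adm volume (𝓕⁻ (fun ξ => M ξ * 𝓕 f ξ)) ∧ (∀ ξ, 𝓕 (𝓕⁻ (fun ξ => M ξ * 𝓕 f ξ)) ξ = M ξ * 𝓕 f ξ) ∧
    (∀ B : ℝ, 0 ≤ B → (∫⁻ w, ‖𝓕⁻ M w‖ₑ ≤ ENNReal.ofReal B) → ∀ p : ℝ≥0∞, 1 ≤ p →
      nrm p (𝓕⁻ (fun ξ => M ξ * 𝓕 f ξ)) volume ≤ B * nrm p f volume) ∧
    Continuous (𝓕⁻ (fun ξ => M ξ * 𝓕 f ξ)) := by
  set MS : 𝓢(E3, ℂ) := hc.toSchwartzMap hs with hMS
  set K : 𝓢(E3, ℂ) := 𝓕⁻ MS with hK
  have e1 : cv K f = 𝓕⁻ (fun ξ => M ξ * 𝓕 f ξ) := cv_schwartz_eq MS hf.int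
  have hKb : ∀ x, ‖K x‖ ≤ _ := fun x => SchwartzMap.norm_le_seminorm ℝ K x
  have hFK : ∀ ξ, 𝓕 (K : E3 → ℂ) ξ = M ξ := by
    intro ξ
    have : 𝓕 K = MS := by rw [hK]; simp
    rw [← SchwartzMap.fourier_coe, this]
    rfl
  have hKe : (K : E3 → ℂ) = 𝓕⁻ M := by
    rw [hK, SchwartzMap.fourierInv_coe]
    rfl
  rw [← e1]
  refine ⟨adm_cv K.continuous K.integrable hKb hf, ?_, ?_, continuous_cv K.continuous hKb hf.int⟩
  · intro ξ
    rw [fourier_cv K.integrable hf.int, hFK]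
  · intro B hB hL p hp
    exact nrm_cv_le K.continuous K.integrable hB (by rw [hKe]; exact hL) hf hp

theorem fi_equi {m : ℤ} {f : E3 → ℂ} (he : Equi m f) (M : ℝ → ℂ) : Equi m (𝓕⁻ (fun ξ => M ‖ξ‖ * 𝓕 f ξ)) :=
  (he.fourier.radial_mul M).fourierInv

/-- kernel of `(e^{2πiκ|ξ|} - 1) X₀` for small `κ` -/
theorem smallwave : ∃ C : ℝ, 0 ≤ C ∧ ∀ κ ∈ Icc (0:ℝ) 2,
    ∫⁻ w, ‖𝓕⁻ (fun η : E3 => (cexp (2 * Real.pi * I * (κ * ‖η‖ : ℝ)) - 1) * X0 η) w‖ₑ ≤ ENNReal.ofReal (C * κ) := by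
  obtain ⟨C0, hC0, h0⟩ := L1_of_decay
  have hr : (0:ℝ) < 3/16 := by norm_num
  have hS := contDiff_snm (V := E3) hr
  obtain ⟨D, hD, hDS⟩ := DB.on_compact hS (isCompact_closedBall (0:E3) (3/2)) 4
  obtain ⟨B, hB, hBX⟩ := DB.on_compact contDiff_X0 (isCompact_closedBall (0:E3) (3/2)) 4
  obtain ⟨C2, hC2, h2⟩ := fourier_decay (V := E3) 4 (3/2)
  have hpi := Real.pi_pos
  set Q : ℝ := 2 * (4 * Real.pi) ^ 4 with hQ
  have hQ0 : 0 ≤ Q := by positivity
  refine ⟨C0 * (C2 * (2 ^ 4 * ((Nat.factorial 4 : ℕ) * Q * D ^ 4) * B)), by positivity, ?_⟩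
  intro κ hκ
  have hg : ContDiff ℝ ∞ (fun t : ℝ => cexp ((2 * Real.pi * I * κ) * (t : ℂ)) - 1) := by
    have h4 : ContDiff ℝ ∞ (fun t : ℝ => (t : ℂ)) := Complex.ofRealCLM.contDiff
    fun_prop
  have heq : (fun η : E3 => (cexp (2 * Real.pi * I * (κ * ‖η‖ : ℝ)) - 1) * X0 η) =
      fun η => (cexp ((2 * Real.pi * I * κ) * (snm (3/16) η : ℝ)) - 1) * X0 η := by
    ext η
    by_cases h : X0 η = 0
    · rw [h]; ring
    · rw [snm_eq hr (by linarith [X0_supp h])]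
      congr 3
      push_cast; ring
  have hgS : ContDiff ℝ ∞ (fun ξ : E3 => cexp ((2 * Real.pi * I * κ) * (snm (3/16) ξ : ℝ)) - 1) := hg.comp hS
  have hX0s : ∀ {η : E3}, X0 η ≠ 0 → ‖η‖ ≤ 3/2 := by
    intro η h
    by_contra hc
    push Not at hc
    exact h (q0_right hc.le)
  have hDB : ∀ η : E3, ‖η‖ ≤ 3/2 → DB 4 (2 ^ 4 * ((Nat.factorial 4 : ℕ) * (Q * κ) * D ^ 4) * B)
      (fun η : E3 => (cexp ((2 * Real.pi * I * κ) * (snm (3/16) η : ℝ)) - 1) * X0 η) η := by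
    intro η hη
    have hη' : η ∈ Metric.closedBall (0:E3) (3/2) := by simpa using hη
    have hA : DB 4 (Q * κ) (fun t : ℝ => cexp ((2 * Real.pi * I * κ) * (t : ℂ)) - 1) (snm (3/16) η) := by
      intro i hi
      rw [norm_iteratedFDeriv_eq_norm_iteratedDeriv]
      have hs0 : 0 ≤ snm (3/16) η := mul_nonneg (Real.smoothTransition.nonneg _) (norm_nonneg _)
      have hs1 : snm (3/16) η ≤ 3/2 := by
        unfold snm
        calc _ ≤ 1 * ‖η‖ := by
              gcongr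
              exact Real.smoothTransition.le_one _
          _ ≤ 3/2 := by linarith
      have e1 : ‖(2 * Real.pi * I * κ : ℂ)‖ = 2 * Real.pi * κ := by
        rw [norm_mul, norm_mul, norm_mul]; simp [abs_of_pos hpi, abs_of_nonneg hκ.1]
      have hp1 : 1 ≤ 4 * Real.pi := by linarith [Real.pi_gt_three]
      rcases Nat.eq_zero_or_pos i with h0 | h0
      · subst h0
        rw [iteratedDeriv_zero]
        have h5 : ‖cexp ((2 * Real.pi * I * κ) * ((snm (3/16) η : ℝ) : ℂ)) - 1‖ ≤ 2 * Real.pi * κ * snm (3/16) η := by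
          have h6 := Real.norm_exp_I_mul_ofReal_sub_one_le (x := 2 * Real.pi * κ * snm (3/16) η)
          have e2 : cexp ((2 * Real.pi * I * κ) * ((snm (3/16) η : ℝ) : ℂ)) =
              cexp (I * ((2 * Real.pi * κ * snm (3/16) η : ℝ) : ℂ)) := by
            congr 1; push_cast; ring
          rw [e2]
          refine h6.trans (le_of_eq ?_)
          rw [Real.norm_of_nonneg]
          have := hκ.1
          positivity
        refine h5.trans ?_
        have hk := hκ.1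
        calc 2 * Real.pi * κ * snm (3/16) η ≤ 2 * Real.pi * κ * (3/2) := by gcongr
          _ ≤ Q * κ := by
            rw [hQ]
            have : (4 * Real.pi) ≤ (4 * Real.pi) ^ 4 := le_self_pow₀ hp1 (by norm_num)
            nlinarith
      · have e3 : iteratedDeriv i (fun t : ℝ => cexp ((2 * Real.pi * I * κ) * (t : ℂ)) - 1) =
            iteratedDeriv i (fun t : ℝ => cexp ((2 * Real.pi * I * κ) * (t : ℂ))) := by
          obtain ⟨j, rfl⟩ := Nat.exists_eq_succ_of_ne_zero h0.ne'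
          rw [iteratedDeriv_succ', iteratedDeriv_succ']
          congr 1
          ext t
          rw [deriv_sub_const]
        rw [e3, iteratedDeriv_cexp_lin, norm_mul, norm_pow, e1]
        have e2 : ‖cexp ((2 * Real.pi * I * κ) * ((snm (3/16) η : ℝ) : ℂ))‖ = 1 := by
          have : ((2 * Real.pi * I * κ) * ((snm (3/16) η : ℝ) : ℂ)) = ((2 * Real.pi * κ * snm (3/16) η : ℝ) : ℂ) * I := by
            push_cast; ring
          rw [this, Complex.norm_exp_ofReal_mul_I]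
        rw [e2, mul_one]
        have hk := hκ.1
        have hk2 := hκ.2
        calc (2 * Real.pi * κ) ^ i = (2 * Real.pi * κ) * (2 * Real.pi * κ) ^ (i - 1) := by
              rw [← pow_succ', Nat.sub_add_cancel h0]
          _ ≤ (2 * Real.pi * κ) * (4 * Real.pi) ^ (i - 1) :=
              mul_le_mul_of_nonneg_left (pow_le_pow_left₀ (by positivity) (by nlinarith) _) (by positivity)
          _ ≤ (2 * Real.pi * κ) * (4 * Real.pi) ^ 3 :=
              mul_le_mul_of_nonneg_left (pow_le_pow_right₀ hp1 (by omega)) (by positivity)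
          _ ≤ Q * κ := by
              rw [hQ]
              have : (4 * Real.pi) ^ 4 = (4 * Real.pi) ^ 3 * (4 * Real.pi) := by ring
              rw [this]
              have h8 : 0 ≤ (4 * Real.pi) ^ 3 * κ * Real.pi := by positivity
              nlinarith
    have h3 := DB.comp hg hS hA (hDS η hη') hD
    exact DB.mul hgS contDiff_X0 h3 (hBX η hη')
  rw [heq]
  have hκ0 := hκ.1
  have hfin := h0 (𝓕⁻ (fun η : E3 => (cexp ((2 * Real.pi * I * κ) * (snm (3/16) η : ℝ)) - 1) * X0 η))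
    (C2 * (2 ^ 4 * ((Nat.factorial 4 : ℕ) * (Q * κ) * D ^ 4) * B)) (by positivity) (by
      intro w
      have h3 := h2 (fun η : E3 => (cexp ((2 * Real.pi * I * κ) * (snm (3/16) η : ℝ)) - 1) * X0 η)
        (2 ^ 4 * ((Nat.factorial 4 : ℕ) * (Q * κ) * D ^ 4) * B) (hgS.mul contDiff_X0)
        (fun η hη => hX0s (right_ne_zero_of_mul hη)) hDB (by positivity) (-w)
      rw [norm_neg] at h3
      rw [Real.fourierInv_eq_fourier_neg]
      exact h3)
  refine hfin.trans (le_of_eq ?_)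
  congr 1
  ring

/-! ## Symbols of the Bessel potential -/

noncomputable def q2 (r : ℝ) : ℂ := ((Real.smoothTransition (8 * r - 2) * Real.smoothTransition (4 - 2 * r) : ℝ) : ℂ)

theorem contDiff_q2 : ContDiff ℝ ∞ q2 := by
  unfold q2
  exact Complex.ofRealCLM.contDiff.comp ((contDiff_st.comp (by fun_prop)).mul (contDiff_st.comp (by fun_prop)))

theorem q2_one {r : ℝ} (h1 : 3/8 ≤ r) (h2 : r ≤ 3/2) : q2 r = 1 := by
  unfold q2
  rw [Real.smoothTransition.one_of_one_le (by linarith), Real.smoothTransition.one_of_one_le (by linarith)]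
  simp

theorem q2_left {r : ℝ} (h : r ≤ 1/4) : q2 r = 0 := by
  unfold q2
  rw [Real.smoothTransition.zero_of_nonpos (show 8 * r - 2 ≤ 0 by linarith)]; simp

theorem q2_right {r : ℝ} (h : 2 ≤ r) : q2 r = 0 := by
  unfold q2
  rw [Real.smoothTransition.zero_of_nonpos (show 4 - 2 * r ≤ 0 by linarith)]; simp

/-- symbol of `J^{-α}` -/
noncomputable def bf (α r : ℝ) : ℂ := (((1 + 4 * Real.pi ^ 2 * r ^ 2) ^ (-α / 2) : ℝ) : ℂ)

noncomputable def symB (α : ℝ) (z : E3 × ℝ) : ℂ := q2 ‖z.1‖ * (((z.2 ^ 2 + 4 * Real.pi ^ 2 * ‖z.1‖ ^ 2) ^ (-α / 2) : ℝ) : ℂ)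
noncomputable def symG (α : ℝ) (z : E3 × ℝ) : ℂ := q2 ‖z.1‖ * (((1 + 4 * Real.pi ^ 2 * (z.2 ^ 2 * ‖z.1‖ ^ 2)) ^ (-α / 2) : ℝ) : ℂ)
noncomputable def symL (α : ℝ) (z : E3 × ℝ) : ℂ := etz (4 * ‖z.1‖ / 3) * (((1 + 4 * Real.pi ^ 2 * ‖z.1‖ ^ 2) ^ (-α / 2) : ℝ) : ℂ)

theorem contDiff_rad {M : ℝ → ℂ} (hM : ContDiff ℝ ∞ M) {r : ℝ} (hr : 0 < r) (h0 : ∀ t, t ≤ r → M t = 0) :
    ContDiff ℝ ∞ (fun z : E3 × ℝ => M ‖z.1‖) :=
  (contDiff_radial (V := E3) hM hr h0).comp contDiff_fst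

theorem contDiff_symB (α : ℝ) : ContDiff ℝ ∞ (symB α) := by
  rw [contDiff_iff_contDiffAt]
  rintro ⟨η, κ⟩
  by_cases hη : η = 0
  · have : symB α =ᶠ[𝓝 (η, κ)] fun _ => 0 := by
      have hb : Metric.ball (0:E3) (1/4) ×ˢ (univ : Set ℝ) ∈ 𝓝 (η, κ) := by
        rw [hη]
        exact prod_mem_nhds (Metric.ball_mem_nhds _ (by norm_num)) univ_mem
      filter_upwards [hb] with z hz
      unfold symB
      have h1 : ‖z.1‖ < 1/4 := by simpa using hz.1
      rw [q2_left h1.le, zero_mul]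
    exact contDiffAt_const.congr_of_eventuallyEq this
  · have hpi := Real.pi_pos
    have h1 : ContDiff ℝ ∞ (fun z : E3 × ℝ => z.2 ^ 2 + 4 * Real.pi ^ 2 * ‖z.1‖ ^ 2) := by
      have := (contDiff_norm_sq ℝ (E := E3) (n := ∞)).comp (contDiff_fst (F := ℝ))
      exact (contDiff_snd.pow 2).add (contDiff_const.mul this)
    have h2 : (fun z : E3 × ℝ => z.2 ^ 2 + 4 * Real.pi ^ 2 * ‖z.1‖ ^ 2) (η, κ) ≠ 0 := by
      have : 0 < ‖η‖ := norm_pos_iff.2 hη
      simp only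
      positivity
    have h3 := h1.contDiffAt.rpow_const_of_ne (p := -α / 2) h2
    exact (contDiff_rad contDiff_q2 (by norm_num : (0:ℝ) < 1/4) (fun t ht => q2_left ht)).contDiffAt.mul
      (Complex.ofRealCLM.contDiff.contDiffAt.comp _ h3)

theorem contDiff_symG (α : ℝ) : ContDiff ℝ ∞ (symG α) := by
  have hpi := Real.pi_pos
  have h1 : ContDiff ℝ ∞ (fun z : E3 × ℝ => 1 + 4 * Real.pi ^ 2 * (z.2 ^ 2 * ‖z.1‖ ^ 2)) := by
    have := (contDiff_norm_sq ℝ (E := E3) (n := ∞)).comp (contDiff_fst (F := ℝ))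
    exact contDiff_const.add (contDiff_const.mul ((contDiff_snd.pow 2).mul this))
  have h3 : ContDiff ℝ ∞ (fun z : E3 × ℝ => (1 + 4 * Real.pi ^ 2 * (z.2 ^ 2 * ‖z.1‖ ^ 2)) ^ (-α / 2)) :=
    h1.rpow_const_of_ne (fun z => by positivity)
  exact (contDiff_rad contDiff_q2 (by norm_num : (0:ℝ) < 1/4) (fun t ht => q2_left ht)).mul
    (Complex.ofRealCLM.contDiff.comp h3)

theorem contDiff_etzr {V : Type*} [NormedAddCommGroup V] [InnerProductSpace ℝ V] :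
    ContDiff ℝ ∞ (fun ξ : V => etz (4 * ‖ξ‖ / 3)) := by
  have h0 : ContDiff ℝ ∞ (fun r : ℝ => 4 * r / 3) := by fun_prop
  have h1 : ContDiff ℝ ∞ (fun ξ : V => (fun r => etz (4 * r / 3) - 1) ‖ξ‖) :=
    contDiff_radial (M := fun r => etz (4 * r / 3) - 1) ((contDiff_etz.comp h0).sub contDiff_const)
      (by norm_num : (0:ℝ) < 3/4)
      (fun t ht => by rw [etz_one (by linarith), sub_self])
  have h2 : (fun ξ : V => etz (4 * ‖ξ‖ / 3)) = fun ξ : V => (etz (4 * ‖ξ‖ / 3) - 1) + 1 := by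
    ext ξ; ring
  rw [h2]
  exact h1.add contDiff_const

theorem contDiff_symL (α : ℝ) : ContDiff ℝ ∞ (symL α) := by
  have hpi := Real.pi_pos
  have h1 : ContDiff ℝ ∞ (fun z : E3 × ℝ => 1 + 4 * Real.pi ^ 2 * ‖z.1‖ ^ 2) := by
    have := (contDiff_norm_sq ℝ (E := E3) (n := ∞)).comp (contDiff_fst (F := ℝ))
    exact contDiff_const.add (contDiff_const.mul this)
  have h3 : ContDiff ℝ ∞ (fun z : E3 × ℝ => (1 + 4 * Real.pi ^ 2 * ‖z.1‖ ^ 2) ^ (-α / 2)) :=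
    h1.rpow_const_of_ne (fun z => by positivity)
  exact (contDiff_etzr.comp contDiff_fst).mul (Complex.ofRealCLM.contDiff.comp h3)

theorem symB_supp {α : ℝ} {η : E3} {κ : ℝ} (h : symB α (η, κ) ≠ 0) : ‖η‖ ≤ 2 := by
  by_contra hc; push Not at hc
  apply h; unfold symB; simp only; rw [q2_right hc.le, zero_mul]
theorem symG_supp {α : ℝ} {η : E3} {κ : ℝ} (h : symG α (η, κ) ≠ 0) : ‖η‖ ≤ 2 := by
  by_contra hc; push Not at hc
  apply h; unfold symG; simp only; rw [q2_right hc.le, zero_mul]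
theorem symL_supp {α : ℝ} {η : E3} {κ : ℝ} (h : symL α (η, κ) ≠ 0) : ‖η‖ ≤ 2 := by
  by_contra hc; push Not at hc
  apply h; unfold symL; simp only; rw [etz_zero (by linarith), zero_mul]

theorem compact_of_supp {M : E3 → ℂ} {R : ℝ} (h : ∀ ξ, M ξ ≠ 0 → ‖ξ‖ ≤ R) : HasCompactSupport M := by
  apply HasCompactSupport.of_support_subset_isCompact (isCompact_closedBall (0:E3) R)
  intro ξ hξ
  simpa using h ξ hξ

end Vale.Agent.P106
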