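import Vale.Agent.P106.A.LP

set_option linter.all false

open MeasureTheory Complex Set Filter
open scoped ENNReal NNReal ContDiff FourierTransform SchwartzMap ComplexConjugate Topology

namespace Vale.Agent.P106

open Vale.Agent.P117

/-- symbol of the half wave operator composed with `J^{-α}` -/
noncomputable def sm (α t : ℝ) (ξ : E3) : ℂ := bf α ‖ξ‖ * cexp (2 * Real.pi * I * (t * ‖ξ‖ : ℝ))

noncomputable def uu (α : ℝ) (g : E3 → ℂ) (t : ℝ) (x : E3) : ℂ := 𝓕⁻ (fun ξ => sm α t ξ * 𝓕 g ξ) x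

noncomputable def lo (α : ℝ) (g : E3 → ℂ) (x : E3) : ℂ := 𝓕⁻ (fun ξ => symL α (ξ, 0) * 𝓕 g ξ) x

theorem norm_ex (r : ℝ) : ‖cexp (2 * Real.pi * I * (r : ℝ))‖ = 1 := by
  have : (2 * Real.pi * I * (r : ℝ) : ℂ) = ((2 * Real.pi * r : ℝ) : ℂ) * I := by push_cast; ring
  rw [this, Complex.norm_exp_ofReal_mul_I]

theorem norm_bf_le {α : ℝ} (hα : 0 ≤ α) (r : ℝ) : ‖bf α r‖ ≤ 1 := by
  unfold bf
  have hpi := Real.pi_pos
  rw [Complex.norm_real, Real.norm_of_nonneg (by positivity)]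
  apply Real.rpow_le_one_of_one_le_of_nonpos
  · have : 0 ≤ 4 * Real.pi ^ 2 * r ^ 2 := by positivity
    linarith
  · linarith

theorem continuous_bf (α : ℝ) : Continuous (bf α) := by
  unfold bf
  apply Complex.continuous_ofReal.comp
  apply Continuous.rpow_const (by fun_prop)
  intro r
  left
  have hpi := Real.pi_pos
  positivity

/-- sum over the small frequencies -/
theorem chd_low {t : ℝ} (ht : 0 < t) : HasSum (fun l : ℤ => if 0 < l then 0 else chd (t / (2:ℝ) ^ l)) (etz t) := by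
  set i : ℕ → ℤ := fun n => -(n:ℤ) with hi
  have hinj : Function.Injective i := by
    intro a b h
    simp only [hi] at h
    omega
  have h0 : ∀ x ∉ Set.range i, (fun l : ℤ => if 0 < l then 0 else chd (t / (2:ℝ) ^ l)) x = 0 := by
    intro x hx
    simp only
    rw [if_pos]
    by_contra hc
    apply hx
    refine ⟨x.natAbs, ?_⟩
    simp only [hi]
    omega
  rw [← hinj.hasSum_iff h0]
  obtain ⟨N, hN⟩ : ∃ N : ℕ, 2 ≤ t * 2 ^ N := by
    obtain ⟨N, hN⟩ := pow_unbounded_of_one_lt (2 / t) (by norm_num : (1:ℝ) < 2)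
    refine ⟨N, ?_⟩
    rw [div_lt_iff₀ ht] at hN
    linarith
  have e1 : ∀ n : ℕ, ((fun l : ℤ => if 0 < l then 0 else chd (t / (2:ℝ) ^ l)) ∘ i) n =
      etz (t * 2 ^ n) - etz (t * 2 ^ (n + 1)) := by
    intro n
    simp only [Function.comp, hi]
    rw [if_neg (by omega)]
    unfold chd
    have : t / (2:ℝ) ^ (-(n:ℤ)) = t * 2 ^ n := by
      rw [zpow_neg, zpow_natCast, div_inv_eq_mul]
    rw [this, pow_succ]
    congr 2
    ring
  have hz : ∀ n ∉ Finset.range N, ((fun l : ℤ => if 0 < l then 0 else chd (t / (2:ℝ) ^ l)) ∘ i) n = 0 := by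
    intro n hn
    rw [Finset.mem_range, not_lt] at hn
    rw [e1]
    have h2 : 2 ≤ t * 2 ^ n := hN.trans (by gcongr; norm_num)
    have h3 : 2 ≤ t * 2 ^ (n + 1) := hN.trans (by gcongr; norm_num; omega)
    rw [etz_zero h2, etz_zero h3, sub_self]
  have hs : HasSum ((fun l : ℤ => if 0 < l then 0 else chd (t / (2:ℝ) ^ l)) ∘ i)
      (∑ n ∈ Finset.range N, ((fun l : ℤ => if 0 < l then 0 else chd (t / (2:ℝ) ^ l)) ∘ i) n) :=
    hasSum_sum_of_ne_finset_zero hz
  have e2 : ∑ n ∈ Finset.range N, ((fun l : ℤ => if 0 < l then 0 else chd (t / (2:ℝ) ^ l)) ∘ i) n = etz t := by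
    simp_rw [e1]
    rw [Finset.sum_range_sub' (fun n => etz (t * 2 ^ n))]
    rw [etz_zero hN]
    simp
  rw [e2] at hs
  exact hs

theorem pm_hasSum (α t : ℝ) {ξ : E3} (hξ : ξ ≠ 0) :
    HasSum (fun l : ℤ => pm α t l ξ) (sm α t ξ - symL α (ξ, 0)) := by
  have h0 : 0 < 4 * ‖ξ‖ / 3 := by
    have := norm_pos_iff.2 hξ
    positivity
  have h1 := (chd_sum h0).mul_right (bf α ‖ξ‖ * cexp (2 * Real.pi * I * (t * ‖ξ‖ : ℝ)))
  have h2 := (chd_low h0).mul_right (bf α ‖ξ‖)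
  have h3 := h1.sub h2
  have e : sm α t ξ - symL α (ξ, 0) = 1 * (bf α ‖ξ‖ * cexp (2 * Real.pi * I * (t * ‖ξ‖ : ℝ))) - etz (4 * ‖ξ‖ / 3) * bf α ‖ξ‖ := by
    unfold sm symL bf
    ring
  rw [e]
  refine h3.congr_fun ?_
  intro l
  unfold pm
  split_ifs <;> ring

theorem norm_pm_le {α : ℝ} (hα : 0 ≤ α) (t : ℝ) (l : ℤ) (ξ : E3) :
    ‖pm α t l ξ‖ ≤ 2 * chr ((4 * ‖ξ‖ / 3) / (2:ℝ) ^ l) := by
  unfold pm
  rw [norm_mul, norm_mul, chd_eq, Complex.norm_real, Real.norm_of_nonneg (chr_nonneg (by positivity)), mul_comm]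
  have h1 := norm_bf_le hα ‖ξ‖
  have h2 : ‖cexp (2 * Real.pi * I * (t * ‖ξ‖ : ℝ)) - (if 0 < l then 0 else 1)‖ ≤ 2 := by
    refine (norm_sub_le _ _).trans ?_
    rw [norm_ex]
    split_ifs <;> simp <;> norm_num
  have h3 : 0 ≤ chr ((4 * ‖ξ‖ / 3) / (2:ℝ) ^ l) := chr_nonneg (by positivity)
  gcongr
  calc ‖bf α ‖ξ‖‖ * ‖cexp (2 * Real.pi * I * (t * ‖ξ‖ : ℝ)) - (if 0 < l then 0 else 1)‖ ≤ 1 * 2 := by gcongr
    _ = 2 := by ring

theorem measurable_pm (α t : ℝ) (l : ℤ) : Measurable (pm α t l) := by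
  unfold pm
  have hcm : Measurable chd := contDiff_chd.continuous.measurable
  have hb : Measurable (bf α) := (continuous_bf α).measurable
  fun_prop

theorem measurable_sm (α t : ℝ) : Measurable (sm α t) := by
  unfold sm
  have hb : Measurable (bf α) := (continuous_bf α).measurable
  fun_prop

theorem norm_sm_le {α : ℝ} (hα : 0 ≤ α) (t : ℝ) (ξ : E3) : ‖sm α t ξ‖ ≤ 1 := by
  unfold sm
  rw [norm_mul, norm_ex, mul_one]
  exact norm_bf_le hα _

theorem chr_le_one (t : ℝ) : chr t ≤ 1 := by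
  unfold chr
  have h1 := Real.smoothTransition.le_one (2 - t)
  have h2 := Real.smoothTransition.nonneg (2 - 2 * t)
  linarith

/-- joint continuity of the multiplier transform -/
theorem cont_mt {F : E3 → ℂ} (hF : Integrable F) {m : ℝ → E3 → ℂ} (hm : ∀ t, Measurable (m t)) {B : ℝ}
    (hB : ∀ t ξ, ‖m t ξ‖ ≤ B) (hc : ∀ ξ, Continuous (fun t => m t ξ)) :
    Continuous (fun z : ℝ × E3 => 𝓕⁻ (fun ξ => m z.1 ξ * F ξ) z.2) := by
  simp_rw [Real.fourierInv_eq']
  apply continuous_of_dominated (bound := fun ξ => B * ‖F ξ‖)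
  · intro z
    have h1 : AEStronglyMeasurable (fun ξ : E3 => cexp ((2 * Real.pi * inner ℝ ξ z.2 : ℝ) * I)) volume := by
      apply Continuous.aestronglyMeasurable
      fun_prop
    exact h1.smul ((hm z.1).aestronglyMeasurable.mul hF.1)
  · intro z
    filter_upwards with ξ
    rw [norm_smul, norm_mul, Complex.norm_exp_ofReal_mul_I, one_mul]
    gcongr
    exact hB _ _
  · exact hF.norm.const_mul B
  · filter_upwards with ξ
    have h1 : Continuous (fun z : ℝ × E3 => m z.1 ξ) := (hc ξ).comp continuous_fst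
    have h2 : Continuous (fun z : ℝ × E3 => cexp ((2 * Real.pi * inner ℝ ξ z.2 : ℝ) * I)) := by fun_prop
    have h3 : Continuous (fun z : ℝ × E3 => m z.1 ξ * F ξ) := h1.mul continuous_const
    exact h2.smul h3

theorem cont_pp {α : ℝ} (hα : 0 ≤ α) (l : ℤ) {g : E3 → ℂ} (hF : Integrable (𝓕 g)) :
    Continuous (fun z : ℝ × E3 => pp α g l z.1 z.2) := by
  apply cont_mt hF (m := fun t => pm α t l) (fun t => measurable_pm α t l) (B := 2)
  · intro t ξ
    refine (norm_pm_le hα t l ξ).trans ?_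
    have := chr_le_one ((4 * ‖ξ‖ / 3) / (2:ℝ) ^ l)
    linarith
  · intro ξ
    unfold pm
    fun_prop

theorem cont_uu {α : ℝ} (hα : 0 ≤ α) {g : E3 → ℂ} (hF : Integrable (𝓕 g)) :
    Continuous (fun z : ℝ × E3 => uu α g z.1 z.2) := by
  apply cont_mt hF (m := fun t => sm α t) (fun t => measurable_sm α t) (B := 1)
  · intro t ξ
    exact norm_sm_le hα t ξ
  · intro ξ
    unfold sm
    fun_prop

theorem cont_lo (α : ℝ) {g : E3 → ℂ} (hg : Adm volume g) : Continuous (lo α g) :=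
  (smop_props (M := fun ξ => symL α (ξ, 0)) ((contDiff_symL α).comp (by fun_prop))
    (compact_of_supp (fun η h => symL_supp h)) hg).2.2.2

theorem pp_hasSum {α : ℝ} (hα : 0 ≤ α) {g : E3 → ℂ} (hF : Integrable (𝓕 g)) (t : ℝ) (x : E3) :
    HasSum (fun l : ℤ => pp α g l t x) (uu α g t x - lo α g x) := by
  have hne : ∀ᵐ ξ : E3, ξ ≠ 0 := by
    rw [ae_iff]
    simp
  have e : uu α g t x - lo α g x = 𝓕⁻ (fun ξ => (sm α t ξ - symL α (ξ, 0)) * 𝓕 g ξ) x := by
    unfold uu lo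
    rw [← fi_sub]
    · have : (fun ξ : E3 => sm α t ξ * 𝓕 g ξ - symL α (ξ, 0) * 𝓕 g ξ) = fun ξ => (sm α t ξ - symL α (ξ, 0)) * 𝓕 g ξ := by
        ext ξ
        ring
      rw [this]
    · refine hF.bdd_mul (c := 1) (measurable_sm α t).aestronglyMeasurable ?_
      filter_upwards with ξ
      exact norm_sm_le hα t ξ
    · have hL : Measurable (fun ξ : E3 => symL α (ξ, 0)) := ((contDiff_symL α).comp (by fun_prop : ContDiff ℝ ∞ (fun ξ : E3 => (ξ, (0:ℝ))))).continuous.measurable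
      refine hF.bdd_mul (c := 1) hL.aestronglyMeasurable ?_
      filter_upwards with ξ
      unfold symL
      have h1 := norm_bf_le hα ‖ξ‖
      unfold bf at h1
      rw [norm_mul]
      have h2 : ‖etz (4 * ‖ξ‖ / 3)‖ ≤ 1 := by
        unfold etz
        rw [Complex.norm_real, Real.norm_of_nonneg (Real.smoothTransition.nonneg _)]
        exact Real.smoothTransition.le_one _
      have h3 := norm_nonneg (etz (4 * ‖ξ‖ / 3))
      simp only
      nlinarith [norm_nonneg ((((1 + 4 * Real.pi ^ 2 * ‖ξ‖ ^ 2) ^ (-α / 2) : ℝ) : ℂ))]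
  rw [e]
  unfold pp
  simp_rw [Real.fourierInv_eq']
  apply hasSum_integral_of_dominated_convergence (bound := fun (l : ℤ) (ξ : E3) => 2 * chr ((4 * ‖ξ‖ / 3) / (2:ℝ) ^ l) * ‖𝓕 g ξ‖)
  · intro l
    have h1 : AEStronglyMeasurable (fun ξ : E3 => cexp ((2 * Real.pi * inner ℝ ξ x : ℝ) * I)) volume := by
      apply Continuous.aestronglyMeasurable
      fun_prop
    exact h1.smul ((measurable_pm α t l).aestronglyMeasurable.mul hF.1)
  · intro l
    filter_upwards with ξ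
    rw [norm_smul, norm_mul, Complex.norm_exp_ofReal_mul_I, one_mul]
    gcongr
    exact norm_pm_le hα t l ξ
  · filter_upwards [hne] with ξ hξ
    have h0 : 0 < 4 * ‖ξ‖ / 3 := by
      have := norm_pos_iff.2 hξ
      positivity
    exact (((chr_sum h0).summable).mul_left 2).mul_right _
  · refine ((hF.norm.const_mul 2)).congr ?_
    filter_upwards [hne] with ξ hξ
    have h0 : 0 < 4 * ‖ξ‖ / 3 := by
      have := norm_pos_iff.2 hξ
      positivity
    rw [(((chr_sum h0).mul_left 2).mul_right _).tsum_eq, mul_one]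
  · filter_upwards [hne] with ξ hξ
    exact ((pm_hasSum α t hξ).mul_right _).const_smul _

end Vale.Agent.P106
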