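import Vale.Agent.P106.A.LPs

set_option linter.all false

open MeasureTheory Complex Set Filter
open scoped ENNReal NNReal ContDiff FourierTransform SchwartzMap ComplexConjugate Topology

namespace Vale.Agent.P106

open Vale.Agent.P117

/-- measure of the time slab -/
noncomputable def muS : Measure (ℝ × E3) := (volume.restrict (Icc (1:ℝ) 2)).prod volume

/-- bound of a norm by the sum of the norms of the terms of a series -/
theorem eLpNorm_le_tsum_gen {β : Type*} [MeasurableSpace β] {μ : Measure β} {u : β → ℂ} {v : ℤ → β → ℂ}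
    (hv : ∀ m, AEStronglyMeasurable (v m) μ)
    (h : ∀ x, HasSum (fun m => v m x) (u x)) {p : ℝ≥0∞} (hp : 1 ≤ p) :
    eLpNorm u p μ ≤ ∑' m, eLpNorm (v m) p μ := by
  obtain ⟨e⟩ : Nonempty (ℕ ≃ ℤ) := ⟨(Denumerable.eqv ℤ).symm⟩
  have h1 : ∀ x, Tendsto (fun n : ℕ => (∑ i ∈ Finset.range n, v (e i)) x) atTop (𝓝 (u x)) := by
    intro x
    have h2 : HasSum (fun i : ℕ => v (e i) x) (u x) := (e.hasSum_iff (f := fun m => v m x)).2 (h x)
    have h3 := h2.tendsto_sum_nat
    simpa [Finset.sum_apply] using h3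
  have h4 := Lp.eLpNorm_lim_le_liminf_eLpNorm (p := p) (μ := μ)
    (f := fun n : ℕ => ∑ i ∈ Finset.range n, v (e i))
    (fun n => Finset.aestronglyMeasurable_sum _ (fun i _ => hv (e i))) u
    (Filter.Eventually.of_forall h1)
  refine h4.trans ?_
  have h5 : ∀ n : ℕ, eLpNorm (∑ i ∈ Finset.range n, v (e i)) p μ ≤ ∑' m, eLpNorm (v m) p μ := by
    intro n
    refine (eLpNorm_sum_le (fun i _ => hv (e i)) hp).trans ?_
    calc ∑ i ∈ Finset.range n, eLpNorm (v (e i)) p μ ≤ ∑' i : ℕ, eLpNorm (v (e i)) p μ :=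
          ENNReal.sum_le_tsum _
      _ = ∑' m, eLpNorm (v m) p μ := e.tsum_eq (fun m => eLpNorm (v m) p μ)
  exact (Filter.liminf_le_liminf (Filter.Eventually.of_forall h5)).trans (by simp)

theorem eLpNorm_muS {P : ℝ} (hP : 1 ≤ P) {F : ℝ × E3 → ℂ} (hF : Continuous F) {D : ℝ} (hD : 0 ≤ D)
    (h : ∫⁻ t in Icc (1:ℝ) 2, ∫⁻ x : E3, ‖F (t, x)‖ₑ ^ P ≤ ENNReal.ofReal (D ^ P)) :
    eLpNorm F (ENNReal.ofReal P) muS ≤ ENNReal.ofReal D := by
  have hP0 : 0 < P := by linarith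
  rw [eLpNorm_eq_lintegral_rpow_enorm_toReal (by simp; linarith) ENNReal.ofReal_ne_top,
    ENNReal.toReal_ofReal (by linarith)]
  have e1 : ∫⁻ z, ‖F z‖ₑ ^ P ∂muS = ∫⁻ t in Icc (1:ℝ) 2, ∫⁻ x : E3, ‖F (t, x)‖ₑ ^ P := by
    unfold muS
    rw [lintegral_prod _ (by
      have := hF.measurable
      fun_prop)]
  rw [e1]
  calc _ ≤ (ENNReal.ofReal (D ^ P)) ^ (1 / P) := by gcongr
    _ = ENNReal.ofReal D := by
        rw [ENNReal.ofReal_rpow_of_nonneg (by positivity) (by positivity), ← Real.rpow_mul hD,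
          mul_one_div_cancel hP0.ne', Real.rpow_one]

/-- the bound for one mode -/
theorem mode_LS (hD2 : StD2) (hD3 : StD3) {P : ℝ} (hP : 2 < P) {α : ℝ} (hα : max (1 - 3 * (1 / P)) 0 < α) :
    ∃ (K : ℕ) (C : ℝ), 0 ≤ C ∧ ∀ (m : ℤ) (g : E3 → ℂ), Adm volume g → Integrable (𝓕 g) → Equi m g →
    eLpNorm (fun z : ℝ × E3 => uu α g z.1 z.2) (ENNReal.ofReal P) muS ≤
      ENNReal.ofReal (C * (1 + |(m:ℝ)|) ^ K) * eLpNorm g (ENNReal.ofReal P) volume := by
  have hα0 : 0 < α := lt_of_le_of_lt (le_max_right _ _) hα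
  have hP0 : 0 < P := by linarith
  have hP1 : (1:ℝ≥0∞) ≤ ENNReal.ofReal P := by
    rw [← ENNReal.ofReal_one]; exact ENNReal.ofReal_le_ofReal (by linarith)
  set e : ℝ := (max (1 - 3 * (1 / P)) 0 + α) / 2 with he
  have he1 : max (1 - 3 * (1 / P)) 0 < e := by rw [he]; linarith
  have he2 : e < α := by rw [he]; linarith
  obtain ⟨K, C1, hC1, h1⟩ := piece_hi hD2 hD3 hP he1 α
  obtain ⟨C2, hC2, h2⟩ := piece_lo hP α
  obtain ⟨C3, hC3, hL⟩ := paramL1 (contDiff_symL α) 2 (fun η κ h => symL_supp h)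
  set r : ℝ := max (1/2) ((2:ℝ) ^ (e - α)) with hr
  have hr0 : 0 ≤ r := le_max_of_le_left (by norm_num)
  have hr1 : r < 1 := by
    apply max_lt (by norm_num)
    apply Real.rpow_lt_one_of_one_lt_of_neg (by norm_num) (by linarith)
  have hS := summable_kz hr0 hr1
  set S : ℝ := ∑' l : ℤ, kz r l with hSd
  have hS0 : 0 ≤ S := tsum_nonneg (kz_nonneg hr0)
  refine ⟨K, C3 + (C1 + C2) * S, by positivity, ?_⟩
  intro m g hg hF hge
  set Nm : ℝ := (1 + |(m:ℝ)|) ^ K with hNm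
  have hNm1 : 1 ≤ Nm := one_le_pow₀ (by have := abs_nonneg (m:ℝ); linarith)
  set n : ℝ := nrm (ENNReal.ofReal P) g volume with hn
  have hn0 : 0 ≤ n := nrm_nonneg
  -- pieces
  have hp : ∀ l : ℤ, eLpNorm (fun z : ℝ × E3 => pp α g l z.1 z.2) (ENNReal.ofReal P) muS ≤
      ENNReal.ofReal ((C1 + C2) * kz r l * (Nm * n)) := by
    intro l
    have hk := kz_nonneg hr0 l
    by_cases hl : 0 < l
    · refine (eLpNorm_muS (by linarith) (cont_pp hα0.le l hF) (by positivity) (h1 l hl m g hg hge)).trans ?_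
      apply ENNReal.ofReal_le_ofReal
      have hL0 : (0:ℝ) < (2:ℝ) ^ l := by positivity
      have e1 : ((2:ℝ) ^ l) ^ (e - α) ≤ kz r l := by
        unfold kz
        obtain ⟨k, hk⟩ := Int.eq_ofNat_of_zero_le hl.le
        rw [hk, zpow_natCast, Int.natAbs_natCast, ← Real.rpow_natCast, ← Real.rpow_mul (by norm_num), mul_comm,
          Real.rpow_mul (by norm_num), Real.rpow_natCast]
        exact pow_le_pow_left₀ (by positivity) (le_max_right _ _) _
      calc C1 * ((2:ℝ) ^ l) ^ (e - α) * Nm * n ≤ C1 * kz r l * Nm * n := by gcongr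
        _ ≤ (C1 + C2) * kz r l * Nm * n := by gcongr; linarith
        _ = _ := by ring
    · refine (eLpNorm_muS (by linarith) (cont_pp hα0.le l hF) (by positivity) (h2 l hl g hg)).trans ?_
      apply ENNReal.ofReal_le_ofReal
      have e1 : (2:ℝ) ^ l ≤ kz r l := by
        unfold kz
        obtain ⟨k, hk⟩ := Int.eq_ofNat_of_zero_le (show 0 ≤ -l by omega)
        have hl' : l = -(k:ℤ) := by omega
        rw [hl', Int.natAbs_neg, Int.natAbs_natCast, zpow_neg, zpow_natCast, ← inv_pow]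
        apply pow_le_pow_left₀ (by norm_num)
        rw [hr]
        exact le_trans (by norm_num) (le_max_left _ _)
      calc C2 * (2:ℝ) ^ l * n ≤ C2 * kz r l * n := by gcongr
        _ ≤ (C1 + C2) * kz r l * n := by gcongr; linarith
        _ = (C1 + C2) * kz r l * (1 * n) := by ring
        _ ≤ (C1 + C2) * kz r l * (Nm * n) :=
          mul_le_mul_of_nonneg_left (mul_le_mul_of_nonneg_right hNm1 hn0) (by positivity)
  have hcl : Continuous (fun z : ℝ × E3 => lo α g z.2) := (cont_lo α hg).comp continuous_snd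
  have hcu : Continuous (fun z : ℝ × E3 => uu α g z.1 z.2) := cont_uu hα0.le hF
  -- low part
  have hlo : eLpNorm (fun z : ℝ × E3 => lo α g z.2) (ENNReal.ofReal P) muS ≤ ENNReal.ofReal (C3 * (Nm * n)) := by
    obtain ⟨s1, s2, s3, s4⟩ := smop_props (M := fun ξ => symL α (ξ, 0)) ((contDiff_symL α).comp (by fun_prop))
      (compact_of_supp (fun η h => symL_supp h)) hg
    have h3 := s3 C3 hC3 (hL 0 ⟨le_rfl, zero_le_one⟩) (ENNReal.ofReal P) hP1
    have h4 := pow_nrm_le (P := P) (by linarith) s1 h3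
    have h6 : ∫⁻ t in Icc (1:ℝ) 2, ∫⁻ x : E3, ‖lo α g x‖ₑ ^ P ≤ ENNReal.ofReal ((C3 * n) ^ P) := by
      rw [setLIntegral_const, Real.volume_Icc]
      norm_num
      exact h4
    refine (eLpNorm_muS (F := fun z : ℝ × E3 => lo α g z.2) (D := C3 * n) (by linarith) hcl (by positivity) h6).trans ?_
    apply ENNReal.ofReal_le_ofReal
    have e5 : C3 * n = C3 * (1 * n) := by rw [one_mul]
    rw [e5]
    exact mul_le_mul_of_nonneg_left (mul_le_mul_of_nonneg_right hNm1 hn0) hC3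
  have hsum : eLpNorm (fun z : ℝ × E3 => uu α g z.1 z.2 - lo α g z.2) (ENNReal.ofReal P) muS ≤
      ENNReal.ofReal ((C1 + C2) * S * (Nm * n)) := by
    have k1 : ∀ l : ℤ, AEStronglyMeasurable (fun z : ℝ × E3 => pp α g l z.1 z.2) muS :=
      fun l => (cont_pp hα0.le l hF).aestronglyMeasurable
    have k2 : ∀ z : ℝ × E3, HasSum (fun l : ℤ => pp α g l z.1 z.2) (uu α g z.1 z.2 - lo α g z.2) :=
      fun z => pp_hasSum hα0.le hF z.1 z.2
    refine (eLpNorm_le_tsum_gen (μ := muS) (u := fun z : ℝ × E3 => uu α g z.1 z.2 - lo α g z.2)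
      (v := fun (l : ℤ) (z : ℝ × E3) => pp α g l z.1 z.2) k1 k2 hP1).trans ?_
    refine (ENNReal.tsum_le_tsum hp).trans (le_of_eq ?_)
    rw [← ENNReal.ofReal_tsum_of_nonneg (fun l => by have := kz_nonneg hr0 l; positivity)
      ((hS.mul_left _).mul_right _), tsum_mul_right, tsum_mul_left]
  have e1 : (fun z : ℝ × E3 => uu α g z.1 z.2) = (fun z : ℝ × E3 => uu α g z.1 z.2 - lo α g z.2) + fun z => lo α g z.2 := by
    ext z; simp
  rw [e1]
  refine (eLpNorm_add_le (hcu.sub hcl).aestronglyMeasurable hcl.aestronglyMeasurable hP1).trans ?_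
  rw [← hg.ofReal_nrm hP1, ← hn, ← ENNReal.ofReal_mul (by positivity)]
  calc _ ≤ ENNReal.ofReal ((C1 + C2) * S * (Nm * n)) + ENNReal.ofReal (C3 * (Nm * n)) := add_le_add hsum hlo
    _ = _ := by
        rw [← ENNReal.ofReal_add (by positivity) (by positivity)]
        congr 1
        ring

end Vale.Agent.P106
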