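import Vale.Agent.P106.A.Dual

set_option linter.all false

open MeasureTheory Complex Set Filter
open scoped ENNReal NNReal ContDiff FourierTransform SchwartzMap ComplexConjugate Topology

namespace Vale.Agent.P106

open Vale.Agent.P117

/-- bound for the three dimensional wave-type operators -/
theorem W_op (hD2 : StD2) (hD3 : StD3) {P : ℝ} (hP : 2 < P) {e : ℝ} (he : max (1 - 3 * (1 / P)) 0 < e) :
    ∃ (M K : ℕ) (C : ℝ), 0 ≤ C ∧
    ∀ (Λ : ℝ), 1 ≤ Λ → ∀ (A : ℝ) (θ : ℝ → ℂ), Bump M A θ → ∀ (m : ℤ) (f : E3 → ℂ),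
    Adm volume f → Equi m f →
    ∫⁻ T in Icc Λ (2 * Λ), ∫⁻ x : E3, ‖cv (fun x : E3 => kw3 Λ θ T (‖x‖ ^ 2)) f x‖ₑ ^ P ≤
      ENNReal.ofReal ((C * A * Λ ^ (1/P + e) * (1 + |(m:ℝ)|) ^ K * nrm (ENNReal.ofReal P) f volume) ^ P) := by
  obtain ⟨M, K, C, hC, h⟩ := UW_bound hD2 hD3 hP he
  refine ⟨M, K, C, hC, ?_⟩
  intro Λ hΛ A θ hθ m f hf hfe
  have hΛ0 : 0 < Λ := by linarith
  set F := prof f with hF
  have hFa : Adm nu F := hfe.adm hf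
  have h1 := h Λ hΛ A θ hθ m F hFa
  rw [hF, hfe.nrm hf.meas, ← hF] at h1
  refine le_trans (le_of_eq ?_) h1
  have hm : Measurable (fun X : W3 => ‖UW Λ θ m F X‖ₑ ^ P) := (measurable_UW hθ Λ m hFa).enorm.pow_const _
  have e1 : ∀ T : ℝ, ∫⁻ x : E3, ‖cv (fun x : E3 => kw3 Λ θ T (‖x‖ ^ 2)) f x‖ₑ ^ P =
      ∫⁻ p, ‖UW Λ θ m F (T, p)‖ₑ ^ P ∂nu := by
    intro T
    rw [← mp_cyl.lintegral_comp (f := fun p => ‖UW Λ θ m F (T, p)‖ₑ ^ P) (hm.comp measurable_prodMk_left)]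
    congr 1
    ext x
    obtain ⟨α, hx, _⟩ := exists_pt x
    have h2 := cv_pt hθ hΛ0 m hFa T (cyl x) α
    rw [← hx, ← hfe.eq_lft] at h2
    rw [h2, enorm_mul]
    have : ‖cexp (I * ((m * α : ℝ) : ℂ))‖ₑ = 1 := by
      rw [← ofReal_norm, mul_comm, Complex.norm_exp_ofReal_mul_I]; simp
    rw [this, one_mul]
  simp_rw [e1]
  have e2 : winT Λ = Icc Λ (2 * Λ) ×ˢ (univ : Set (ℝ × ℝ)) := by ext p; simp [winT]
  unfold nuT
  rw [e2, ← Measure.prod_restrict, Measure.restrict_univ, lintegral_prod _ hm.aemeasurable]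

/-- radial cut-off equal to one on `[1/3, 8/3]` -/
noncomputable def th0 (τ : ℝ) : ℂ :=
  ((Real.smoothTransition (12 * τ - 3) * Real.smoothTransition ((4 - τ) * (3/4)) : ℝ) : ℂ)

theorem contDiff_th0 : ContDiff ℝ ∞ th0 := by
  unfold th0
  exact Complex.ofRealCLM.contDiff.comp ((contDiff_st.comp (by fun_prop)).mul (contDiff_st.comp (by fun_prop)))

theorem th0_one {τ : ℝ} (h1 : 1/3 ≤ τ) (h2 : τ ≤ 8/3) : th0 τ = 1 := by
  unfold th0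
  rw [Real.smoothTransition.one_of_one_le (by linarith), Real.smoothTransition.one_of_one_le (by linarith)]
  simp

theorem th0_supp {τ : ℝ} (h : th0 τ ≠ 0) : τ ∈ Icc (1/4:ℝ) 4 := by
  by_contra hcon
  apply h
  unfold th0
  rw [mem_Icc, not_and_or] at hcon
  push Not at hcon
  rcases hcon with h | h
  · rw [Real.smoothTransition.zero_of_nonpos (show 12 * τ - 3 ≤ 0 by linarith)]; simp
  · rw [Real.smoothTransition.zero_of_nonpos (show (4 - τ) * (3/4) ≤ 0 by linarith)]; simp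

theorem bump_of_compact {θ : ℝ → ℂ} (hs : ContDiff ℝ ∞ θ) (hsupp : ∀ t, θ t ≠ 0 → t ∈ Icc (1/4 : ℝ) 4) (M : ℕ) :
    ∃ A : ℝ, 0 ≤ A ∧ Bump M A θ := by
  have hcs : HasCompactSupport θ := by
    apply HasCompactSupport.of_support_subset_isCompact (isCompact_Icc (a := (1/4:ℝ)) (b := 4))
    exact hsupp
  have hb : ∀ i : ℕ, ∃ C : ℝ, ∀ t, ‖iteratedDeriv i θ t‖ ≤ C := by
    intro i
    have h1 : Continuous (iteratedFDeriv ℝ i θ) := hs.continuous_iteratedFDeriv (by exact_mod_cast le_top)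
    obtain ⟨C, hC⟩ := (hcs.iteratedFDeriv (𝕜 := ℝ) i).exists_bound_of_continuous h1
    refine ⟨C, fun t => ?_⟩
    rw [← norm_iteratedFDeriv_eq_norm_iteratedDeriv]
    exact hC t
  choose C hC using hb
  refine ⟨∑ i ∈ Finset.range (M + 1), |C i|, Finset.sum_nonneg fun _ _ => abs_nonneg _, hs, hsupp, ?_⟩
  intro i hi t
  refine (hC i t).trans ((le_abs_self _).trans ?_)
  exact Finset.single_le_sum (f := fun i => |C i|) (fun _ _ => abs_nonneg _) (Finset.mem_range.2 (by omega))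

/-- radial functions `M(‖ξ‖)` with `M` smooth and supported away from zero -/
theorem contDiff_radial {V : Type*} [NormedAddCommGroup V] [InnerProductSpace ℝ V] {M : ℝ → ℂ}
    (hM : ContDiff ℝ ∞ M) {r : ℝ} (hr : 0 < r) (h0 : ∀ t, t ≤ r → M t = 0) :
    ContDiff ℝ ∞ (fun ξ : V => M ‖ξ‖) := by
  rw [contDiff_iff_contDiffAt]
  intro ξ
  by_cases hξ : ξ = 0
  · have : (fun ξ : V => M ‖ξ‖) =ᶠ[𝓝 ξ] fun _ => 0 := by
      have hb : Metric.ball (0:V) r ∈ 𝓝 ξ := by rw [hξ]; exact Metric.ball_mem_nhds _ hr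
      filter_upwards [hb] with ζ hζ
      apply h0
      have h1 : ‖ζ‖ < r := by simpa using hζ
      exact h1.le
    exact contDiffAt_const.congr_of_eventuallyEq this
  · exact hM.contDiffAt.comp ξ (contDiffAt_norm ℝ hξ)

theorem compact_radial {V : Type*} [NormedAddCommGroup V] [InnerProductSpace ℝ V] [FiniteDimensional ℝ V]
    {M : ℝ → ℂ} {R : ℝ} (h0 : ∀ t, R ≤ t → M t = 0) : HasCompactSupport (fun ξ : V => M ‖ξ‖) := by
  apply HasCompactSupport.of_support_subset_isCompact (isCompact_closedBall (0:V) R)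
  intro ξ hξ
  rw [Metric.mem_closedBall, dist_zero_right]
  by_contra hc
  push Not at hc
  exact hξ (h0 _ hc.le)

/-- radial profile of the dyadic cut-off -/
noncomputable def q0 (r : ℝ) : ℂ := chd (4 * r / 3)

theorem contDiff_q0 : ContDiff ℝ ∞ q0 := contDiff_chd.comp (by fun_prop)

theorem q0_left {r : ℝ} (h : r ≤ 3/8) : q0 r = 0 := chd_zero_left (by linarith)
theorem q0_right {r : ℝ} (h : 3/2 ≤ r) : q0 r = 0 := chd_zero_right (by linarith)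

theorem q0_supp {r : ℝ} (h : q0 r ≠ 0) : 3/8 ≤ r ∧ r ≤ 3/2 := by
  constructor
  · by_contra hc; push Not at hc; exact h (q0_left hc.le)
  · by_contra hc; push Not at hc; exact h (q0_right hc.le)

/-- constant in the leading part -/
noncomputable def c0 : ℂ := (I / 2) ^ (((1/2:ℝ) : ℝ) : ℂ) * ((2:ℝ) ^ (-(1/2:ℝ)) : ℝ)

theorem c0_ne : c0 ≠ 0 := by
  unfold c0
  apply mul_ne_zero
  · rw [Complex.cpow_def_of_ne_zero (by simp)]
    exact Complex.exp_ne_zero _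
  · exact_mod_cast (by positivity : (2:ℝ) ^ (-(1/2:ℝ)) ≠ 0)

/-- radial profile of the second cut-off -/
noncomputable def q1 (r : ℝ) : ℂ := q0 r * (c0⁻¹ * cexp ((3/2 : ℂ) * Real.log r))

theorem contDiff_q1 : ContDiff ℝ ∞ q1 := by
  rw [contDiff_iff_contDiffAt]
  intro r
  by_cases hr : 0 < r
  · have h1 : ContDiffAt ℝ ∞ (fun τ : ℝ => cexp ((3/2 : ℂ) * Real.log τ)) r :=
      (contDiffOn_exp_log _).contDiffAt (isOpen_Ioi.mem_nhds hr)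
    exact contDiff_q0.contDiffAt.mul (contDiffAt_const.mul h1)
  · have : q1 =ᶠ[𝓝 r] fun _ => 0 := by
      filter_upwards [Iio_mem_nhds (show r < 3/8 by linarith)] with s hs
      unfold q1
      rw [q0_left (le_of_lt hs), zero_mul]
    exact contDiffAt_const.congr_of_eventuallyEq this

theorem q1_left {r : ℝ} (h : r ≤ 3/8) : q1 r = 0 := by unfold q1; rw [q0_left h, zero_mul]
theorem q1_right {r : ℝ} (h : 3/2 ≤ r) : q1 r = 0 := by unfold q1; rw [q0_right h, zero_mul]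

theorem lead_eq {s r : ℝ} (hs1 : 1 ≤ s) (hs2 : s ≤ 2) (hr : q0 r ≠ 0) :
    ((2 / s : ℝ) * tb (1/2) th0 (2 * r / s)) * q1 r = ((s ^ (1/2:ℝ) : ℝ) : ℂ) * q0 r := by
  obtain ⟨h1, h2⟩ := q0_supp hr
  have hs0 : 0 < s := by linarith
  have hr0 : 0 < r := by linarith
  have hx : 0 < 2 * r / s := by positivity
  unfold tb pw q1
  have e1 : th0 (2 * r / s)⁻¹ = 1 := by
    apply th0_one
    · rw [inv_div, le_div_iff₀ (by positivity)]; linarith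
    · rw [inv_div, div_le_iff₀ (by positivity)]; linarith
  simp only
  rw [e1, one_mul]
  have e2 : cexp (((1/2:ℝ) : ℂ) - 2) = cexp (((1/2:ℝ) : ℂ) - 2) := rfl
  have e3 : cexp ((((1/2:ℝ) : ℂ) - 2) * Real.log (2 * r / s)) =
      ((2:ℝ) ^ (-(3/2:ℝ)) : ℝ) * ((s ^ (3/2:ℝ) : ℝ) : ℂ) * cexp (-(3/2 : ℂ) * Real.log r) := by
    rw [Real.log_div (by positivity) hs0.ne', Real.log_mul two_ne_zero hr0.ne',
      Real.rpow_def_of_pos (by norm_num : (0:ℝ) < 2), Real.rpow_def_of_pos hs0, Complex.ofReal_exp, Complex.ofReal_exp,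
      ← Complex.exp_add, ← Complex.exp_add]
    congr 1
    push_cast
    ring
  have e4 : cexp (-(3/2 : ℂ) * Real.log r) * cexp ((3/2 : ℂ) * Real.log r) = 1 := by
    rw [← Complex.exp_add, ← Complex.exp_zero]; congr 1; ring
  have e5 : ((2 / s : ℝ) : ℂ) * (((2:ℝ) ^ (-(3/2:ℝ)) : ℝ) * ((s ^ (3/2:ℝ) : ℝ) : ℂ)) =
      ((2:ℝ) ^ (-(1/2:ℝ)) : ℝ) * ((s ^ (1/2:ℝ) : ℝ) : ℂ) := by
    rw [← Complex.ofReal_mul, ← Complex.ofReal_mul, ← Complex.ofReal_mul]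
    congr 1
    have a1 : (2:ℝ) ^ (-(1/2:ℝ)) = 2 * (2:ℝ) ^ (-(3/2:ℝ)) := by
      rw [show -(1/2:ℝ) = 1 + -(3/2) by norm_num, Real.rpow_add (by norm_num), Real.rpow_one]
    have a2 : s ^ (3/2:ℝ) = s * s ^ (1/2:ℝ) := by
      rw [show (3/2:ℝ) = 1 + 1/2 by norm_num, Real.rpow_add hs0, Real.rpow_one]
    rw [a1, a2]
    field_simp
  rw [e3]
  have hc := c0_ne
  have e6 : (I / 2) ^ (((1/2:ℝ) : ℝ) : ℂ) * ((2:ℝ) ^ (-(1/2:ℝ)) : ℝ) * c0⁻¹ = 1 := by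
    have : (I / 2) ^ (((1/2:ℝ) : ℝ) : ℂ) * ((2:ℝ) ^ (-(1/2:ℝ)) : ℝ) = c0 := rfl
    rw [this, mul_inv_cancel₀ hc]
  calc _ = (I / 2) ^ (((1/2:ℝ) : ℝ) : ℂ) * (((2 / s : ℝ) : ℂ) * (((2:ℝ) ^ (-(3/2:ℝ)) : ℝ) * ((s ^ (3/2:ℝ) : ℝ) : ℂ))) *
        (cexp (-(3/2 : ℂ) * Real.log r) * cexp ((3/2 : ℂ) * Real.log r)) * c0⁻¹ * q0 r := by ring
    _ = ((I / 2) ^ (((1/2:ℝ) : ℝ) : ℂ) * ((2:ℝ) ^ (-(1/2:ℝ)) : ℝ) * c0⁻¹) * ((s ^ (1/2:ℝ) : ℝ) : ℂ) * q0 r := by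
        rw [e4, e5]; ring
    _ = _ := by rw [e6]; ring

/-- cut-offs on `E3` -/
noncomputable def X0 (ξ : E3) : ℂ := q0 ‖ξ‖
noncomputable def X1 (ξ : E3) : ℂ := q1 ‖ξ‖

theorem contDiff_X0 : ContDiff ℝ ∞ X0 := contDiff_radial contDiff_q0 (by norm_num : (0:ℝ) < 3/8) (fun t ht => q0_left ht)
theorem contDiff_X1 : ContDiff ℝ ∞ X1 := contDiff_radial contDiff_q1 (by norm_num : (0:ℝ) < 3/8) (fun t ht => q1_left ht)
theorem compact_X0 : HasCompactSupport X0 := compact_radial (fun t ht => q0_right ht)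
theorem compact_X1 : HasCompactSupport X1 := compact_radial (fun t ht => q1_right ht)
theorem X1_supp {ξ : E3} (h : X1 ξ ≠ 0) : 3/8 ≤ ‖ξ‖ := by
  by_contra hc; push Not at hc; exact h (q1_left hc.le)
theorem X0_supp {ξ : E3} (h : X0 ξ ≠ 0) : 3/8 ≤ ‖ξ‖ := by
  by_contra hc; push Not at hc; exact h (q0_left hc.le)

/-- error multiplier -/
noncomputable def Em (Λ : ℝ) (T ρ : ℝ) : ℂ := ∫ υ : ℝ, dT Λ th0 T υ * cexp (2 * Real.pi * I * υ * ρ)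

theorem wave_split {Λ T : ℝ} (hΛ : 0 < Λ) (hT : T ∈ Icc Λ (2 * Λ)) (ξ : E3) :
    wm1 X0 T ξ = (((T / Λ) ^ (-(1/2:ℝ)) : ℝ) : ℂ) * (mw Λ th0 T ‖ξ‖ * X1 ξ - Em Λ T ‖ξ‖ * X1 ξ) := by
  by_cases h : q0 ‖ξ‖ = 0
  · have h1 : X1 ξ = 0 := by unfold X1 q1; rw [h, zero_mul]
    have h0 : X0 ξ = 0 := h
    unfold wm1
    rw [h0, h1]; ring
  · obtain ⟨h1, h2⟩ := q0_supp h
    have hρ : 0 < ‖ξ‖ := by linarith
    obtain ⟨A, hA, hb⟩ := bump_of_compact contDiff_th0 (fun t ht => th0_supp ht) 5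
    have h3 := mw_split hb hΛ hT.1 hρ
    have hT0 : 0 < T := by linarith [hT.1]
    have hs1 : 1 ≤ T / Λ := by rw [le_div_iff₀ hΛ]; linarith [hT.1]
    have hs2 : T / Λ ≤ 2 := by rw [div_le_iff₀ hΛ]; linarith [hT.2]
    have h4 := lead_eq hs1 hs2 h
    have h5 : mw Λ th0 T ‖ξ‖ * X1 ξ - Em Λ T ‖ξ‖ * X1 ξ =
        cexp (2 * Real.pi * I * T * ‖ξ‖) * ((((T / Λ) ^ (1/2:ℝ) : ℝ) : ℂ) * X0 ξ) := by
      rw [h3]
      unfold X1 X0 Em
      rw [← h4]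
      ring
    rw [h5]
    unfold wm1
    have e1 : (((T / Λ) ^ (-(1/2:ℝ)) : ℝ) : ℂ) * (((T / Λ) ^ (1/2:ℝ) : ℝ) : ℂ) = 1 := by
      rw [← Complex.ofReal_mul, ← Real.rpow_add (by positivity)]
      norm_num
    have e2 : cexp (2 * Real.pi * I * ((T * ‖ξ‖ : ℝ) : ℂ)) = cexp (2 * Real.pi * I * T * ‖ξ‖) := by
      congr 1; push_cast; ring
    rw [e2]
    calc _ = ((((T / Λ) ^ (-(1/2:ℝ)) : ℝ) : ℂ) * (((T / Λ) ^ (1/2:ℝ) : ℝ) : ℂ)) * (cexp (2 * Real.pi * I * T * ‖ξ‖) * X0 ξ) := by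
          rw [e1, one_mul]
      _ = _ := by ring

end Vale.Agent.P106
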