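import Vale.Agent.P106.A.Scale

set_option linter.all false

open MeasureTheory Complex Set Filter
open scoped ENNReal NNReal ContDiff FourierTransform SchwartzMap ComplexConjugate Topology

namespace Vale.Agent.P106

open Vale.Agent.P117

/-- profile of the wave kernels -/
noncomputable def Psa (a : ℝ) (θ : ℝ → ℂ) (v : ℝ) : ℂ :=
  ∫ τ : ℝ, θ τ * (I / (2 * τ)) ^ ((a : ℝ) : ℂ) * cexp (Real.pi * I * v / (2 * τ))

section basic
variable {M : ℕ} {A : ℝ} {θ : ℝ → ℂ}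

theorem kd_thT (h : Bump M A θ) {Λ : ℝ} (hΛ : 0 < Λ) (d T q : ℝ) :
    kd d Λ (thT Λ T θ) q = ((Λ ^ ((1 - d) / 2) : ℝ) : ℂ) * Psa (d / 2) θ ((T ^ 2 - q) / Λ) := by
  obtain ⟨A', h'⟩ := thT_bump h Λ T
  rw [kd_scaled h' hΛ]
  unfold Psa
  rw [← integral_const_mul]
  congr 1
  ext τ
  by_cases hτ : τ ∈ Icc (1/4 : ℝ) 4
  · have hτ0 : 0 < τ := by linarith [hτ.1]
    unfold thT
    have e1 : cexp (2 * Real.pi * I * ((Λ * τ : ℝ) : ℂ)) * cexp (-2 * Real.pi * I * ((Λ * τ : ℝ) : ℂ)) = 1 := by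
      rw [← Complex.exp_add, ← Complex.exp_zero]; congr 1; ring
    have e2 : cexp (Real.pi * I * (((T ^ 2 - q) / Λ : ℝ) : ℂ) / (2 * τ)) =
        cexp (Real.pi * I * (T ^ 2 : ℝ) / (2 * ((Λ * τ : ℝ) : ℂ))) *
        cexp (-Real.pi * I * (q : ℂ) / (2 * ((Λ * τ : ℝ) : ℂ))) := by
      rw [← Complex.exp_add]
      congr 1
      have h1 : (Λ : ℂ) ≠ 0 := by exact_mod_cast hΛ.ne'
      have h2 : (τ : ℂ) ≠ 0 := by exact_mod_cast hτ0.ne'
      push_cast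
      field_simp
      ring
    rw [e2]
    have hz : (I / (2 * (τ:ℂ))) ≠ 0 := by
      have : (τ : ℂ) ≠ 0 := by exact_mod_cast hτ0.ne'
      simp [this]
    have e3 : (I / (2 * ((Λ * τ : ℝ) : ℂ))) ^ ((d / 2 : ℝ) : ℂ) =
        ((Λ ^ (-(d/2)) : ℝ) : ℂ) * (I / (2 * τ)) ^ ((d / 2 : ℝ) : ℂ) := by
      have e0 : I / (2 * ((Λ * τ : ℝ) : ℂ)) = ((Λ⁻¹ : ℝ) : ℂ) * (I / (2 * (τ:ℂ))) := by
        have h1 : (Λ : ℂ) ≠ 0 := by exact_mod_cast hΛ.ne'
        have h2 : (τ : ℂ) ≠ 0 := by exact_mod_cast hτ0.ne'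
        push_cast
        field_simp
      rw [e0, Complex.cpow_def_of_ne_zero (mul_ne_zero (by exact_mod_cast (inv_pos.2 hΛ).ne') hz),
        Complex.cpow_def_of_ne_zero hz, Complex.log_ofReal_mul (inv_pos.2 hΛ) hz, Real.log_inv, Real.rpow_def_of_pos hΛ,
        Complex.ofReal_exp, ← Complex.exp_add]
      congr 1
      push_cast
      ring
    rw [e3]
    have e4 : ((Λ ^ ((1 - d)/2) : ℝ) : ℂ) = ((Λ ^ (1/2:ℝ) : ℝ) : ℂ) * ((Λ ^ (-(d/2)) : ℝ) : ℂ) := by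
      rw [← Complex.ofReal_mul]
      congr 1
      rw [← Real.rpow_add hΛ]
      congr 1
      ring
    rw [e4]
    linear_combination (θ τ * ((Λ ^ (1/2:ℝ) : ℝ) : ℂ) * ((Λ ^ (-(d/2)) : ℝ) : ℂ) * (I / (2 * τ)) ^ ((d / 2 : ℝ) : ℂ) *
      cexp (Real.pi * I * (T ^ 2 : ℝ) / (2 * ((Λ * τ : ℝ) : ℂ))) *
        cexp (-Real.pi * I * (q : ℂ) / (2 * ((Λ * τ : ℝ) : ℂ)))) * e1
  · have e0 : thT Λ T θ τ = 0 := h'.eq_zero hτ
    have e5 : θ τ = 0 := h.eq_zero hτ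
    rw [e0, e5]; ring

theorem kw3_eq (h : Bump M A θ) {Λ : ℝ} (hΛ : 0 < Λ) (T q : ℝ) :
    kw3 Λ θ T q = ((Λ ^ (-(1:ℝ)) : ℝ) : ℂ) * Psa (3 / 2) θ ((T ^ 2 - q) / Λ) := by
  rw [← k3_thT h hΛ, kd_three, kd_thT h hΛ]
  norm_num

theorem kw_eq_Psa (h : Bump M A θ) {Λ : ℝ} (hΛ : 0 < Λ) (T q : ℝ) :
    kw Λ θ T q = ((Λ ^ (-(1/2:ℝ)) : ℝ) : ℂ) * Psa 1 θ ((T ^ 2 - q) / Λ) := by
  rw [← k2_thT h hΛ, kd_two, kd_thT h hΛ]
  norm_num

end basic

/-! ## Bumps under inversion -/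

theorem DB.on_compact {E F : Type*} [NormedAddCommGroup E] [NormedSpace ℝ E] [NormedAddCommGroup F]
    [NormedSpace ℝ F] {f : E → F} (hf : ContDiff ℝ ∞ f) {K : Set E} (hK : IsCompact K) (n : ℕ) :
    ∃ C : ℝ, 1 ≤ C ∧ ∀ x ∈ K, DB n C f x := by
  obtain ⟨C, hC, h⟩ := DB.of_param (K := K ×ˢ {(0:ℝ)}) (hK.prod isCompact_singleton)
    (Ψ := fun z : E × ℝ => f z.1) (hf.comp contDiff_fst) n
  exact ⟨C, hC, fun x hx => h x 0 ⟨hx, rfl⟩⟩

/-- smooth version of the inverse -/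
noncomputable def iot (x : ℝ) : ℝ := Real.smoothTransition (16 * x - 1) * x⁻¹

theorem contDiff_iot : ContDiff ℝ ∞ iot := by
  rw [contDiff_iff_contDiffAt]
  intro x
  by_cases hx : 0 < x
  · exact (contDiff_st.contDiffAt.comp x (by fun_prop)).mul (contDiffAt_inv ℝ hx.ne')
  · have : iot =ᶠ[𝓝 x] fun _ => 0 := by
      filter_upwards [Iio_mem_nhds (show x < 1/16 by linarith)] with y hy
      unfold iot
      have hy' : y < 1/16 := hy
      rw [Real.smoothTransition.zero_of_nonpos (by linarith), zero_mul]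
    exact contDiffAt_const.congr_of_eventuallyEq this

theorem iot_eq {x : ℝ} (h : 1/8 ≤ x) : iot x = x⁻¹ := by
  unfold iot
  rw [Real.smoothTransition.one_of_one_le (by linarith), one_mul]

theorem Bump.inv (M : ℕ) : ∃ C : ℝ, 0 ≤ C ∧ ∀ (A : ℝ) (θ : ℝ → ℂ), Bump M A θ →
    Bump M (C * A) (fun x => θ x⁻¹) := by
  obtain ⟨D, hD, hDB⟩ := DB.on_compact contDiff_iot (isCompact_Icc (a := (1/4:ℝ)) (b := 4)) M
  refine ⟨M.factorial * D ^ M, by positivity, ?_⟩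
  intro A θ h
  have hA := h.nonneg
  have hsupp : ∀ t, θ t⁻¹ ≠ 0 → t ∈ Icc (1/4:ℝ) 4 := by
    intro t ht
    have h1 := h.supp _ ht
    have h2 : 0 < t⁻¹ := by linarith [h1.1]
    have h3 : 0 < t := inv_pos.1 h2
    constructor
    · have := h1.2
      rw [inv_le_comm₀ h3 (by norm_num)] at this
      linarith
    · have := h1.1
      rw [le_inv_comm₀ (by norm_num) h3] at this
      linarith
  have hz : ∀ t, t ∉ Icc (1/4:ℝ) 4 → (fun x => θ x⁻¹) =ᶠ[𝓝 t] 0 := by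
    intro t ht
    filter_upwards [isClosed_Icc.isOpen_compl.mem_nhds ht] with s hs
    by_contra h0
    exact hs (hsupp s h0)
  have hc : ContDiff ℝ ∞ (fun x => θ (iot x)) := h.smooth.comp contDiff_iot
  have heq : ∀ t, t ∈ Icc (1/4:ℝ) 4 → (fun x => θ x⁻¹) =ᶠ[𝓝 t] fun x => θ (iot x) := by
    intro t ht
    filter_upwards [Ioi_mem_nhds (show 1/8 < t by linarith [ht.1])] with s hs
    rw [iot_eq (le_of_lt hs)]
  refine ⟨?_, hsupp, ?_⟩
  · rw [contDiff_iff_contDiffAt]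
    intro t
    by_cases ht : t ∈ Icc (1/4:ℝ) 4
    · exact hc.contDiffAt.congr_of_eventuallyEq (heq t ht)
    · exact (contDiffAt_const (c := (0:ℂ))).congr_of_eventuallyEq (hz t ht)
  · intro i hi t
    by_cases ht : t ∈ Icc (1/4:ℝ) 4
    · rw [Filter.EventuallyEq.iteratedDeriv_eq i (heq t ht), ← norm_iteratedFDeriv_eq_norm_iteratedDeriv]
      have h1 := DB.comp h.smooth contDiff_iot (DB.of_bound_real h.bound (iot t)) (hDB t ht) hD
      refine (h1 i hi).trans (le_of_eq ?_)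
      ring
    · rw [Filter.EventuallyEq.iteratedDeriv_eq i (hz t ht)]
      simp
      positivity

/-- inverted bump with a power -/
noncomputable def tb (a : ℝ) (θ : ℝ → ℂ) (x : ℝ) : ℂ := (I / 2) ^ ((a : ℝ) : ℂ) * pw (fun x => θ x⁻¹) ((a : ℂ) - 2) x

theorem tb_bump (a : ℝ) (M : ℕ) : ∃ C : ℝ, 0 ≤ C ∧ ∀ (A : ℝ) (θ : ℝ → ℂ), Bump M A θ →
    Bump M (C * A) (tb a θ) := by
  obtain ⟨C1, hC1, h1⟩ := Bump.inv M
  obtain ⟨C2, hC2, h2⟩ := Bump.pw ((a : ℂ) - 2) M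
  refine ⟨‖(I / 2) ^ ((a : ℝ) : ℂ)‖ * (C2 * C1), by positivity, ?_⟩
  intro A θ h
  have h3 := (h2 _ _ (h1 A θ h)).const_mul ((I / 2) ^ ((a : ℝ) : ℂ))
  rw [mul_assoc, mul_assoc]
  exact h3

theorem cpow_I_div {τ : ℝ} (hτ : 0 < τ) (a : ℝ) : (I / (2 * (τ : ℂ))) ^ ((a : ℝ) : ℂ) =
    (I / 2) ^ ((a : ℝ) : ℂ) * cexp (-(a : ℂ) * Real.log τ) := by
  have hz : (I / 2 : ℂ) ≠ 0 := by simp
  have e0 : I / (2 * (τ : ℂ)) = ((τ⁻¹ : ℝ) : ℂ) * (I / 2) := by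
    have h2 : (τ : ℂ) ≠ 0 := by exact_mod_cast hτ.ne'
    push_cast
    field_simp
  rw [e0, Complex.cpow_def_of_ne_zero (mul_ne_zero (by exact_mod_cast (inv_pos.2 hτ).ne') hz),
    Complex.cpow_def_of_ne_zero hz, Complex.log_ofReal_mul (inv_pos.2 hτ) hz, Real.log_inv, ← Complex.exp_add]
  congr 1
  push_cast
  ring

section
variable {M : ℕ} {A : ℝ} {θ : ℝ → ℂ}

theorem Psa_eq_Th (h : Bump M A θ) (a v : ℝ) : Psa a θ v = Th (tb a θ) (v / 4) := by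
  unfold Psa Th
  have e1 : ∫ τ : ℝ, θ τ * (I / (2 * τ)) ^ ((a : ℝ) : ℂ) * cexp (Real.pi * I * v / (2 * τ)) =
      ∫ τ in Ioi (0:ℝ), θ τ * (I / (2 * τ)) ^ ((a : ℝ) : ℂ) * cexp (Real.pi * I * v / (2 * τ)) := by
    rw [setIntegral_eq_integral_of_forall_compl_eq_zero]
    intro τ hτ
    rw [h.eq_zero (fun h1 => hτ (lt_of_lt_of_le (by norm_num) h1.1))]
    ring
  have e2 : ∫ τ : ℝ, tb a θ τ * cexp (2 * Real.pi * I * τ * (v / 4 : ℝ)) =
      ∫ τ in Ioi (0:ℝ), tb a θ τ * cexp (2 * Real.pi * I * τ * (v / 4 : ℝ)) := by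
    rw [setIntegral_eq_integral_of_forall_compl_eq_zero]
    intro τ hτ
    have : θ τ⁻¹ = 0 := by
      apply h.eq_zero
      intro h1
      have h2 : 0 < τ⁻¹ := lt_of_lt_of_le (by norm_num) h1.1
      exact hτ (inv_pos.1 h2)
    unfold tb pw
    simp only
    rw [this]
    ring
  rw [e1, e2, ← integral_comp_rpow_Ioi (fun τ : ℝ => θ τ * (I / (2 * τ)) ^ ((a : ℝ) : ℂ) *
    cexp (Real.pi * I * v / (2 * τ))) (p := -1) (by norm_num)]
  apply setIntegral_congr_fun measurableSet_Ioi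
  intro x hx
  have hx0 : (0:ℝ) < x := hx
  simp only
  rw [Real.rpow_neg_one, cpow_I_div (inv_pos.2 hx0), Complex.real_smul]
  unfold tb pw
  have e3 : ((|(-1:ℝ)| * x ^ ((-1:ℝ) - 1) : ℝ) : ℂ) = cexp (-2 * Real.log x) := by
    rw [abs_neg, abs_one, one_mul, Real.rpow_def_of_pos hx0, Complex.ofReal_exp]
    congr 1
    push_cast
    ring
  have e4 : cexp (((a:ℂ) - 2) * Real.log x) = cexp (-2 * Real.log x) * cexp (-(a:ℂ) * Real.log x⁻¹) := by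
    rw [← Complex.exp_add, Real.log_inv]
    congr 1
    push_cast
    ring
  have e5 : cexp (Real.pi * I * v / (2 * ((x⁻¹ : ℝ) : ℂ))) = cexp (2 * Real.pi * I * x * ((v / 4 : ℝ) : ℂ)) := by
    congr 1
    have h2 : (x : ℂ) ≠ 0 := by exact_mod_cast hx0.ne'
    push_cast
    field_simp
    ring
  rw [e3, e4, e5]
  ring

theorem Psa_decay (a : ℝ) (M : ℕ) : ∃ C : ℝ, 0 ≤ C ∧ ∀ (A : ℝ) (θ : ℝ → ℂ), Bump M A θ → ∀ v : ℝ,
    ‖Psa a θ v‖ ≤ C * A * (1 + |v|) ^ (-(M:ℝ)) := by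
  obtain ⟨C, hC, h1⟩ := tb_bump a M
  refine ⟨2 ^ M * 8 * C * 4 ^ M, by positivity, ?_⟩
  intro A θ h v
  rw [Psa_eq_Th h]
  have hA := h.nonneg
  refine (norm_Th_le' (h1 A θ h) _).trans ?_
  have h2 : (1 + |v / 4|) ^ (-(M:ℝ)) ≤ 4 ^ M * (1 + |v|) ^ (-(M:ℝ)) := by
    have e : (4:ℝ) ^ M * (1 + |v|) ^ (-(M:ℝ)) = ((1 + |v|) / 4) ^ (-(M:ℝ)) := by
      rw [Real.div_rpow (by positivity) (by norm_num), Real.rpow_neg (by norm_num : (0:ℝ) ≤ 4), Real.rpow_natCast]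
      field_simp
    rw [e]
    apply Real.rpow_le_rpow_of_nonpos (by positivity) _ (by simp)
    rw [abs_div]
    norm_num
    linarith [abs_nonneg v]
  calc 2 ^ M * 8 * (C * A) * (1 + |v / 4|) ^ (-(M:ℝ)) ≤ 2 ^ M * 8 * (C * A) * (4 ^ M * (1 + |v|) ^ (-(M:ℝ))) := by
        gcongr
    _ = _ := by ring

theorem continuous_Psa (h : Bump M A θ) (a : ℝ) : Continuous (Psa a θ) := by
  have : Psa a θ = fun v => Th (tb a θ) (v / 4) := by ext v; exact Psa_eq_Th h a v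
  obtain ⟨C, hC, h1⟩ := tb_bump a M
  rw [this]
  exact (continuous_Th (h1 A θ h)).comp (by fun_prop)

theorem tb_succ (a : ℝ) (θ : ℝ → ℂ) {x : ℝ} (hx : 0 < x) : tb (a + 1) θ x = (I / 2) * x * tb a θ x := by
  unfold tb pw
  have hz : (I / 2 : ℂ) ≠ 0 := by simp
  have e1 : (I / 2 : ℂ) ^ (((a + 1 : ℝ)) : ℂ) = (I / 2) ^ ((a : ℝ) : ℂ) * (I / 2) := by
    push_cast
    rw [Complex.cpow_add _ _ hz, Complex.cpow_one]
  have e3 : cexp (((((a + 1 : ℝ)) : ℂ) - 2) * Real.log x) = x * cexp (((a : ℂ) - 2) * Real.log x) := by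
    have e4 := cexp_log_one hx
    calc cexp (((((a + 1 : ℝ)) : ℂ) - 2) * Real.log x) = cexp (1 * Real.log x) * cexp (((a : ℂ) - 2) * Real.log x) := by
          rw [← Complex.exp_add]; congr 1; push_cast; ring
      _ = _ := by rw [e4]
  rw [e1, e3]
  ring

theorem tb_supp (h : Bump M A θ) {a x : ℝ} (hx : tb a θ x ≠ 0) : x ∈ Icc (1/4:ℝ) 4 := by
  obtain ⟨C, hC, h1⟩ := tb_bump a M
  exact (h1 A θ h).supp x hx

theorem hasDerivAt_Th (h : Bump M A θ) (v : ℝ) :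
    HasDerivAt (Th θ) (Th (fun x => (2 * Real.pi * I * x) * θ x) v) v := by
  have hx : Integrable (fun x : ℝ => x • θ x) := by
    refine (h.integrable.norm.const_mul 4).mono' ?_ ?_
    · exact (continuous_id.smul h.continuous).aestronglyMeasurable
    · filter_upwards with x
      by_cases hx : x ∈ Icc (1/4:ℝ) 4
      · rw [norm_smul, Real.norm_of_nonneg (by linarith [hx.1])]
        have := hx.2
        gcongr
      · rw [h.eq_zero hx]; simp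
  have h1 := Real.hasDerivAt_fourier h.integrable hx (-v)
  have e : Th θ = (𝓕 θ) ∘ (fun v : ℝ => -v) := by ext v; exact Th_eq_fourier θ v
  rw [e]
  have h2 := HasDerivAt.scomp v h1 (hasDerivAt_neg v)
  refine h2.congr_deriv ?_
  rw [Th_eq_fourier, Real.fourier_real_eq, Real.fourier_real_eq, neg_one_smul, ← integral_neg]
  congr 1
  ext x
  simp only [Circle.smul_def, smul_eq_mul]
  ring

theorem hasDerivAt_Psa (h : Bump M A θ) (a v : ℝ) :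
    HasDerivAt (Psa a θ) (Real.pi * Psa (a + 1) θ v) v := by
  obtain ⟨C, hC, h1⟩ := tb_bump a M
  have e : Psa a θ = (Th (tb a θ)) ∘ (fun v : ℝ => v / 4) := by ext v; exact Psa_eq_Th h a v
  have h2 := HasDerivAt.scomp v (hasDerivAt_Th (h1 A θ h) (v / 4)) ((hasDerivAt_id v).div_const 4)
  rw [e]
  refine h2.congr_deriv ?_
  rw [Psa_eq_Th h, Complex.real_smul]
  unfold Th
  rw [← integral_const_mul, ← integral_const_mul]
  congr 1
  ext x
  by_cases hx : 0 < x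
  · rw [tb_succ a θ hx]
    push_cast
    ring
  · have e1 : tb (a + 1) θ x = 0 := by
      by_contra h0
      exact hx (lt_of_lt_of_le (by norm_num) (tb_supp h h0).1)
    have e2 : tb a θ x = 0 := by
      by_contra h0
      exact hx (lt_of_lt_of_le (by norm_num) (tb_supp h h0).1)
    simp only
    rw [e1, e2]
    ring

end

end Vale.Agent.P106
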