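import Vale.Agent.P117.Bdl.B2
import Vale.Agent.P106.Defs

set_option linter.all false

open MeasureTheory Complex Set
open scoped ENNReal NNReal ContDiff FourierTransform SchwartzMap ComplexConjugate Topology

namespace Vale.Agent.P106

open Vale.Agent.P117

/-- time amplitude producing the wave kernel -/
noncomputable def thT (Λ T : ℝ) (θ : ℝ → ℂ) (τ : ℝ) : ℂ :=
  θ τ * ((Λ ^ (1/2:ℝ) : ℝ) * cexp (2 * Real.pi * I * ((Λ * τ : ℝ) : ℂ)) *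
    cexp (Real.pi * I * (T ^ 2 : ℝ) / (2 * ((Λ * τ : ℝ) : ℂ))))

section basic
variable {M : ℕ} {A : ℝ} {θ : ℝ → ℂ}

theorem thT_smooth (h : Bump M A θ) (Λ T : ℝ) : ContDiff ℝ ∞ (thT Λ T θ) := by
  rw [contDiff_iff_contDiffAt]
  intro τ
  by_cases hτ : τ ∈ Ioi (0:ℝ)
  · have hτ0 : (0:ℝ) < τ := hτ
    have h1 : ContDiffAt ℝ ∞ θ τ := h.smooth.contDiffAt
    have h2 : ContDiffAt ℝ ∞ (fun τ : ℝ => ((τ⁻¹ : ℝ) : ℂ)) τ :=
      (Complex.ofRealCLM.contDiff.contDiffAt).comp τ (contDiffAt_inv ℝ hτ0.ne')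
    have h3 : ContDiffAt ℝ ∞ (fun τ : ℝ => θ τ * ((Λ ^ (1/2:ℝ) : ℝ) * cexp (2 * Real.pi * I * ((Λ * τ : ℝ) : ℂ)) *
      cexp ((Real.pi * I * (T ^ 2 : ℝ) / (2 * Λ)) * ((τ⁻¹ : ℝ) : ℂ)))) τ := by
      have h4 : ContDiffAt ℝ ∞ (fun τ : ℝ => ((Λ * τ : ℝ) : ℂ)) τ :=
        (Complex.ofRealCLM.contDiff.contDiffAt).comp τ (contDiffAt_const.mul contDiffAt_id)
      fun_prop
    refine h3.congr_of_eventuallyEq ?_
    filter_upwards with τ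
    unfold thT
    congr 3
    push_cast
    ring
  · have h0 : thT Λ T θ =ᶠ[𝓝 τ] 0 := by
      have hlt : τ < 1/4 := by
        have : τ ≤ 0 := not_lt.1 hτ
        linarith
      filter_upwards [Iio_mem_nhds hlt] with s hs
      have : θ s = 0 := by
        by_contra h5
        have := (h.supp s h5).1
        exact absurd hs (not_lt.2 this)
      simp [thT, this]
    exact (contDiffAt_const (c := (0:ℂ))).congr_of_eventuallyEq h0

theorem thT_bump (h : Bump M A θ) (Λ T : ℝ) : ∃ A' : ℝ, Bump M A' (thT Λ T θ) := by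
  have hs := thT_smooth h Λ T
  have hsupp : ∀ t, thT Λ T θ t ≠ 0 → t ∈ Icc (1/4 : ℝ) 4 := fun t ht => h.supp t (left_ne_zero_of_mul ht)
  have hcs : HasCompactSupport (thT Λ T θ) := by
    apply HasCompactSupport.of_support_subset_isCompact (isCompact_Icc (a := (1/4:ℝ)) (b := 4))
    exact hsupp
  have hb : ∀ i : ℕ, ∃ C : ℝ, ∀ t, ‖iteratedDeriv i (thT Λ T θ) t‖ ≤ C := by
    intro i
    have h1 : Continuous (iteratedFDeriv ℝ i (thT Λ T θ)) := hs.continuous_iteratedFDeriv (by exact_mod_cast le_top)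
    obtain ⟨C, hC⟩ := (hcs.iteratedFDeriv (𝕜 := ℝ) i).exists_bound_of_continuous h1
    refine ⟨C, fun t => ?_⟩
    rw [← norm_iteratedFDeriv_eq_norm_iteratedDeriv]
    exact hC t
  choose C hC using hb
  refine ⟨∑ i ∈ Finset.range (M + 1), |C i|, hs, hsupp, ?_⟩
  intro i hi t
  refine (hC i t).trans ((le_abs_self _).trans ?_)
  exact Finset.single_le_sum (f := fun i => |C i|) (fun _ _ => abs_nonneg _) (Finset.mem_range.2 (by omega))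

theorem tht_thT (Λ T η : ℝ) (θ : ℝ → ℂ) : tht (thT Λ T θ) η = thT Λ T (tht θ η) := by
  ext τ
  unfold tht thT
  ring

theorem k2_thT (h : Bump M A θ) {Λ : ℝ} (hΛ : 0 < Λ) (T q : ℝ) :
    k2 Λ (thT Λ T θ) q = kw Λ θ T q := by
  obtain ⟨A', h'⟩ := thT_bump h Λ T
  rw [k2_eq_gp h' hΛ]
  unfold kw
  rw [← integral_const_mul, ← setIntegral_eq_integral_of_forall_compl_eq_zero (s := Ioi (0:ℝ))]
  · apply setIntegral_congr_fun measurableSet_Ioi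
    intro τ hτ
    have hτ0 : (0:ℝ) < τ := hτ
    simp only
    unfold thT gp
    have e1 : cexp (2 * Real.pi * I * ((Λ * τ : ℝ) : ℂ)) * cexp (-2 * Real.pi * I * ((Λ * τ : ℝ) : ℂ)) = 1 := by
      rw [← Complex.exp_add, ← Complex.exp_zero]; congr 1; ring
    have e2 : cexp (Real.pi * I * (T ^ 2 - q) / (2 * Λ * τ)) =
        cexp (Real.pi * I * (T ^ 2 : ℝ) / (2 * ((Λ * τ : ℝ) : ℂ))) *
        cexp (-Real.pi * I * (q : ℂ) / (2 * ((Λ * τ : ℝ) : ℂ))) := by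
      rw [← Complex.exp_add]
      congr 1
      have h1 : (Λ : ℂ) ≠ 0 := by exact_mod_cast hΛ.ne'
      have h2 : (τ : ℂ) ≠ 0 := by exact_mod_cast hτ0.ne'
      push_cast
      field_simp
      ring
    rw [e2]
    have e3 : I / (2 * ((Λ * τ : ℝ) : ℂ)) = (Λ : ℂ)⁻¹ * (I / (2 * τ)) := by
      have h1 : (Λ : ℂ) ≠ 0 := by exact_mod_cast hΛ.ne'
      have h2 : (τ : ℂ) ≠ 0 := by exact_mod_cast hτ0.ne'
      push_cast
      field_simp
    rw [e3]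
    have e4 : ((Λ ^ (-(1/2:ℝ)) : ℝ) : ℂ) = ((Λ ^ (1/2:ℝ) : ℝ) : ℂ) * (Λ : ℂ)⁻¹ := by
      rw [← Complex.ofReal_inv, ← Complex.ofReal_mul]
      congr 1
      rw [← Real.rpow_neg_one, ← Real.rpow_add hΛ]
      norm_num
    rw [e4]
    linear_combination (θ τ * ((Λ ^ (1/2:ℝ) : ℝ) : ℂ) * (Λ : ℂ)⁻¹ * (I / (2 * τ)) *
      cexp (Real.pi * I * (T ^ 2 : ℝ) / (2 * ((Λ * τ : ℝ) : ℂ))) *
        cexp (-Real.pi * I * (q : ℂ) / (2 * ((Λ * τ : ℝ) : ℂ)))) * e1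
  · intro τ hτ
    have : thT Λ T θ τ = 0 := h'.eq_zero (fun h3 => hτ (by have := h3.1; exact lt_of_lt_of_le (by norm_num) this))
    rw [this]; ring

end basic


/-- three dimensional wave kernel (frequency about one, time about `Λ`) as a function of `|x|²` -/
noncomputable def kw3 (Λ : ℝ) (θ : ℝ → ℂ) (T q : ℝ) : ℂ :=
  (Λ ^ (-(1:ℝ)) : ℝ) * ∫ τ : ℝ, θ τ * (I / (2 * τ)) ^ ((3 / 2 : ℝ) : ℂ) *
    cexp (Real.pi * I * (T ^ 2 - q : ℝ) / (2 * Λ * τ))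

section basic2
variable {M : ℕ} {A : ℝ} {θ : ℝ → ℂ}

theorem k3_thT (h : Bump M A θ) {Λ : ℝ} (hΛ : 0 < Λ) (T q : ℝ) :
    k3 Λ (thT Λ T θ) q = kw3 Λ θ T q := by
  obtain ⟨A', h'⟩ := thT_bump h Λ T
  rw [k3_eq_Wt h' hΛ]
  unfold kw3
  rw [← integral_const_mul]
  congr 1
  ext τ
  by_cases hτ : τ ∈ Icc (1/4 : ℝ) 4
  · have hτ0 : 0 < τ := by linarith [hτ.1]
    unfold Wt thT gp
    have e1 : cexp (2 * Real.pi * I * ((Λ * τ : ℝ) : ℂ)) * cexp (-2 * Real.pi * I * ((Λ * τ : ℝ) : ℂ)) = 1 := by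
      rw [← Complex.exp_add, ← Complex.exp_zero]; congr 1; ring
    have e2 : cexp (Real.pi * I * (T ^ 2 - q : ℝ) / (2 * Λ * τ)) =
        cexp (Real.pi * I * (T ^ 2 : ℝ) / (2 * ((Λ * τ : ℝ) : ℂ))) *
        cexp (-Real.pi * I * (q : ℂ) / (2 * ((Λ * τ : ℝ) : ℂ))) := by
      rw [← Complex.exp_add]
      congr 1
      have h1 : (Λ : ℂ) ≠ 0 := by exact_mod_cast hΛ.ne'
      have h2 : (τ : ℂ) ≠ 0 := by exact_mod_cast hτ0.ne'
      push_cast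
      field_simp
      ring
    rw [e2]
    have hz : (I / (2 * (τ:ℂ))) ≠ 0 := by
      have : (τ : ℂ) ≠ 0 := by exact_mod_cast hτ0.ne'
      simp [this]
    have e3 : (I / (2 * ((Λ * τ : ℝ) : ℂ))) ^ ((3 / 2 : ℝ) : ℂ) =
        ((Λ ^ (-(3/2:ℝ)) : ℝ) : ℂ) * (I / (2 * τ)) ^ ((3 / 2 : ℝ) : ℂ) := by
      have e0 : I / (2 * ((Λ * τ : ℝ) : ℂ)) = ((Λ⁻¹ : ℝ) : ℂ) * (I / (2 * (τ:ℂ))) := by
        have h1 : (Λ : ℂ) ≠ 0 := by exact_mod_cast hΛ.ne'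
        have h2 : (τ : ℂ) ≠ 0 := by exact_mod_cast hτ0.ne'
        push_cast
        field_simp
      rw [e0, Complex.cpow_def_of_ne_zero (mul_ne_zero (by exact_mod_cast (inv_pos.2 hΛ).ne') hz),
        Complex.cpow_def_of_ne_zero hz, Complex.log_ofReal_mul (inv_pos.2 hΛ) hz, Real.log_inv, Real.rpow_def_of_pos hΛ,
        Complex.ofReal_exp, ← Complex.exp_add]
      congr 1
      push_cast
      ring
    rw [e3]
    have e4 : ((Λ ^ (-(1:ℝ)) : ℝ) : ℂ) = ((Λ ^ (1/2:ℝ) : ℝ) : ℂ) * ((Λ ^ (-(3/2:ℝ)) : ℝ) : ℂ) := by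
      rw [← Complex.ofReal_mul]
      congr 1
      rw [← Real.rpow_add hΛ]
      norm_num
    rw [e4]
    linear_combination (θ τ * ((Λ ^ (1/2:ℝ) : ℝ) : ℂ) * ((Λ ^ (-(3/2:ℝ)) : ℝ) : ℂ) * (I / (2 * τ)) ^ ((3 / 2 : ℝ) : ℂ) *
      cexp (Real.pi * I * (T ^ 2 : ℝ) / (2 * ((Λ * τ : ℝ) : ℂ))) *
        cexp (-Real.pi * I * (q : ℂ) / (2 * ((Λ * τ : ℝ) : ℂ)))) * e1
  · have e0 : thT Λ T θ τ = 0 := h'.eq_zero hτ
    have e5 : θ τ = 0 := h.eq_zero hτ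
    unfold Wt
    rw [e0, e5]; ring

end basic2

section bounds
variable {M : ℕ} {A : ℝ} {θ : ℝ → ℂ}

theorem kw_eq (h : Bump M A θ) (Λ T q : ℝ) : kw Λ θ T q =
    (Λ ^ (-(1/2:ℝ)) : ℝ) * ∫ τ : ℝ, θ τ * (I / (2 * τ)) * cexp (Real.pi * I * (T ^ 2 - q) / (2 * Λ * τ)) := by
  unfold kw
  congr 1
  apply setIntegral_eq_integral_of_forall_compl_eq_zero
  intro τ hτ
  have : θ τ = 0 := h.eq_zero (fun h3 => hτ (by have := h3.1; exact lt_of_lt_of_le (by norm_num) this))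
  rw [this]; ring

theorem norm_wphase (T q Λ τ : ℝ) : ‖cexp (Real.pi * I * (T ^ 2 - q : ℝ) / (2 * Λ * τ))‖ = 1 := by
  have : (Real.pi * I * (T ^ 2 - q : ℝ) / (2 * Λ * τ) : ℂ) =
      ((Real.pi * (T ^ 2 - q) / (2 * Λ * τ) : ℝ) : ℂ) * I := by push_cast; ring
  rw [this, Complex.norm_exp_ofReal_mul_I]

theorem norm_I_div {τ : ℝ} (hτ : 1/4 ≤ τ) : ‖I / (2 * (τ:ℂ))‖ ≤ 2 := by
  have hτ0 : 0 < τ := by linarith
  rw [norm_div, norm_I, norm_mul, Complex.norm_two, Complex.norm_real, Real.norm_of_nonneg hτ0.le,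
    div_le_iff₀ (by positivity)]
  linarith

theorem norm_kw_le (h : Bump M A θ) {Λ : ℝ} (hΛ : 0 < Λ) (T q : ℝ) :
    ‖kw Λ θ T q‖ ≤ 8 * A * Λ ^ (-(1/2:ℝ)) := by
  rw [kw_eq h, norm_mul, Complex.norm_real, Real.norm_of_nonneg (by positivity)]
  have h1 := h.integral_norm_le 0 (Nat.zero_le _)
  simp only [iteratedDeriv_zero] at h1
  have h2 : ‖∫ τ : ℝ, θ τ * (I / (2 * τ)) * cexp (Real.pi * I * (T ^ 2 - q) / (2 * Λ * τ))‖ ≤
      ∫ τ : ℝ, 2 * ‖θ τ‖ := by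
    apply norm_integral_le_of_norm_le (h.integrable.norm.const_mul 2)
    filter_upwards with τ
    have h3 := norm_wphase T q Λ τ
    push_cast at h3
    rw [norm_mul, norm_mul, h3, mul_one]
    by_cases hτ : τ ∈ Icc (1/4 : ℝ) 4
    · have := norm_I_div hτ.1
      have h4 : 0 ≤ ‖θ τ‖ := norm_nonneg _
      nlinarith
    · rw [h.eq_zero hτ]; simp
  rw [integral_const_mul] at h2
  have h5 : 0 < Λ ^ (-(1/2:ℝ)) := by positivity
  nlinarith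

theorem norm_cpow32 {τ : ℝ} (hτ : 1/4 ≤ τ) : ‖(I / (2 * (τ:ℂ))) ^ ((3 / 2 : ℝ) : ℂ)‖ ≤ 4 := by
  rw [Complex.norm_cpow_real]
  calc ‖I / (2 * (τ:ℂ))‖ ^ (3/2:ℝ) ≤ 2 ^ (3/2:ℝ) := by
        apply Real.rpow_le_rpow (norm_nonneg _) (norm_I_div hτ) (by norm_num)
    _ ≤ 2 ^ (2:ℝ) := Real.rpow_le_rpow_of_exponent_le (by norm_num) (by norm_num)
    _ = 4 := by norm_num

theorem norm_kw3_le (h : Bump M A θ) {Λ : ℝ} (hΛ : 0 < Λ) (T q : ℝ) :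
    ‖kw3 Λ θ T q‖ ≤ 16 * A * Λ ^ (-(1:ℝ)) := by
  unfold kw3
  rw [norm_mul, Complex.norm_real, Real.norm_of_nonneg (by positivity)]
  have h1 := h.integral_norm_le 0 (Nat.zero_le _)
  simp only [iteratedDeriv_zero] at h1
  have h2 : ‖∫ τ : ℝ, θ τ * (I / (2 * τ)) ^ ((3 / 2 : ℝ) : ℂ) *
    cexp (Real.pi * I * (T ^ 2 - q : ℝ) / (2 * Λ * τ))‖ ≤
      ∫ τ : ℝ, 4 * ‖θ τ‖ := by
    apply norm_integral_le_of_norm_le (h.integrable.norm.const_mul 4)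
    filter_upwards with τ
    have h3 := norm_wphase T q Λ τ
    rw [norm_mul, norm_mul, h3, mul_one]
    by_cases hτ : τ ∈ Icc (1/4 : ℝ) 4
    · have := norm_cpow32 hτ.1
      have h4 : 0 ≤ ‖θ τ‖ := norm_nonneg _
      nlinarith
    · rw [h.eq_zero hτ]; simp
  rw [integral_const_mul] at h2
  have h5 : 0 < Λ ^ (-(1:ℝ)) := by positivity
  nlinarith

/-- joint measurability of the modified planar kernel -/
theorem measurable_kw_tht (h : Bump M A θ) (Λ : ℝ) :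
    Measurable (fun z : ℝ × (ℝ × ℝ) => kw Λ (tht θ z.1) z.2.1 z.2.2) := by
  obtain ⟨C, hC, hCt⟩ := Bump.tht M
  have h1 : (fun z : ℝ × (ℝ × ℝ) => kw Λ (tht θ z.1) z.2.1 z.2.2) = fun z : ℝ × (ℝ × ℝ) =>
      (Λ ^ (-(1/2:ℝ)) : ℝ) * ∫ τ : ℝ, tht θ z.1 τ * (I / (2 * τ)) *
        cexp (Real.pi * I * (z.2.1 ^ 2 - z.2.2) / (2 * Λ * τ)) := by
    ext z
    exact kw_eq (hCt A θ h z.1) Λ _ _
  rw [h1]
  apply Measurable.const_mul
  have hθm : Measurable θ := h.continuous.measurable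
  have ht : Measurable (fun p : (ℝ × (ℝ × ℝ)) × ℝ => tht θ p.1.1 p.2) := by
    unfold tht ea
    fun_prop
  apply StronglyMeasurable.measurable
  apply StronglyMeasurable.integral_prod_right' (f := fun p : (ℝ × (ℝ × ℝ)) × ℝ => tht θ p.1.1 p.2 *
      (I / (2 * p.2)) * cexp (Real.pi * I * (p.1.2.1 ^ 2 - p.1.2.2) / (2 * Λ * p.2)))
  apply Measurable.stronglyMeasurable
  fun_prop

theorem measurable_kw3 (h : Bump M A θ) (Λ : ℝ) :
    Measurable (fun z : ℝ × ℝ => kw3 Λ θ z.1 z.2) := by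
  unfold kw3
  apply Measurable.const_mul
  have hθm : Measurable θ := h.continuous.measurable
  apply StronglyMeasurable.measurable
  apply StronglyMeasurable.integral_prod_right' (f := fun p : (ℝ × ℝ) × ℝ => θ p.2 *
      (I / (2 * p.2)) ^ ((3 / 2 : ℝ) : ℂ) * cexp (Real.pi * I * (p.1.1 ^ 2 - p.1.2 : ℝ) / (2 * Λ * p.2)))
  apply Measurable.stronglyMeasurable
  fun_prop

/-- representation of the angular average of the three dimensional kernel -/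
theorem angK_w (h : Bump M A θ) {Λ : ℝ} (hΛ : 0 < Λ) (T : ℝ) (m : ℤ) {R S : ℝ} (hR : 0 < R) (hS : 0 < S)
    {c : ℝ → ℂ} (hc : Continuous c) (hci : Integrable c)
    (hcr : ∀ τ : ℝ, |τ| ≤ 3 → bI (wm m) (Real.pi * R * S / Λ * Real.exp τ) =
      ∫ η : ℝ, cexp (((2 * Real.pi * (η * τ) : ℝ) : ℂ) * I) * c η)
    {r s : ℝ} (hr : r ∈ Icc R (2 * R)) (hs : s ∈ Icc S (2 * S)) (z w : ℝ) :
    angK (kw3 Λ θ T) m r s z w = (I / (2 * Λ)) ^ (1 / 2 : ℂ) *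
      ((∫ η : ℝ, c η * cexp (2 * Real.pi * I * η * ((Real.log (r / R) + Real.log (s / S) : ℝ) : ℂ)) *
        kw Λ (tht θ η) T ((r - s) ^ 2 + (z - w) ^ 2)) +
      ∫ η : ℝ, crefl m c η * cexp (2 * Real.pi * I * η * ((Real.log (r / R) + Real.log (s / S) : ℝ) : ℂ)) *
        kw Λ (tht θ η) T ((r + s) ^ 2 + (z - w) ^ 2)) := by
  obtain ⟨A', h'⟩ := thT_bump h Λ T
  obtain ⟨C, hC, hCt⟩ := Bump.tht M
  have h1 := angK_rep h' hΛ m hR hS hc hci hcr hr hs z w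
  have h2 : k3 Λ (thT Λ T θ) = kw3 Λ θ T := by
    ext q; exact k3_thT h hΛ T q
  have h3 : ∀ η q, k2 Λ (tht (thT Λ T θ) η) q = kw Λ (tht θ η) T q := by
    intro η q
    rw [tht_thT, k2_thT (hCt A θ h η) hΛ]
  rw [h2] at h1
  simp_rw [h3] at h1
  exact h1

end bounds

end Vale.Agent.P106
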