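import Vale.Agent.P106.A.Sum

set_option linter.all false

open MeasureTheory Complex Set Filter
open scoped ENNReal NNReal ContDiff FourierTransform SchwartzMap ComplexConjugate Topology

namespace Vale.Agent.P106

open Vale.Agent.P117

theorem PWave.mono {M M' : ℕ} {Λ R S N : ℝ} {p q : ℝ≥0∞} (h : PWave M Λ R S N p q)
    (hM : M ≤ M') : PWave M' Λ R S N p q := by
  intro A θ hθ
  exact h A θ (hθ.mono hM le_rfl)

theorem toReal_32 : (3/2 : ℝ≥0∞).toReal = 3/2 := by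
  rw [ENNReal.toReal_div]; norm_num

theorem one_le_32 : (1 : ℝ≥0∞) ≤ 3/2 := by
  rw [ENNReal.le_div_iff_mul_le (Or.inl (by norm_num)) (Or.inl (by norm_num))]
  norm_num

theorem ne_top_32 : (3/2 : ℝ≥0∞) ≠ ⊤ := ENNReal.div_ne_top (by norm_num) (by norm_num)

theorem blockW_ends (hD2 : StD2) (hD3 : StD3) {ε : ℝ} (hε : 0 < ε) :
    ∃ (M : ℕ) (C : ℝ), 0 ≤ C ∧ ∀ (Λ R S : ℝ), 1 ≤ Λ → 0 < R → 0 < S →
    ∀ (A : ℝ) (θ : ℝ → ℂ), Bump M A θ → ∀ (m : ℤ) (F : ℝ × ℝ → ℂ) (G : W3 → ℂ), Adm nu F → Adm nuT G →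
    (∀ y, F y ≠ 0 → y.1 ∈ Icc S (2 * S)) → (∀ x, G x ≠ 0 → x.1 ∈ Icc Λ (2 * Λ) ∧ x.2.1 ∈ Icc R (2 * R)) →
    ‖FormW Λ θ m F G‖ ≤ C * A * (1 + |(m:ℝ)|) ^ (M + 3) * (Λ ^ (1/2 + ε) * min 1 (R / S) ^ (1/2 : ℝ)) *
      nrm 2 F nu * nrm 2 G nuT ∧
    ‖FormW Λ θ m F G‖ ≤ C * A * (1 + |(m:ℝ)|) ^ (M + 3) * (Λ ^ (1/3 + ε) * min 1 (S / R) ^ (1/6 : ℝ)) *
      nrm 3 F nu * nrm (3/2) G nuT := by
  obtain ⟨M2, C2, hC2, h2⟩ := hD2 ε hε
  obtain ⟨M3, C3, hC3, h3⟩ := hD3 ε hε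
  set M := max M2 M3 with hM
  obtain ⟨Cb, hCb, hb⟩ := blockW M
  refine ⟨M, 2 * Cb * (C2 + C3), by positivity, ?_⟩
  intro Λ R S hΛ hR hS A θ hθ m F G hF hG hFs hGs
  have hΛ0 : 0 < Λ := by linarith
  have hA := hθ.nonneg
  have g1 : 0 < min 1 (R / S) := lt_min one_pos (by positivity)
  have g2 : 0 < min 1 (S / R) := lt_min one_pos (by positivity)
  constructor
  · have h := hb Λ R S _ hΛ0 hR hS (by positivity) 2 2 (by norm_num) (by norm_num) (by norm_num)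
      (by norm_num) ((h2 Λ R S hΛ hR hS).mono (le_max_left M2 M3)) A θ hθ m F G hF hG hFs hGs
    have n1 : 0 ≤ nrm 2 F nu := nrm_nonneg
    have n2 : 0 ≤ nrm 2 G nuT := nrm_nonneg
    have e1 : (R * S) ^ (-(1/2:ℝ)) * (2 * S) ^ (1 - 1 / (2:ℝ≥0∞).toReal) * (2 * R) ^ (1 - 1 / (2:ℝ≥0∞).toReal) = 2 := by
      rw [ENNReal.toReal_ofNat, show (1:ℝ) - 1 / 2 = 1/2 by norm_num, Real.mul_rpow hR.le hS.le,
        Real.mul_rpow (by norm_num) hS.le, Real.mul_rpow (by norm_num) hR.le]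
      have a1 : (2:ℝ) ^ (1/2:ℝ) * 2 ^ (1/2:ℝ) = 2 := by
        rw [← Real.rpow_add (by norm_num)]; norm_num
      have a2 : S ^ (-(1/2):ℝ) * S ^ (1/2:ℝ) = 1 := by
        rw [← Real.rpow_add hS]; norm_num
      have a3 : R ^ (-(1/2):ℝ) * R ^ (1/2:ℝ) = 1 := by
        rw [← Real.rpow_add hR]; norm_num
      calc _ = ((2:ℝ) ^ (1/2:ℝ) * 2 ^ (1/2:ℝ)) * (S ^ (-(1/2):ℝ) * S ^ (1/2:ℝ)) *
              (R ^ (-(1/2):ℝ) * R ^ (1/2:ℝ)) := by ring
        _ = _ := by rw [a1, a2, a3]; ring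
    rw [e1] at h
    refine h.trans ?_
    calc _ = 2 * Cb * C2 * A * (1 + |(m:ℝ)|) ^ (M + 3) * (Λ ^ (1/2 + ε) * min 1 (R / S) ^ (1/2 : ℝ)) *
          nrm 2 F nu * nrm 2 G nuT := by ring
      _ ≤ _ := by gcongr; linarith
  · have h := hb Λ R S _ hΛ0 hR hS (by positivity) 3 (3/2) (by norm_num) (by norm_num) one_le_32
      ne_top_32 ((h3 Λ R S hΛ hR hS).mono (le_max_right M2 M3)) A θ hθ m F G hF hG hFs hGs
    have n1 : 0 ≤ nrm 3 F nu := nrm_nonneg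
    have n2 : 0 ≤ nrm (3/2) G nuT := nrm_nonneg
    have e1 : (R * S) ^ (-(1/2:ℝ)) * (2 * S) ^ (1 - 1 / (3:ℝ≥0∞).toReal) * (2 * R) ^ (1 - 1 / (3/2:ℝ≥0∞).toReal) =
        2 * (S / R) ^ (1/6 : ℝ) := by
      rw [toReal_32, ENNReal.toReal_ofNat, show (1:ℝ) - 1 / 3 = 2/3 by norm_num,
        show (1:ℝ) - 1 / (3/2) = 1/3 by norm_num, Real.mul_rpow hR.le hS.le, Real.mul_rpow (by norm_num) hS.le,
        Real.mul_rpow (by norm_num) hR.le, Real.div_rpow hS.le hR.le]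
      have a1 : (2:ℝ) ^ (2/3:ℝ) * 2 ^ (1/3:ℝ) = 2 := by
        rw [← Real.rpow_add (by norm_num)]; norm_num
      have a2 : S ^ (-(1/2):ℝ) * S ^ (2/3:ℝ) = S ^ (1/6:ℝ) := by
        rw [← Real.rpow_add hS]; norm_num
      have a3 : R ^ (-(1/2):ℝ) * R ^ (1/3:ℝ) = (R ^ (1/6:ℝ))⁻¹ := by
        rw [← Real.rpow_add hR, ← Real.rpow_neg hR.le]; norm_num
      calc _ = ((2:ℝ) ^ (2/3:ℝ) * 2 ^ (1/3:ℝ)) * (S ^ (-(1/2):ℝ) * S ^ (2/3:ℝ)) *
            (R ^ (-(1/2):ℝ) * R ^ (1/3:ℝ)) := by ring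
        _ = _ := by rw [a1, a2, a3]; ring
    rw [e1] at h
    have e2 : min 1 (R / S) ^ (1/6:ℝ) * (S / R) ^ (1/6:ℝ) = min 1 (S / R) ^ (1/6:ℝ) := by
      rw [← Real.mul_rpow g1.le (by positivity)]
      congr 1
      rw [min_mul_of_nonneg _ _ (by positivity), one_mul, div_mul_div_cancel₀ hS.ne', div_self hR.ne', min_comm]
    refine h.trans ?_
    calc _ = 2 * Cb * C3 * A * (1 + |(m:ℝ)|) ^ (M + 3) * (Λ ^ (1/3 + ε) *
          (min 1 (R / S) ^ (1/6:ℝ) * (S / R) ^ (1/6:ℝ))) * nrm 3 F nu * nrm (3/2) G nuT := by ring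
      _ ≤ _ := by rw [e2]; gcongr; linarith

theorem interpW {X Λ ε a b t : ℝ} (hX : 0 ≤ X) (hΛ : 0 < Λ) (ha : 0 < a) (ha1 : a ≤ 1) (hb : 0 < b) (hb1 : b ≤ 1)
    (ht0 : 0 < t) (ht1 : t < 1) :
    (X * (Λ ^ (1/2 + ε) * a ^ (1/2:ℝ))) ^ (1 - t) * (X * (Λ ^ (1/3 + ε) * b ^ (1/6:ℝ))) ^ t ≤
      X * (Λ ^ ((1 - t) / 2 + t / 3 + ε) * (a * b) ^ (min ((1 - t) / 2) (t / 6))) := by
  rw [Real.mul_rpow hX (by positivity), Real.mul_rpow hX (by positivity), Real.mul_rpow (by positivity) (by positivity),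
    Real.mul_rpow (by positivity) (by positivity), ← Real.rpow_mul hΛ.le, ← Real.rpow_mul hΛ.le,
    ← Real.rpow_mul ha.le, ← Real.rpow_mul hb.le]
  have e1 : X ^ (1 - t) * X ^ t = X := by
    rw [← Real.rpow_add' hX (by norm_num)]
    norm_num
  have e2 : Λ ^ ((1/2 + ε) * (1 - t)) * Λ ^ ((1/3 + ε) * t) = Λ ^ ((1 - t) / 2 + t / 3 + ε) := by
    rw [← Real.rpow_add hΛ]
    congr 1; ring
  have e3 : a ^ (1/2 * (1 - t)) ≤ a ^ (min ((1 - t) / 2) (t / 6)) :=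
    Real.rpow_le_rpow_of_exponent_ge ha ha1 ((min_le_left _ _).trans (by linarith))
  have e4 : b ^ (1/6 * t) ≤ b ^ (min ((1 - t) / 2) (t / 6)) :=
    Real.rpow_le_rpow_of_exponent_ge hb hb1 ((min_le_right _ _).trans (by linarith))
  calc X ^ (1 - t) * (Λ ^ ((1/2 + ε) * (1 - t)) * a ^ (1/2 * (1 - t))) * (X ^ t * (Λ ^ ((1/3 + ε) * t) * b ^ (1/6 * t)))
      = (X ^ (1 - t) * X ^ t) * ((Λ ^ ((1/2 + ε) * (1 - t)) * Λ ^ ((1/3 + ε) * t)) *
          (a ^ (1/2 * (1 - t)) * b ^ (1/6 * t))) := by ring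
    _ = X * (Λ ^ ((1 - t) / 2 + t / 3 + ε) * (a ^ (1/2 * (1 - t)) * b ^ (1/6 * t))) := by rw [e1, e2]
    _ ≤ X * (Λ ^ ((1 - t) / 2 + t / 3 + ε) * (a ^ (min ((1 - t) / 2) (t / 6)) * b ^ (min ((1 - t) / 2) (t / 6)))) := by
        gcongr
    _ = _ := by rw [Real.mul_rpow ha.le hb.le]

theorem gain_eq {R S : ℝ} (hR : 0 < R) (hS : 0 < S) : min 1 (R / S) * min 1 (S / R) = gain R S := by
  unfold gain
  rcases le_total R S with h | h
  · have h1 : R / S ≤ 1 := (div_le_one hS).2 h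
    have h2 : 1 ≤ S / R := (one_le_div hR).2 h
    rw [min_eq_right h1, min_eq_left h2, mul_one, min_eq_right (h1.trans h2)]
  · have h1 : 1 ≤ R / S := (one_le_div hS).2 h
    have h2 : S / R ≤ 1 := (div_le_one hR).2 h
    rw [min_eq_left h1, min_eq_right h2, one_mul, min_eq_left (h2.trans h1)]

/-- block set in space-time -/
def slabT (Λ R : ℝ) : Set W3 := {x | x.1 ∈ Icc Λ (2 * Λ) ∧ x.2.1 ∈ Icc R (2 * R)}

theorem measurableSet_slabT (Λ R : ℝ) : MeasurableSet (slabT Λ R) :=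
  (measurable_fst measurableSet_Icc).inter ((measurable_fst.comp measurable_snd) measurableSet_Icc)

theorem slabT_supp (Λ R : ℝ) (F : W3 → ℂ) :
    ∀ x, (slabT Λ R).indicator F x ≠ 0 → x.1 ∈ Icc Λ (2 * Λ) ∧ x.2.1 ∈ Icc R (2 * R) := by
  intro y hy
  by_contra h
  exact hy (indicator_of_notMem (show y ∉ slabT Λ R from h) F)

theorem nrmT_indicator_le {F : W3 → ℂ} (hF : Adm nuT F) (s : Set W3) {p : ℝ≥0∞} (hp : 1 ≤ p) :
    nrm p (s.indicator F) nuT ≤ nrm p F nuT := by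
  unfold nrm
  apply ENNReal.toReal_mono (hF.eLpNorm_ne_top hp)
  exact eLpNorm_indicator_le F

theorem bilAdm_blockW {M : ℕ} {A : ℝ} {θ : ℝ → ℂ} (h : Bump M A θ) {Λ : ℝ} (hΛ : 0 < Λ) (m : ℤ) (R S : ℝ) :
    BilAdm nu nuT (fun F G => FormW Λ θ m ((slab S).indicator F) ((slabT Λ R).indicator G)) := by
  have hB := bilAdm_FormW h hΛ m
  have s1 := measurableSet_slab S
  have s2 := measurableSet_slabT Λ R
  constructor
  · intro F F' G hF hF' hG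
    rw [Set.indicator_add', hB.add1 _ _ _ (hF.indicator s1) (hF'.indicator s1) (hG.indicator s2)]
  · intro F G G' hF hG hG'
    rw [Set.indicator_add', hB.add2 _ _ _ (hF.indicator s1) (hG.indicator s2) (hG'.indicator s2)]
  · intro c F G hF hG
    rw [Vale.Agent.P117.indicator_smul', hB.sm1 _ _ _ (hF.indicator s1) (hG.indicator s2)]
  · intro c F G hF hG
    rw [Vale.Agent.P117.indicator_smul', hB.sm2 _ _ _ (hF.indicator s1) (hG.indicator s2)]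

theorem blockW_interp (hD2 : StD2) (hD3 : StD3) {p ε : ℝ} (hp2 : 2 < p) (hp3 : p < 3) (hε : 0 < ε) :
    ∃ (M : ℕ) (C e : ℝ), 0 ≤ C ∧ 0 < e ∧
    ∀ (Λ R S : ℝ), 1 ≤ Λ → 0 < R → 0 < S →
    ∀ (A : ℝ) (θ : ℝ → ℂ), Bump M A θ → ∀ (m : ℤ) (F : ℝ × ℝ → ℂ) (G : W3 → ℂ), Adm nu F → Adm nuT G →
    (∀ y, F y ≠ 0 → y.1 ∈ Icc S (2 * S)) → (∀ x, G x ≠ 0 → x.1 ∈ Icc Λ (2 * Λ) ∧ x.2.1 ∈ Icc R (2 * R)) →
    ‖FormW Λ θ m F G‖ ≤ C * A * (1 + |(m:ℝ)|) ^ (M + 3) * (Λ ^ (1/p + ε) *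
      gain R S ^ e) * nrm (ENNReal.ofReal p) F nu *
      nrm (ENNReal.ofReal (p / (p - 1))) G nuT := by
  obtain ⟨M, C, hC, h⟩ := blockW_ends hD2 hD3 hε
  have hp0 : 0 < p := by linarith
  set t : ℝ := 3 - 6 / p with ht
  have ht0 : 0 < t := by
    rw [ht, sub_pos, div_lt_iff₀ hp0]; linarith
  have ht1 : t < 1 := by
    rw [ht, sub_lt_comm, lt_div_iff₀ hp0]; linarith
  have hpinv : 1 / p = (1 - t) * (1/2) + t * (1/3) := by
    rw [ht]; field_simp; ring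
  refine ⟨M, C, min ((1 - t) / 2) (t / 6), hC, lt_min (by linarith) (by linarith), ?_⟩
  intro Λ R S hΛ hR hS A θ hθ m F G hF hG hFs hGs
  have hA := hθ.nonneg
  have hΛ0 : 0 < Λ := by linarith
  have hg := gain_pos hR hS
  have g1 : 0 < min 1 (R / S) := lt_min one_pos (by positivity)
  have g2 : 0 < min 1 (S / R) := lt_min one_pos (by positivity)
  set X := C * A * (1 + |(m:ℝ)|) ^ (M + 3) with hX
  have hX0 : 0 ≤ X := by positivity
  have hB := bilAdm_blockW hθ hΛ0 m R S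
  have hq0 : 0 < p / (p - 1) := div_pos hp0 (by linarith)
  have hT := T01 hB (p0 := 2) (p1 := 3) (q0 := 2) (q1 := 3/2) (p := ENNReal.ofReal p)
    (q := ENNReal.ofReal (p / (p - 1))) (by norm_num) (by norm_num) (by norm_num) (by norm_num)
    (by norm_num) one_le_32 (t := t) ht0 ht1
    (by rw [toReal_inv_ofReal hp0, hpinv]; norm_num)
    (by
      rw [toReal_inv_ofReal hq0]
      have e4 : (1 / (3/2 : ℝ≥0∞)).toReal = 2/3 := by
        rw [one_div, ENNReal.toReal_inv, toReal_32]; norm_num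
      have e5 : (1 / (2 : ℝ≥0∞)).toReal = 1/2 := by
        rw [one_div, ENNReal.toReal_inv, ENNReal.toReal_ofNat]; norm_num
      rw [e4, e5, one_div_div, sub_div, div_self hp0.ne', hpinv]
      ring)
    (by rw [← ENNReal.ofReal_one]; exact ENNReal.ofReal_le_ofReal (by linarith))
    (by
      rw [← ENNReal.ofReal_one]
      apply ENNReal.ofReal_le_ofReal
      rw [le_div_iff₀ (by linarith)]; linarith)
    (M0 := X * (Λ ^ (1/2 + ε) * min 1 (R / S) ^ (1/2:ℝ))) (M1 := X * (Λ ^ (1/3 + ε) * min 1 (S / R) ^ (1/6:ℝ)))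
    (by positivity) (by positivity)
    (fun F G hF hG => by
      have h3 := (h Λ R S hΛ hR hS A θ hθ m _ _ (hF.indicator (measurableSet_slab S))
        (hG.indicator (measurableSet_slabT Λ R)) (slab_supp S F) (slabT_supp Λ R G)).1
      refine h3.trans ?_
      have n1 := nrm_indicator_le hF (slab S) (p := 2) (by norm_num)
      have n2 := nrmT_indicator_le hG (slabT Λ R) (p := 2) (by norm_num)
      have n3 : 0 ≤ nrm 2 ((slabT Λ R).indicator G) nuT := nrm_nonneg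
      have n4 : 0 ≤ nrm 2 F nu := nrm_nonneg
      gcongr)
    (fun F G hF hG => by
      have h3 := (h Λ R S hΛ hR hS A θ hθ m _ _ (hF.indicator (measurableSet_slab S))
        (hG.indicator (measurableSet_slabT Λ R)) (slab_supp S F) (slabT_supp Λ R G)).2
      refine h3.trans ?_
      have n1 := nrm_indicator_le hF (slab S) (p := 3) (by norm_num)
      have n2 := nrmT_indicator_le hG (slabT Λ R) (p := 3/2) one_le_32
      have n3 : 0 ≤ nrm (3/2) ((slabT Λ R).indicator G) nuT := nrm_nonneg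
      have n4 : 0 ≤ nrm 3 F nu := nrm_nonneg
      gcongr)
    hF hG
  have e6 : (slab S).indicator F = F := Set.indicator_eq_self.2 (fun y hy => hFs y hy)
  have e7 : (slabT Λ R).indicator G = G := Set.indicator_eq_self.2 (fun y hy => hGs y hy)
  rw [e6, e7] at hT
  refine hT.trans ?_
  have hc := interpW (X := X) (ε := ε) hX0 hΛ0 g1 (min_le_left _ _) g2 (min_le_left _ _) ht0 ht1
  rw [gain_eq hR hS] at hc
  have e8 : (1 - t) / 2 + t / 3 + ε = 1 / p + ε := by rw [hpinv]; ring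
  rw [e8] at hc
  have n5 : 0 ≤ nrm (ENNReal.ofReal p) F nu := nrm_nonneg
  have n6 : 0 ≤ nrm (ENNReal.ofReal (p / (p - 1))) G nuT := nrm_nonneg
  gcongr

/-- **scale estimate**, `2 < p < 3` -/
theorem scaleW (hD2 : StD2) (hD3 : StD3) {p ε : ℝ} (hp2 : 2 < p) (hp3 : p < 3) (hε : 0 < ε) :
    ∃ (M K : ℕ) (C : ℝ), 0 ≤ C ∧
    ∀ (Λ : ℝ), 1 ≤ Λ → ∀ (A : ℝ) (θ : ℝ → ℂ), Bump M A θ → ∀ (m : ℤ) (F : ℝ × ℝ → ℂ) (G : W3 → ℂ),
    Adm nu F → Adm nuT G → (∀ x, G x ≠ 0 → x.1 ∈ Icc Λ (2 * Λ)) →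
    ‖FormW Λ θ m F G‖ ≤ C * A * Λ ^ (1/p + ε) * (1 + |(m:ℝ)|) ^ K *
      nrm (ENNReal.ofReal p) F nu * nrm (ENNReal.ofReal (p / (p - 1))) G nuT := by
  obtain ⟨M, C, e, hC, he, h⟩ := blockW_interp hD2 hD3 hp2 hp3 hε
  have hp0 : 0 < p := by linarith
  have hq0 : 0 < p / (p - 1) := div_pos hp0 (by linarith)
  set r : ℝ := (1/2) ^ e with hr
  have hr0 : 0 ≤ r := by positivity
  have hr1 : r < 1 := Real.rpow_lt_one (by norm_num) (by norm_num) he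
  refine ⟨M, M + 3, C * ∑' k, kz r k, mul_nonneg hC (tsum_nonneg (kz_nonneg hr0)), ?_⟩
  intro Λ hΛ A θ hθ m F G hF hG hGs
  have hΛ0 : 0 < Λ := by linarith
  have hA := hθ.nonneg
  have hpi := Real.pi_pos
  have hB := bilAdm_FormW hθ hΛ0 m
  have hP1 : (1:ℝ≥0∞) ≤ ENNReal.ofReal p := by
    rw [← ENNReal.ofReal_one]; exact ENNReal.ofReal_le_ofReal (by linarith)
  have hQ1 : (1:ℝ≥0∞) ≤ ENNReal.ofReal (p / (p - 1)) := by
    rw [← ENNReal.ofReal_one]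
    apply ENNReal.ofReal_le_ofReal
    rw [le_div_iff₀ (by linarith)]; linarith
  have hpq : (ENNReal.ofReal p).toReal.HolderConjugate (ENNReal.ofReal (p / (p - 1))).toReal := by
    rw [ENNReal.toReal_ofReal hp0.le, ENNReal.toReal_ofReal hq0.le]
    exact Real.HolderConjugate.conjExponent (by linarith)
  have hX0 : 0 ≤ C * A * (1 + |(m:ℝ)|) ^ (M + 3) * Λ ^ (1/p + ε) := by positivity
  refine truncT_limit hB (C := 2 * Real.pi * (16 * A * Λ ^ (-(1:ℝ)))) (by positivity)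
    (fun F G hF hG => norm_FormW_le hθ hΛ0 m hF hG) hF hG ?_
  intro n
  have h1 := blockT_sum hB (X := C * A * (1 + |(m:ℝ)|) ^ (M + 3) * Λ ^ (1/p + ε)) hX0 hr0 hr1
    hP1 ENNReal.ofReal_ne_top hQ1 ENNReal.ofReal_ne_top hpq hF hG (by
      intro a b
      have h2 := h Λ ((2:ℝ) ^ a) ((2:ℝ) ^ b) hΛ (by positivity) (by positivity) A θ hθ m _ _
        (hF.indicator (measurableSet_Qd b)) (hG.indicator (measurableSet_QdT a)) (Qd_supp b F)
        (fun x hx => ⟨hGs x (fun h0 => hx (by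
          by_cases hxs : x ∈ QdT a
          · rw [indicator_of_mem hxs, h0]
          · rw [indicator_of_notMem hxs])), QdT_supp a G x hx⟩)
      refine h2.trans ?_
      have h3 := gain_rpow_le he a b
      have n1 : 0 ≤ nrm (ENNReal.ofReal p) ((Qd b).indicator F) nu := nrm_nonneg
      have n2 : 0 ≤ nrm (ENNReal.ofReal (p / (p - 1))) ((QdT a).indicator G) nuT := nrm_nonneg
      calc _ ≤ C * A * (1 + |(m:ℝ)|) ^ (M + 3) * (Λ ^ (1/p + ε) * kz r (a - b)) *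
            nrm (ENNReal.ofReal p) ((Qd b).indicator F) nu *
            nrm (ENNReal.ofReal (p / (p - 1))) ((QdT a).indicator G) nuT := by gcongr
        _ = _ := by ring) (Finset.Icc (-(n:ℤ)) n)
  refine h1.trans (le_of_eq ?_)
  ring

end Vale.Agent.P106
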