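import Vale.Agent.P106.A.WaveK

set_option linter.all false

open MeasureTheory Complex Set Filter
open scoped ENNReal NNReal ContDiff FourierTransform SchwartzMap ComplexConjugate Topology

namespace Vale.Agent.P106

open Vale.Agent.P117

theorem radial_pt2 {T r : ℝ} (hT : 1 ≤ T) (hr : 0 ≤ r) :
    r ^ 2 * (1 + |T - r|) ^ (-(4:ℝ)) ≤ T ^ 2 * jb (r - T) := by
  unfold jb
  rw [abs_sub_comm r T]
  set X := 1 + |T - r| with hX
  have hX1 : 1 ≤ X := by rw [hX]; linarith [abs_nonneg (T - r)]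
  have hX0 : 0 < X := by linarith
  have h1 : r ≤ T * X := by
    rw [hX]
    have : r - T ≤ |T - r| := by rw [abs_sub_comm]; exact le_abs_self _
    nlinarith [abs_nonneg (T - r)]
  have h2 : r ^ 2 ≤ T ^ 2 * X ^ (2:ℝ) := by
    have : X ^ (2:ℝ) = X ^ 2 := by exact_mod_cast Real.rpow_natCast X 2
    rw [this, ← mul_pow]
    exact pow_le_pow_left₀ hr h1 2
  calc r ^ 2 * X ^ (-(4:ℝ)) ≤ T ^ 2 * X ^ (2:ℝ) * X ^ (-(4:ℝ)) := by gcongr
    _ = T ^ 2 * (X ^ (2:ℝ) * X ^ (-(4:ℝ))) := by ring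
    _ = _ := by
      rw [← Real.rpow_add hX0]; norm_num

theorem radial_int2 {T : ℝ} (hT : 1 ≤ T) :
    Integrable (fun ξ : E3 => (1 + |T - ‖ξ‖|) ^ (-(4:ℝ))) ∧
    ∫ ξ : E3, (1 + |T - ‖ξ‖|) ^ (-(4:ℝ)) ≤
      3 * volume.real (Metric.ball (0:E3) 1) * (∫ η, jb η) * T ^ 2 := by
  have hji : Integrable (fun r : ℝ => T ^ 2 * jb (r - T)) := (integrable_jb.comp_sub_right T).const_mul _
  have hjI : ∫ r : ℝ, T ^ 2 * jb (r - T) = (∫ η, jb η) * T ^ 2 := by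
    rw [integral_const_mul, integral_sub_right_eq_self (fun r => jb r) T]; ring
  have hmeas : Measurable (fun y : ℝ => y ^ 2 * (1 + |T - y|) ^ (-(4:ℝ))) := by fun_prop
  have hri : IntegrableOn (fun y : ℝ => y ^ 2 * (1 + |T - y|) ^ (-(4:ℝ))) (Ioi 0) := by
    refine (hji.integrableOn (s := Ioi 0)).mono' hmeas.aestronglyMeasurable ?_
    filter_upwards [ae_restrict_mem measurableSet_Ioi] with y hy
    rw [Real.norm_of_nonneg (by positivity)]
    exact radial_pt2 hT (le_of_lt hy)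
  have hint : Integrable (fun ξ : E3 => (1 + |T - ‖ξ‖|) ^ (-(4:ℝ))) := by
    have := (integrable_fun_norm_addHaar (volume : Measure E3)
      (f := fun y : ℝ => (1 + |T - y|) ^ (-(4:ℝ)))).2
    apply this
    simpa using hri
  refine ⟨hint, ?_⟩
  have h2 := integral_fun_norm_addHaar (volume : Measure E3)
    (fun y : ℝ => (1 + |T - y|) ^ (-(4:ℝ)))
  rw [h2]
  simp only [finrank_euclideanSpace, Fintype.card_fin, smul_eq_mul, nsmul_eq_mul, Nat.cast_ofNat,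
    Nat.add_one_sub_one]
  have h3 : ∫ y in Ioi (0:ℝ), y ^ 2 * (1 + |T - y|) ^ (-(4:ℝ)) ≤ (∫ η, jb η) * T ^ 2 := by
    rw [← hjI]
    calc _ ≤ ∫ y in Ioi (0:ℝ), T ^ 2 * jb (y - T) := by
          apply setIntegral_mono_on hri hji.integrableOn measurableSet_Ioi
          intro y hy
          exact radial_pt2 hT (le_of_lt hy)
      _ ≤ _ := setIntegral_le_integral hji (by
          filter_upwards with y
          have := jb_nonneg (y - T)
          simp only [Pi.zero_apply]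
          positivity)
  calc _ ≤ 3 * (volume.real (Metric.ball (0:E3) 1) * ((∫ η, jb η) * T ^ 2)) := by
        gcongr
    _ = _ := by ring

/-- `L¹` norm of the three dimensional kernel -/
theorem kw3_L1 : ∃ C : ℝ, 0 ≤ C ∧ ∀ (Λ : ℝ), 1 ≤ Λ → ∀ (A : ℝ) (θ : ℝ → ℂ), Bump 4 A θ →
    ∀ T : ℝ, T ∈ Icc Λ (2 * Λ) → ∫⁻ x : E3, ‖kw3 Λ θ T (‖x‖ ^ 2)‖ₑ ≤ ENNReal.ofReal (C * A * Λ) := by
  obtain ⟨C, hC, h⟩ := Psa_decay (3/2) 4
  have hJ : 0 ≤ ∫ η, jb η := integral_nonneg jb_nonneg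
  have hv0 : 0 ≤ volume.real (Metric.ball (0:E3) 1) := ENNReal.toReal_nonneg
  refine ⟨C * (3 * volume.real (Metric.ball (0:E3) 1) * (∫ η, jb η) * 4), by positivity, ?_⟩
  intro Λ hΛ A θ hθ T hT
  have hA := hθ.nonneg
  have hΛ0 : 0 < Λ := by linarith
  have hT1 : 1 ≤ T := by linarith [hT.1]
  obtain ⟨hri, hrb⟩ := radial_int2 hT1
  calc ∫⁻ x : E3, ‖kw3 Λ θ T (‖x‖ ^ 2)‖ₑ ≤
        ∫⁻ x : E3, ENNReal.ofReal (C * A * Λ⁻¹ * (1 + |T - ‖x‖|) ^ (-(4:ℝ))) := by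
        apply lintegral_mono
        intro x
        simp only
        rw [← ofReal_norm]
        apply ENNReal.ofReal_le_ofReal
        rw [kw3_eq hθ hΛ0, norm_mul, Complex.norm_real, Real.norm_of_nonneg (by positivity), Real.rpow_neg_one]
        have h1 := h A θ hθ ((T ^ 2 - ‖x‖ ^ 2) / Λ)
        have h2 := dist_le_v (υ := ‖x‖) hΛ0 hT.1
        rw [abs_of_nonneg (norm_nonneg x)] at h2
        have h3 : (1 + |(T ^ 2 - ‖x‖ ^ 2) / Λ|) ^ (-((4:ℕ):ℝ)) ≤ (1 + |T - ‖x‖|) ^ (-(4:ℝ)) := by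
          push_cast
          exact Real.rpow_le_rpow_of_nonpos (by positivity) (by linarith) (by norm_num)
        calc Λ⁻¹ * ‖Psa (3 / 2) θ ((T ^ 2 - ‖x‖ ^ 2) / Λ)‖ ≤ Λ⁻¹ * (C * A * (1 + |(T ^ 2 - ‖x‖ ^ 2) / Λ|) ^ (-((4:ℕ):ℝ))) := by
              gcongr
          _ ≤ Λ⁻¹ * (C * A * (1 + |T - ‖x‖|) ^ (-(4:ℝ))) := by gcongr
          _ = _ := by ring
    _ = ENNReal.ofReal (∫ x : E3, C * A * Λ⁻¹ * (1 + |T - ‖x‖|) ^ (-(4:ℝ))) := by
        rw [ofReal_integral_eq_lintegral_ofReal (hri.const_mul _)]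
        filter_upwards with x
        simp only [Pi.zero_apply]
        positivity
    _ ≤ _ := by
        apply ENNReal.ofReal_le_ofReal
        rw [integral_const_mul]
        have hT2 : T ^ 2 ≤ 4 * Λ ^ 2 := by
          have := hT.2
          nlinarith
        calc C * A * Λ⁻¹ * ∫ x : E3, (1 + |T - ‖x‖|) ^ (-(4:ℝ)) ≤
            C * A * Λ⁻¹ * (3 * volume.real (Metric.ball (0:E3) 1) * (∫ η, jb η) * T ^ 2) := by gcongr
          _ ≤ C * A * Λ⁻¹ * (3 * volume.real (Metric.ball (0:E3) 1) * (∫ η, jb η) * (4 * Λ ^ 2)) := by gcongr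
          _ = _ := by field_simp

section
variable {V : Type*} [NormedAddCommGroup V] [InnerProductSpace ℝ V] [FiniteDimensional ℝ V]
  [MeasurableSpace V] [BorelSpace V]

theorem linf_cv {K f : V → ℂ} (hK : Measurable K) (hf : Measurable f) (x : V) :
    ‖cv K f x‖ₑ ≤ (∫⁻ y, ‖K y‖ₑ) * eLpNorm f ⊤ volume := by
  refine (enorm_cv_le K f x).trans ?_
  have h1 : ∀ᵐ y, ‖f y‖ₑ ≤ eLpNorm f ⊤ volume := by
    rw [eLpNorm_exponent_top]; exact ae_le_eLpNormEssSup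
  calc ∫⁻ y, ‖K (x - y)‖ₑ * ‖f y‖ₑ ≤ ∫⁻ y, ‖K (x - y)‖ₑ * eLpNorm f ⊤ volume := by
        apply lintegral_mono_ae
        filter_upwards [h1] with y hy
        gcongr
    _ = (∫⁻ y, ‖K (x - y)‖ₑ) * eLpNorm f ⊤ volume := by
        rw [lintegral_mul_const]
        exact (hK.comp (by fun_prop)).enorm
    _ = _ := by
        congr 1
        exact lintegral_sub_left_eq_self (fun y => ‖K y‖ₑ) x
end

section
variable {M : ℕ} {A : ℝ} {θ : ℝ → ℂ}

theorem continuous_kw3 (h : Bump M A θ) {Λ : ℝ} (hΛ : 0 < Λ) (T : ℝ) : Continuous (kw3 Λ θ T) := by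
  have : kw3 Λ θ T = fun q => ((Λ ^ (-(1:ℝ)) : ℝ) : ℂ) * Psa (3 / 2) θ ((T ^ 2 - q) / Λ) := by
    ext q; exact kw3_eq h hΛ T q
  rw [this]
  have := continuous_Psa h (3/2)
  exact continuous_const.mul (this.comp (by fun_prop))

/-- profile of the three dimensional operator -/
noncomputable def UW (Λ : ℝ) (θ : ℝ → ℂ) (m : ℤ) (F : ℝ × ℝ → ℂ) (X : W3) : ℂ :=
  ∫ y, angK (kw3 Λ θ X.1) m X.2.1 y.1 X.2.2 y.2 * F y ∂nu2

theorem FormW_eq (Λ : ℝ) (θ : ℝ → ℂ) (m : ℤ) (F : ℝ × ℝ → ℂ) (G : W3 → ℂ) :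
    FormW Λ θ m F G = ∫ X, UW Λ θ m F X * G X ∂nuT2 := rfl

theorem cv_pt (h : Bump M A θ) {Λ : ℝ} (hΛ : 0 < Λ) (m : ℤ) {F : ℝ × ℝ → ℂ} (hF : Adm nu F) (T : ℝ)
    (p : ℝ × ℝ) (α : ℝ) :
    cv (fun x : E3 => kw3 Λ θ T (‖x‖ ^ 2)) (lft m F) (pt (p, α)) =
      cexp (I * (m * α : ℝ)) * UW Λ θ m F (T, p) := by
  have := inner_form (k := kw3 Λ θ T) (continuous_kw3 h hΛ T) (norm_kw3_le h hΛ T) m hF p α
  unfold UW
  rw [← this]
  rfl

theorem norm_UW_le {C : ℝ} (hC : 0 ≤ C) {Λ : ℝ} (hΛ : 0 < Λ) (h : Bump M A θ) {T : ℝ}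
    (hL : ∫⁻ x : E3, ‖kw3 Λ θ T (‖x‖ ^ 2)‖ₑ ≤ ENNReal.ofReal C) (m : ℤ) {F : ℝ × ℝ → ℂ} (hF : Adm nu F)
    (p : ℝ × ℝ) : ‖UW Λ θ m F (T, p)‖ ≤ C * nrm ⊤ F nu := by
  have h1 := cv_pt h hΛ m hF T p 0
  have e0 : cexp (I * ((m * (0:ℝ) : ℝ) : ℂ)) = 1 := by simp
  rw [e0, one_mul] at h1
  have hK : Continuous (fun x : E3 => kw3 Λ θ T (‖x‖ ^ 2)) := (continuous_kw3 h hΛ T).comp (by fun_prop)
  have hfm : Measurable (lft m F) := (hF.cyl_ph m).meas
  have h2 := linf_cv hK.measurable hfm (pt (p, 0))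
  rw [h1] at h2
  have h3 : ‖UW Λ θ m F (T, p)‖ₑ ≤ ENNReal.ofReal (C * nrm ⊤ F nu) := by
    refine h2.trans ?_
    rw [ENNReal.ofReal_mul hC]
    gcongr
    rw [hF.ofReal_nrm le_top]
    exact eLpNorm_cyl_ph_le hF.meas m ⊤
  rw [← ofReal_norm] at h3
  exact (ENNReal.ofReal_le_ofReal_iff (mul_nonneg hC nrm_nonneg)).1 h3

end

/-- time window -/
def winT (Λ : ℝ) : Set W3 := {x | x.1 ∈ Icc Λ (2 * Λ)}

theorem measurableSet_winT (Λ : ℝ) : MeasurableSet (winT Λ) := measurable_fst measurableSet_Icc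

theorem winT_supp (Λ : ℝ) (F : W3 → ℂ) : ∀ x, (winT Λ).indicator F x ≠ 0 → x.1 ∈ Icc Λ (2 * Λ) := by
  intro y hy
  by_contra h
  exact hy (indicator_of_notMem (show y ∉ winT Λ from h) F)

theorem FormW_Linf : ∃ C : ℝ, 0 ≤ C ∧ ∀ (Λ : ℝ), 1 ≤ Λ → ∀ (A : ℝ) (θ : ℝ → ℂ), Bump 4 A θ →
    ∀ (m : ℤ) (F : ℝ × ℝ → ℂ) (G : W3 → ℂ), Adm nu F → Adm nuT G → (∀ x, G x ≠ 0 → x.1 ∈ Icc Λ (2 * Λ)) →
    ‖FormW Λ θ m F G‖ ≤ C * A * Λ * nrm ⊤ F nu * nrm 1 G nuT := by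
  obtain ⟨C, hC, h⟩ := kw3_L1
  refine ⟨C, hC, ?_⟩
  intro Λ hΛ A θ hθ m F G hF hG hGs
  have hA := hθ.nonneg
  have hΛ0 : 0 < Λ := by linarith
  rw [FormW_eq]
  have h1 : ∀ X : W3, ‖UW Λ θ m F X * G X‖ ≤ C * A * Λ * nrm ⊤ F nu * ‖G X‖ := by
    intro X
    by_cases hX : G X = 0
    · rw [hX]; simp
    · rw [norm_mul]
      gcongr
      exact norm_UW_le (by positivity) hΛ0 hθ (h Λ hΛ A θ hθ X.1 (hGs X hX)) m hF X.2
  have h2 : Integrable G nuT2 := integrable_nuT2 hG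
  have h3 : ‖∫ X, UW Λ θ m F X * G X ∂nuT2‖ ≤ ∫ X, C * A * Λ * nrm ⊤ F nu * ‖G X‖ ∂nuT2 := by
    apply norm_integral_le_of_norm_le (h2.norm.const_mul _)
    filter_upwards with X
    exact h1 X
  refine h3.trans ?_
  rw [integral_const_mul]
  have n1 : 0 ≤ nrm ⊤ F nu := nrm_nonneg
  have h4 : ∫ X, ‖G X‖ ∂nuT2 ≤ nrm 1 G nuT := by
    unfold nrm
    rw [eLpNorm_one_eq_lintegral_enorm, integral_norm_eq_lintegral_enorm h2.aestronglyMeasurable]
    apply ENNReal.toReal_mono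
    · exact hG.int.hasFiniteIntegral.ne
    · exact lintegral_mono' nuT2_le le_rfl
  gcongr

theorem bilAdm_winW {M : ℕ} {A : ℝ} {θ : ℝ → ℂ} (h : Bump M A θ) {Λ : ℝ} (hΛ : 0 < Λ) (m : ℤ) :
    BilAdm nu nuT (fun F G => FormW Λ θ m F ((winT Λ).indicator G)) := by
  have hB := bilAdm_FormW h hΛ m
  have s2 := measurableSet_winT Λ
  constructor
  · intro F F' G hF hF' hG
    rw [hB.add1 _ _ _ hF hF' (hG.indicator s2)]
  · intro F G G' hF hG hG'
    rw [Set.indicator_add', hB.add2 _ _ _ hF (hG.indicator s2) (hG'.indicator s2)]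
  · intro c F G hF hG
    rw [hB.sm1 _ _ _ hF (hG.indicator s2)]
  · intro c F G hF hG
    rw [Vale.Agent.P117.indicator_smul', hB.sm2 _ _ _ hF (hG.indicator s2)]

/-- **scale estimate** for all exponents -/
theorem scaleAll (hD2 : StD2) (hD3 : StD3) {P : ℝ} (hP : 2 < P) {e : ℝ} (he : max (1 - 3 * (1 / P)) 0 < e) :
    ∃ (M K : ℕ) (C : ℝ), 0 ≤ C ∧
    ∀ (Λ : ℝ), 1 ≤ Λ → ∀ (A : ℝ) (θ : ℝ → ℂ), Bump M A θ → ∀ (m : ℤ) (F : ℝ × ℝ → ℂ) (G : W3 → ℂ),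
    Adm nu F → Adm nuT G → (∀ x, G x ≠ 0 → x.1 ∈ Icc Λ (2 * Λ)) →
    ‖FormW Λ θ m F G‖ ≤ C * A * Λ ^ (1/P + e) * (1 + |(m:ℝ)|) ^ K *
      nrm (ENNReal.ofReal P) F nu * nrm (ENNReal.ofReal (P / (P - 1))) G nuT := by
  have he0 : 0 < e := lt_of_le_of_lt (le_max_right _ _) he
  rcases lt_or_ge P 3 with hP3 | hP3
  · exact scaleW hD2 hD3 hP hP3 he0
  have hP0 : 0 < P := by linarith
  have hx0 : 0 < 1 / P := by positivity
  have hx3 : 1 / P ≤ 1 / 3 := one_div_le_one_div_of_le (by norm_num) hP3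
  obtain ⟨P0, e0, hP02, hP03, he00, hexp⟩ : ∃ P0 e0 : ℝ, 2 < P0 ∧ P0 < 3 ∧ 0 < e0 ∧
      e0 * (P0 * (1/P)) + (1 - P0 * (1/P)) ≤ e := by
    set x := 1 / P with hx
    set g := e - max (1 - 3 * x) 0 with hg
    have hg0 : 0 < g := by linarith
    have h1 : 1 - 3 * x ≤ e - g := by rw [hg]; linarith [le_max_left (1 - 3 * x) 0]
    have h2 : 0 ≤ e - g := by rw [hg]; linarith [le_max_right (1 - 3 * x) 0]
    set a := min (1/2) (g / 4) with ha
    have ha0 : 0 < a := lt_min (by norm_num) (by positivity)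
    have ha1 : a ≤ 1/2 := min_le_left _ _
    have ha2 : a ≤ g / 4 := min_le_right _ _
    refine ⟨3 - a, g / 4, by linarith, by linarith, by positivity, ?_⟩
    have b1 : (3 - a) * x ≤ 1 := by nlinarith
    have b2 : 0 ≤ (3 - a) * x := by nlinarith
    have b3 : a * x ≤ g / 4 := by nlinarith
    have b4 : 1 - (3 - a) * x = (1 - 3 * x) + a * x := by ring
    have b6 : g / 4 * ((3 - a) * x) ≤ g / 4 := by nlinarith
    linarith
  set t := 1 - P0 * (1 / P) with ht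
  have hP0' : 0 < P0 := by linarith
  have ht0 : 0 < t := by
    rw [ht]
    have : P0 * (1 / P) < 1 := by
      calc P0 * (1 / P) < 3 * (1 / P) := by gcongr
        _ ≤ 1 := by linarith
    linarith
  have ht1 : t < 1 := by
    rw [ht]
    have : 0 < P0 * (1 / P) := by positivity
    linarith
  obtain ⟨M1, K1, C1, hC1, h1⟩ := scaleW hD2 hD3 hP02 hP03 he00
  obtain ⟨C2, hC2, h2⟩ := FormW_Linf
  refine ⟨max M1 4, K1, max C1 C2, le_max_of_le_left hC1, ?_⟩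
  intro Λ hΛ A θ hθ m F G hF hG hGs
  have hΛ0 : 0 < Λ := by linarith
  have hA := hθ.nonneg
  set X := max C1 C2 * A * (1 + |(m:ℝ)|) ^ K1 with hX
  have hX0 : 0 ≤ X := by
    have : 0 ≤ max C1 C2 := le_max_of_le_left hC1
    positivity
  have hB := bilAdm_winW hθ hΛ0 m
  have hQ0 : 0 < P0 / (P0 - 1) := div_pos hP0' (by linarith)
  have hQ1 : 0 < P / (P - 1) := div_pos hP0 (by linarith)
  have hT := T01 hB (p0 := ENNReal.ofReal P0) (p1 := ⊤) (q0 := ENNReal.ofReal (P0 / (P0 - 1)))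
    (q1 := 1) (p := ENNReal.ofReal P) (q := ENNReal.ofReal (P / (P - 1)))
    (by rw [← ENNReal.ofReal_one]; exact ENNReal.ofReal_le_ofReal (by linarith))
    ENNReal.ofReal_ne_top le_top
    (by
      rw [← ENNReal.ofReal_one]
      apply ENNReal.ofReal_le_ofReal
      rw [le_div_iff₀ (by linarith)]; linarith)
    ENNReal.ofReal_ne_top le_rfl ht0 ht1
    (by
      rw [toReal_inv_ofReal hP0, toReal_inv_ofReal hP0']
      simp only [ENNReal.div_top, ENNReal.toReal_zero, mul_zero, add_zero]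
      rw [ht]; field_simp; ring)
    (by
      rw [toReal_inv_ofReal hQ1, toReal_inv_ofReal hQ0]
      simp only [div_one, ENNReal.toReal_one, mul_one]
      rw [ht, one_div_div, one_div_div]; field_simp; ring)
    (by rw [← ENNReal.ofReal_one]; exact ENNReal.ofReal_le_ofReal (by linarith))
    (by
      rw [← ENNReal.ofReal_one]
      apply ENNReal.ofReal_le_ofReal
      rw [le_div_iff₀ (by linarith)]; linarith)
    (M0 := X * Λ ^ (1/P0 + e0)) (M1 := X * Λ ^ (1:ℝ)) (by positivity) (by positivity)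
    (fun F G hF hG => by
      have h3 := h1 Λ hΛ A θ (hθ.mono (le_max_left _ _) le_rfl) m F _ hF
        (hG.indicator (measurableSet_winT Λ)) (winT_supp Λ G)
      refine h3.trans ?_
      have n1 : 0 ≤ nrm (ENNReal.ofReal P0) F nu := nrm_nonneg
      have n2 := nrmT_indicator_le hG (winT Λ) (p := ENNReal.ofReal (P0 / (P0 - 1))) (by
        rw [← ENNReal.ofReal_one]
        apply ENNReal.ofReal_le_ofReal
        rw [le_div_iff₀ (by linarith)]; linarith)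
      have n3 : 0 ≤ nrm (ENNReal.ofReal (P0 / (P0 - 1))) ((winT Λ).indicator G) nuT := nrm_nonneg
      have := le_max_left C1 C2
      rw [hX]
      calc C1 * A * Λ ^ (1/P0 + e0) * (1 + |(m:ℝ)|) ^ K1 * nrm (ENNReal.ofReal P0) F nu *
            nrm (ENNReal.ofReal (P0 / (P0 - 1))) ((winT Λ).indicator G) nuT ≤
          max C1 C2 * A * Λ ^ (1/P0 + e0) * (1 + |(m:ℝ)|) ^ K1 * nrm (ENNReal.ofReal P0) F nu *
            nrm (ENNReal.ofReal (P0 / (P0 - 1))) G nuT := by gcongr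
        _ = _ := by ring)
    (fun F G hF hG => by
      have h3 := h2 Λ hΛ A θ (hθ.mono (le_max_right _ _) le_rfl) m F _ hF
        (hG.indicator (measurableSet_winT Λ)) (winT_supp Λ G)
      refine h3.trans ?_
      have n1 : 0 ≤ nrm ⊤ F nu := nrm_nonneg
      have n2 := nrmT_indicator_le hG (winT Λ) (p := 1) le_rfl
      have n3 : 0 ≤ nrm 1 ((winT Λ).indicator G) nuT := nrm_nonneg
      have h4 := le_max_right C1 C2
      have h5 : (1:ℝ) ≤ (1 + |(m:ℝ)|) ^ K1 := one_le_pow₀ (by linarith [abs_nonneg (m:ℝ)])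
      have h6 : C2 * A ≤ X := by
        rw [hX]
        calc C2 * A ≤ max C1 C2 * A := by gcongr
          _ ≤ max C1 C2 * A * (1 + |(m:ℝ)|) ^ K1 := by
            apply le_mul_of_one_le_right _ h5
            have : 0 ≤ max C1 C2 := le_max_of_le_left hC1
            positivity
      rw [Real.rpow_one]
      gcongr)
    hF hG
  have e7 : (winT Λ).indicator G = G := Set.indicator_eq_self.2 (fun y hy => hGs y hy)
  rw [e7, rpow_interp hX0 hΛ0] at hT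
  refine hT.trans ?_
  have h7 : Λ ^ ((1/P0 + e0) * (1 - t) + 1 * t) ≤ Λ ^ (1/P + e) := by
    apply Real.rpow_le_rpow_of_exponent_le hΛ
    have e8 : (1/P0 + e0) * (1 - t) + 1 * t = 1/P + (e0 * (P0 * (1/P)) + (1 - P0 * (1/P))) := by
      rw [ht]; field_simp; ring
    rw [e8]
    linarith
  have n1 : 0 ≤ nrm (ENNReal.ofReal P) F nu := nrm_nonneg
  have n2 : 0 ≤ nrm (ENNReal.ofReal (P / (P - 1))) G nuT := nrm_nonneg
  calc X * Λ ^ ((1/P0 + e0) * (1 - t) + 1 * t) * nrm (ENNReal.ofReal P) F nu * nrm (ENNReal.ofReal (P / (P - 1))) G nuT ≤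
      X * Λ ^ (1/P + e) * nrm (ENNReal.ofReal P) F nu * nrm (ENNReal.ofReal (P / (P - 1))) G nuT := by gcongr
    _ = _ := by rw [hX]; ring

end Vale.Agent.P106
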