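import Vale.Agent.P106.A.Form

set_option linter.all false

open MeasureTheory Complex Set Filter
open scoped ENNReal NNReal ContDiff FourierTransform SchwartzMap ComplexConjugate Topology

namespace Vale.Agent.P106

open Vale.Agent.P117

section kernelform
variable {α β : Type*} [MeasurableSpace α] [MeasurableSpace β] {μ μ' : Measure α} {ν ν' : Measure β}
  [SFinite μ] [SFinite ν] [SFinite μ'] [SFinite ν']

theorem kint1 {K : β → α → ℂ} (hK : Measurable (Function.uncurry K)) {C : ℝ} (hC : ∀ x y, ‖K x y‖ ≤ C)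
    {F : α → ℂ} (hF : Integrable F μ) (x : β) : Integrable (fun y => K x y * F y) μ := by
  refine hF.bdd_mul (c := C) ?_ (by filter_upwards with y using hC x y)
  exact (hK.comp (by fun_prop : Measurable (fun y : α => (x, y)))).aestronglyMeasurable

theorem kint2 {K : β → α → ℂ} (hK : Measurable (Function.uncurry K)) {C : ℝ} (hC : ∀ x y, ‖K x y‖ ≤ C)
    {F : α → ℂ} (hF : Integrable F μ) (hFm : Measurable F) {G : β → ℂ} (hG : Integrable G ν) :
    Integrable (fun x => (∫ y, K x y * F y ∂μ) * G x) ν := by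
  refine hG.bdd_mul (c := C * ∫ y, ‖F y‖ ∂μ) ?_ ?_
  · apply StronglyMeasurable.aestronglyMeasurable
    apply StronglyMeasurable.integral_prod_right' (f := fun p : β × α => Function.uncurry K p * F p.2)
    apply Measurable.stronglyMeasurable
    fun_prop
  · filter_upwards with x
    calc ‖∫ y, K x y * F y ∂μ‖ ≤ ∫ y, C * ‖F y‖ ∂μ := by
          apply norm_integral_le_of_norm_le (hF.norm.const_mul _)
          filter_upwards with y
          rw [norm_mul]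
          have := hC x y
          gcongr
      _ = _ := by rw [integral_const_mul]

theorem bilAdm_kernel {K : β → α → ℂ} (hK : Measurable (Function.uncurry K)) {C : ℝ} (hC : ∀ x y, ‖K x y‖ ≤ C)
    (hμ : μ ≤ μ') (hν : ν ≤ ν') :
    BilAdm μ' ν' (fun F G => ∫ x, (∫ y, K x y * F y ∂μ) * G x ∂ν) := by
  constructor
  · intro F F' G hF hF' hG
    have i1 := kint1 hK hC (hF.int.mono_measure hμ)
    have i2 := kint1 hK hC (hF'.int.mono_measure hμ)
    have j1 := kint2 hK hC (hF.int.mono_measure hμ) hF.meas (hG.int.mono_measure hν)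
    have j2 := kint2 hK hC (hF'.int.mono_measure hμ) hF'.meas (hG.int.mono_measure hν)
    rw [← integral_add j1 j2]
    congr 1
    ext x
    rw [← add_mul, ← integral_add (i1 x) (i2 x)]
    congr 1
    congr 1
    ext y
    rw [Pi.add_apply]; ring
  · intro F G G' hF hG hG'
    have j1 := kint2 hK hC (hF.int.mono_measure hμ) hF.meas (hG.int.mono_measure hν)
    have j2 := kint2 hK hC (hF.int.mono_measure hμ) hF.meas (hG'.int.mono_measure hν)
    rw [← integral_add j1 j2]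
    congr 1
    ext x
    rw [Pi.add_apply]; ring
  · intro c F G hF hG
    rw [← integral_const_mul]
    congr 1
    ext x
    rw [← mul_assoc, ← integral_const_mul]
    congr 2
    ext y
    rw [Pi.smul_apply, smul_eq_mul]; ring
  · intro c F G hF hG
    rw [← integral_const_mul]
    congr 1
    ext x
    rw [Pi.smul_apply, smul_eq_mul]; ring

theorem norm_kernel_form {K : β → α → ℂ} {C : ℝ} (hC0 : 0 ≤ C) (hC : ∀ x y, ‖K x y‖ ≤ C)
    (hμ : μ ≤ μ') (hν : ν ≤ ν') {F : α → ℂ} (hF : Adm μ' F) {G : β → ℂ} (hG : Adm ν' G) :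
    ‖∫ x, (∫ y, K x y * F y ∂μ) * G x ∂ν‖ ≤ C * (∫ y, ‖F y‖ ∂μ') * ∫ y, ‖G y‖ ∂ν' := by
  have h1 : ∀ x, ‖∫ y, K x y * F y ∂μ‖ ≤ C * ∫ y, ‖F y‖ ∂μ' := by
    intro x
    calc ‖∫ y, K x y * F y ∂μ‖ ≤ ∫ y, C * ‖F y‖ ∂μ := by
          apply norm_integral_le_of_norm_le ((hF.int.mono_measure hμ).norm.const_mul _)
          filter_upwards with y
          rw [norm_mul]
          have := hC x y
          gcongr
      _ = C * ∫ y, ‖F y‖ ∂μ := by rw [integral_const_mul]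
      _ ≤ _ := by
          gcongr
          · filter_upwards with y using norm_nonneg _
          · exact hF.int.norm
  have h2 : 0 ≤ C * ∫ y, ‖F y‖ ∂μ' := mul_nonneg hC0 (integral_nonneg fun _ => norm_nonneg _)
  calc _ ≤ ∫ x, (C * ∫ y, ‖F y‖ ∂μ') * ‖G x‖ ∂ν := by
        apply norm_integral_le_of_norm_le ((hG.int.mono_measure hν).norm.const_mul _)
        filter_upwards with x
        rw [norm_mul]
        have := h1 x
        gcongr
    _ = (C * ∫ y, ‖F y‖ ∂μ') * ∫ x, ‖G x‖ ∂ν := by rw [integral_const_mul]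
    _ ≤ _ := by
        gcongr
        · filter_upwards with y using norm_nonneg _
        · exact hG.int.norm

end kernelform

section ang
variable {M : ℕ} {A : ℝ} {θ : ℝ → ℂ}

theorem ang_meas1 (m : ℤ) {k : ℝ × ℝ → ℂ} (hk : Measurable k) : Measurable (fun p : (W3 × (ℝ × ℝ)) × ℝ =>
    k (p.1.1.1, p.1.1.2.1 ^ 2 + p.1.2.1 ^ 2 - 2 * p.1.1.2.1 * p.1.2.1 * Real.cos p.2 +
      (p.1.1.2.2 - p.1.2.2) ^ 2) * (Real.cos (m * p.2) : ℂ)) := by
  have h2 : Measurable (fun p : (W3 × (ℝ × ℝ)) × ℝ =>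
      (p.1.1.1, p.1.1.2.1 ^ 2 + p.1.2.1 ^ 2 - 2 * p.1.1.2.1 * p.1.2.1 * Real.cos p.2 +
      (p.1.1.2.2 - p.1.2.2) ^ 2)) := by fun_prop
  have h1 := hk.comp h2
  have h3 : Measurable (fun p : (W3 × (ℝ × ℝ)) × ℝ => (Real.cos (m * p.2) : ℂ)) := by fun_prop
  exact h1.mul h3

theorem ang_meas2 (m : ℤ) {k : ℝ × ℝ → ℂ} (hk : Measurable k) : Measurable (fun p : W3 × (ℝ × ℝ) =>
      ∫ α in Ioc (-Real.pi) Real.pi,
      k (p.1.1, p.1.2.1 ^ 2 + p.2.1 ^ 2 - 2 * p.1.2.1 * p.2.1 * Real.cos α +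
      (p.1.2.2 - p.2.2) ^ 2) * (Real.cos (m * α) : ℂ)) := by
  have h := (ang_meas1 m hk).stronglyMeasurable
  exact (h.integral_prod_right' (ν := volume.restrict (Ioc (-Real.pi) Real.pi))).measurable

theorem angK_kw3_meas' (h : Bump M A θ) (Λ : ℝ) (m : ℤ) :
    Measurable (fun p : W3 × (ℝ × ℝ) => ∫ α in Ioc (-Real.pi) Real.pi,
      kw3 Λ θ p.1.1 (p.1.2.1 ^ 2 + p.2.1 ^ 2 - 2 * p.1.2.1 * p.2.1 * Real.cos α +
      (p.1.2.2 - p.2.2) ^ 2) * (Real.cos (m * α) : ℂ)) :=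
  ang_meas2 m (measurable_kw3 h Λ)

theorem angK_kw3_meas (h : Bump M A θ) (Λ : ℝ) (m : ℤ) :
    Measurable (Function.uncurry (fun (X : W3) (y : ℝ × ℝ) => angK (kw3 Λ θ X.1) m X.2.1 y.1 X.2.2 y.2)) := by
  have h1 := angK_kw3_meas' h Λ m
  have hpi : -Real.pi ≤ Real.pi := by linarith [Real.pi_pos]
  have h2 : (Function.uncurry (fun (X : W3) (y : ℝ × ℝ) => angK (kw3 Λ θ X.1) m X.2.1 y.1 X.2.2 y.2)) =
      (fun p : W3 × (ℝ × ℝ) => ∫ α in Ioc (-Real.pi) Real.pi,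
      kw3 Λ θ p.1.1 (p.1.2.1 ^ 2 + p.2.1 ^ 2 - 2 * p.1.2.1 * p.2.1 * Real.cos α +
      (p.1.2.2 - p.2.2) ^ 2) * (Real.cos (m * α) : ℂ)) := by
    funext p
    simp only [Function.uncurry_def, angK]
    rw [intervalIntegral.integral_of_le hpi]
  rw [h2]
  exact h1

theorem angK_norm_le {k : ℝ → ℂ} {C : ℝ} (hC : ∀ q, ‖k q‖ ≤ C) (m : ℤ) (r s z w : ℝ) :
    ‖angK k m r s z w‖ ≤ 2 * Real.pi * C := by
  unfold angK
  have h := intervalIntegral.norm_integral_le_of_norm_le_const (a := -Real.pi) (b := Real.pi) (C := C)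
    (f := fun α => k (r ^ 2 + s ^ 2 - 2 * r * s * Real.cos α + (z - w) ^ 2) * (Real.cos (m * α) : ℂ)) (by
      intro α _
      rw [norm_mul, Complex.norm_real]
      have h1 := hC (r ^ 2 + s ^ 2 - 2 * r * s * Real.cos α + (z - w) ^ 2)
      have h2 : ‖Real.cos (m * α)‖ ≤ 1 := Real.abs_cos_le_one _
      have h3 : 0 ≤ C := (norm_nonneg _).trans h1
      calc _ ≤ C * 1 := by gcongr
        _ = C := mul_one _)
  refine h.trans (le_of_eq ?_)
  rw [abs_of_nonneg (by linarith [Real.pi_pos])]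
  ring

theorem angK_kw3_norm (h : Bump M A θ) {Λ : ℝ} (hΛ : 0 < Λ) (m : ℤ) (X : W3) (y : ℝ × ℝ) :
    ‖angK (kw3 Λ θ X.1) m X.2.1 y.1 X.2.2 y.2‖ ≤ 2 * Real.pi * (16 * A * Λ ^ (-(1:ℝ))) :=
  angK_norm_le (norm_kw3_le h hΛ X.1) m _ _ _ _

theorem bilAdm_FormW (h : Bump M A θ) {Λ : ℝ} (hΛ : 0 < Λ) (m : ℤ) :
    BilAdm nu nuT (fun F G => FormW Λ θ m F G) := by
  have h1 := bilAdm_kernel (μ := nu2) (ν := nuT2) (μ' := nu) (ν' := nuT)
    (K := fun (X : W3) (y : ℝ × ℝ) => angK (kw3 Λ θ X.1) m X.2.1 y.1 X.2.2 y.2)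
    (angK_kw3_meas h Λ m) (angK_kw3_norm h hΛ m) nu2_le nuT2_le
  unfold FormW
  exact h1

theorem norm_FormW_le (h : Bump M A θ) {Λ : ℝ} (hΛ : 0 < Λ) (m : ℤ) {F : ℝ × ℝ → ℂ} (hF : Adm nu F)
    {G : W3 → ℂ} (hG : Adm nuT G) :
    ‖FormW Λ θ m F G‖ ≤ 2 * Real.pi * (16 * A * Λ ^ (-(1:ℝ))) * (∫ y, ‖F y‖ ∂nu) * ∫ y, ‖G y‖ ∂nuT := by
  have hA := h.nonneg
  have hpi := Real.pi_pos
  unfold FormW
  exact norm_kernel_form (μ := nu2) (ν := nuT2) (μ' := nu) (ν' := nuT)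
    (K := fun (X : W3) (y : ℝ × ℝ) => angK (kw3 Λ θ X.1) m X.2.1 y.1 X.2.2 y.2) (by positivity)
    (angK_kw3_norm h hΛ m) nu2_le nuT2_le hF hG

end ang

/-- dyadic slab in space-time -/
def QdT (b : ℤ) : Set W3 := {y | y.2.1 ∈ Ico ((2:ℝ) ^ b) ((2:ℝ) ^ (b + 1))}

theorem measurableSet_QdT (b : ℤ) : MeasurableSet (QdT b) :=
  (measurable_fst.comp measurable_snd) measurableSet_Ico

theorem QdT_log {b : ℤ} {y : W3} (h : y ∈ QdT b) : Int.log 2 y.2.1 = b :=
  Qd_log (y := y.2) h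

theorem mem_QdT_log {y : W3} (h : 0 < y.2.1) : y ∈ QdT (Int.log 2 y.2.1) := mem_Qd_log (y := y.2) h

theorem QdT_supp (b : ℤ) (F : W3 → ℂ) :
    ∀ y, (QdT b).indicator F y ≠ 0 → y.2.1 ∈ Icc ((2:ℝ) ^ b) (2 * (2:ℝ) ^ b) := by
  intro y hy
  by_contra h
  apply hy
  apply indicator_of_notMem
  intro h2
  apply h
  refine ⟨h2.1, ?_⟩
  have := h2.2.le
  rwa [zpow_add_one₀ (by norm_num), mul_comm] at this

/-- truncation -/
noncomputable def truncT (F : W3 → ℂ) (J : Finset ℤ) : W3 → ℂ := ∑ b ∈ J, (QdT b).indicator F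

open Classical in
theorem truncT_apply (F : W3 → ℂ) (J : Finset ℤ) (y : W3) :
    truncT F J y = if y ∈ QdT (Int.log 2 y.2.1) ∧ Int.log 2 y.2.1 ∈ J then F y else 0 := by
  unfold truncT
  rw [Finset.sum_apply]
  split_ifs with h
  · rw [Finset.sum_eq_single (Int.log 2 y.2.1)]
    · exact indicator_of_mem h.1 F
    · intro b _ hb
      apply indicator_of_notMem
      intro h2
      exact hb (QdT_log h2).symm
    · intro h3; exact absurd h.2 h3
  · apply Finset.sum_eq_zero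
    intro b hb
    apply indicator_of_notMem
    intro h2
    have h3 := QdT_log h2
    rw [← h3] at hb h2
    exact h ⟨h2, hb⟩

theorem norm_truncT_le (F : W3 → ℂ) (J : Finset ℤ) (y : W3) : ‖truncT F J y‖ ≤ ‖F y‖ := by
  classical
  rw [truncT_apply]
  split_ifs <;> simp

theorem Adm.truncT {F : W3 → ℂ} (hF : Adm nuT F) (J : Finset ℤ) : Adm nuT (P106.truncT F J) :=
  Adm.finsum J fun b _ => hF.indicator (measurableSet_QdT b)

theorem sum_nrmT_le {F : W3 → ℂ} (hF : Adm nuT F) {p : ℝ≥0∞} (hp : 1 ≤ p) (hp' : p ≠ ⊤)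
    (J : Finset ℤ) :
    (∑ b ∈ J, nrm p ((QdT b).indicator F) nuT ^ p.toReal) ^ (1 / p.toReal) ≤ nrm p F nuT := by
  have hp0 : p ≠ 0 := fun h => by rw [h] at hp; exact absurd hp (by norm_num)
  have hpp : 0 < p.toReal := ENNReal.toReal_pos hp0 hp'
  have hfin : ∫⁻ x, ‖F x‖ₑ ^ p.toReal ∂nuT ≠ ⊤ := by
    have := hF.eLpNorm_ne_top hp
    rw [eLpNorm_eq_lintegral_rpow_enorm_toReal hp0 hp'] at this
    intro h
    rw [h, ENNReal.top_rpow_of_pos (by positivity)] at this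
    exact this rfl
  have h1 : ∑ b ∈ J, nrm p ((QdT b).indicator F) nuT ^ p.toReal ≤ nrm p F nuT ^ p.toReal := by
    simp_rw [nrm_rpow _ hp hp']
    have hle : ∀ b, ∫⁻ x, ‖(QdT b).indicator F x‖ₑ ^ p.toReal ∂nuT ≤ ∫⁻ x, ‖F x‖ₑ ^ p.toReal ∂nuT := by
      intro b
      apply lintegral_mono
      intro x
      have : ‖(QdT b).indicator F x‖ₑ ≤ ‖F x‖ₑ := by
        rw [enorm_indicator_eq_indicator_enorm]
        exact indicator_le_self _ _ _
      simp only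
      gcongr
    rw [← ENNReal.toReal_sum (fun b _ => ne_top_of_le_ne_top hfin (hle b))]
    apply ENNReal.toReal_mono hfin
    rw [← lintegral_finsetSum]
    · apply lintegral_mono
      intro y
      simp only
      by_cases h : y ∈ QdT (Int.log 2 y.2.1) ∧ Int.log 2 y.2.1 ∈ J
      · rw [Finset.sum_eq_single (Int.log 2 y.2.1)]
        · rw [indicator_of_mem h.1]
        · intro b _ hb
          rw [indicator_of_notMem, enorm_zero, ENNReal.zero_rpow_of_pos hpp]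
          intro h2
          exact hb (QdT_log h2).symm
        · intro h3; exact absurd h.2 h3
      · rw [Finset.sum_eq_zero]
        · positivity
        · intro b hb
          rw [indicator_of_notMem, enorm_zero, ENNReal.zero_rpow_of_pos hpp]
          intro h2
          have h3 := QdT_log h2
          rw [← h3] at hb h2
          exact h ⟨h2, hb⟩
    · intro b _
      exact (hF.indicator (measurableSet_QdT b)).meas.enorm.pow_const _
  calc _ ≤ (nrm p F nuT ^ p.toReal) ^ (1 / p.toReal) := by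
        apply Real.rpow_le_rpow _ h1 (by positivity)
        exact Finset.sum_nonneg fun b _ => Real.rpow_nonneg nrm_nonneg _
    _ = nrm p F nuT := by
        rw [← Real.rpow_mul nrm_nonneg, mul_one_div, div_self hpp.ne', Real.rpow_one]

theorem ae_nuT : ∀ᵐ p ∂nuT, 0 < p.2.1 := by
  rw [nuT_eq, nuT2_eq]
  apply Measure.ae_smul_measure
  have hs : MeasurableSet {X : W3 | 0 < X.2.1} :=
    measurableSet_lt measurable_const (measurable_fst.comp measurable_snd)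
  exact (withDensity_absolutelyContinuous _ _).ae_le (ae_restrict_mem hs)

theorem truncT_tendsto {F : W3 → ℂ} (hF : Adm nuT F) :
    Tendsto (fun n : ℕ => ∫ y, ‖(F - P106.truncT F (Finset.Icc (-(n:ℤ)) n)) y‖ ∂nuT) atTop (𝓝 0) := by
  classical
  have h0 : (0:ℝ) = ∫ _y : W3, (0:ℝ) ∂nuT := by simp
  rw [h0]
  apply tendsto_integral_of_dominated_convergence (fun y => 2 * ‖F y‖)
  · intro n
    exact ((hF.sub (Adm.truncT hF _)).meas.norm).aestronglyMeasurable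
  · exact hF.int.norm.const_mul 2
  · intro n
    filter_upwards with y
    rw [norm_norm, Pi.sub_apply]
    refine (norm_sub_le _ _).trans ?_
    have := norm_truncT_le F (Finset.Icc (-(n:ℤ)) n) y
    linarith
  · filter_upwards [ae_nuT] with y hy
    apply tendsto_const_nhds.congr'
    filter_upwards [eventually_ge_atTop (Int.log 2 y.2.1).natAbs] with n hn
    have h1 : Int.log 2 y.2.1 ∈ Finset.Icc (-(n:ℤ)) n := by
      rw [Finset.mem_Icc]; omega
    rw [Pi.sub_apply, truncT_apply, if_pos ⟨mem_QdT_log hy, h1⟩, sub_self, norm_zero]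

/-- approximation by truncations -/
theorem truncT_limit {B : (ℝ × ℝ → ℂ) → (W3 → ℂ) → ℂ} (hB : BilAdm nu nuT B) {C : ℝ} (hC : 0 ≤ C)
    (hb : ∀ F G, Adm nu F → Adm nuT G → ‖B F G‖ ≤ C * (∫ y, ‖F y‖ ∂nu) * ∫ y, ‖G y‖ ∂nuT)
    {F : ℝ × ℝ → ℂ} {G : W3 → ℂ} (hF : Adm nu F) (hG : Adm nuT G) {X : ℝ}
    (hX : ∀ n : ℕ, ‖B (trunc F (Finset.Icc (-(n:ℤ)) n)) (truncT G (Finset.Icc (-(n:ℤ)) n))‖ ≤ X) :
    ‖B F G‖ ≤ X := by
  set iF := ∫ y, ‖F y‖ ∂nu with hiF
  set iG := ∫ y, ‖G y‖ ∂nuT with hiG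
  have h1 : ∀ n : ℕ, ‖B F G‖ ≤ X + (C * (∫ y, ‖(F - trunc F (Finset.Icc (-(n:ℤ)) n)) y‖ ∂nu) * iG +
      C * iF * (∫ y, ‖(G - truncT G (Finset.Icc (-(n:ℤ)) n)) y‖ ∂nuT)) := by
    intro n
    set Fn := trunc F (Finset.Icc (-(n:ℤ)) n) with hFn
    set Gn := truncT G (Finset.Icc (-(n:ℤ)) n) with hGn
    have aF : Adm nu Fn := hF.trunc _
    have aG : Adm nuT Gn := Adm.truncT hG _
    have e1 : B F G = B (F - Fn) G + (B Fn (G - Gn) + B Fn Gn) := by
      rw [← hB.add2 _ _ _ aF (hG.sub aG) aG, sub_add_cancel, ← hB.add1 _ _ _ (hF.sub aF) aF hG,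
        sub_add_cancel]
    have h2 := hb _ _ (hF.sub aF) hG
    have h3 := hb _ _ aF (hG.sub aG)
    have h4 := hX n
    have h5 : ∫ y, ‖Fn y‖ ∂nu ≤ iF := by
      apply integral_mono aF.int.norm hF.int.norm
      intro y
      exact norm_trunc_le F _ y
    have h6 : 0 ≤ ∫ y, ‖(G - Gn) y‖ ∂nuT := integral_nonneg fun _ => norm_nonneg _
    have h7 : C * (∫ y, ‖Fn y‖ ∂nu) * (∫ y, ‖(G - Gn) y‖ ∂nuT) ≤
        C * iF * (∫ y, ‖(G - Gn) y‖ ∂nuT) := by gcongr
    rw [e1]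
    calc _ ≤ ‖B (F - Fn) G‖ + (‖B Fn (G - Gn)‖ + ‖B Fn Gn‖) :=
          (norm_add_le _ _).trans (add_le_add le_rfl (norm_add_le _ _))
      _ ≤ _ := by linarith
  have h2 : Tendsto (fun n : ℕ => X + (C * (∫ y, ‖(F - trunc F (Finset.Icc (-(n:ℤ)) n)) y‖ ∂nu) * iG +
      C * iF * (∫ y, ‖(G - truncT G (Finset.Icc (-(n:ℤ)) n)) y‖ ∂nuT))) atTop
      (𝓝 (X + (C * 0 * iG + C * iF * 0))) := by
    have t1 := trunc_tendsto hF
    have t2 := truncT_tendsto hG
    exact tendsto_const_nhds.add (((tendsto_const_nhds.mul t1).mul tendsto_const_nhds).add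
      (tendsto_const_nhds.mul t2))
  have h3 := ge_of_tendsto' h2 h1
  simpa using h3

theorem blockT_expand {B : (ℝ × ℝ → ℂ) → (W3 → ℂ) → ℂ} (hB : BilAdm nu nuT B)
    {F : ℝ × ℝ → ℂ} {G : W3 → ℂ} (hF : Adm nu F) (hG : Adm nuT G) (J : Finset ℤ) :
    B (trunc F J) (truncT G J) = ∑ b ∈ J, ∑ a ∈ J, B ((Qd b).indicator F) ((QdT a).indicator G) := by
  have h1 := hB.sum1 J (fun _ => 1) (fun b => (Qd b).indicator F)
    (fun b _ => hF.indicator (measurableSet_Qd b)) (Adm.truncT hG J)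
  simp only [one_smul, one_mul] at h1
  unfold trunc
  rw [h1]
  unfold truncT
  apply Finset.sum_congr rfl
  intro b _
  have h2 := hB.sum2 J (fun _ => 1) (fun a => (QdT a).indicator G)
    (fun a _ => hG.indicator (measurableSet_QdT a)) (hF.indicator (measurableSet_Qd b))
  simp only [one_smul, one_mul] at h2
  exact h2

/-- sum over dyadic blocks -/
theorem blockT_sum {B : (ℝ × ℝ → ℂ) → (W3 → ℂ) → ℂ} (hB : BilAdm nu nuT B) {X r : ℝ} (hX : 0 ≤ X)
    (hr : 0 ≤ r) (hr1 : r < 1) {p q : ℝ≥0∞} (hp : 1 ≤ p) (hp' : p ≠ ⊤) (hq : 1 ≤ q) (hq' : q ≠ ⊤)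
    (hpq : p.toReal.HolderConjugate q.toReal) {F : ℝ × ℝ → ℂ} {G : W3 → ℂ} (hF : Adm nu F) (hG : Adm nuT G)
    (hb : ∀ a b : ℤ, ‖B ((Qd b).indicator F) ((QdT a).indicator G)‖ ≤
      X * kz r (a - b) * nrm p ((Qd b).indicator F) nu * nrm q ((QdT a).indicator G) nuT)
    (J : Finset ℤ) :
    ‖B (trunc F J) (truncT G J)‖ ≤ X * (∑' k, kz r k) * nrm p F nu * nrm q G nuT := by
  rw [blockT_expand hB hF hG J]
  exact sum_abs_bound (x := fun b => nrm p ((Qd b).indicator F) nu)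
    (y := fun a => nrm q ((QdT a).indicator G) nuT)
    (z := fun b a => B ((Qd b).indicator F) ((QdT a).indicator G))
    (fun _ => nrm_nonneg) (fun _ => nrm_nonneg) hX hr hr1 hpq hb J (sum_nrm_le hF hp hp' J)
    (sum_nrmT_le hG hq hq' J) nrm_nonneg

end Vale.Agent.P106
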