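import Vale.Agent.P106.A.Err

set_option linter.all false

open MeasureTheory Complex Set Filter
open scoped ENNReal NNReal ContDiff FourierTransform SchwartzMap ComplexConjugate Topology

namespace Vale.Agent.P106

open Vale.Agent.P117

section gen
variable {V : Type*} [NormedAddCommGroup V] [InnerProductSpace ℝ V] [FiniteDimensional ℝ V]
  [MeasurableSpace V] [BorelSpace V]

theorem fi_sub {a b : V → ℂ} (ha : Integrable a) (hb : Integrable b) (x : V) :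
    𝓕⁻ (fun ξ => a ξ - b ξ) x = 𝓕⁻ a x - 𝓕⁻ b x := by
  rw [Real.fourierInv_eq, Real.fourierInv_eq, Real.fourierInv_eq, ← integral_sub (int_phaseV ha x) (int_phaseV hb x)]
  congr 1
  ext v
  rw [smul_sub]

theorem fi_add {a b : V → ℂ} (ha : Integrable a) (hb : Integrable b) (x : V) :
    𝓕⁻ (fun ξ => a ξ + b ξ) x = 𝓕⁻ a x + 𝓕⁻ b x := by
  rw [Real.fourierInv_eq, Real.fourierInv_eq, Real.fourierInv_eq, ← integral_add (int_phaseV ha x) (int_phaseV hb x)]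
  congr 1
  ext v
  rw [smul_add]

theorem fi_const {a : V → ℂ} (c : ℂ) (x : V) : 𝓕⁻ (fun ξ => c * a ξ) x = c * 𝓕⁻ a x := by
  rw [Real.fourierInv_eq', Real.fourierInv_eq', ← integral_const_mul]
  congr 1
  ext v
  simp only [smul_eq_mul]
  ring

theorem adm_cv {K f : V → ℂ} (hKc : Continuous K) (hKi : Integrable K) {C : ℝ} (hC : ∀ x, ‖K x‖ ≤ C)
    (hf : Adm volume f) : Adm volume (cv K f) :=
  ⟨(continuous_cv hKc hC hf.int).measurable, integrable_cv hKi hf.int, _, fun x => norm_cv_le hC hf.int x⟩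

theorem nrm_cv_le {K f : V → ℂ} (hKc : Continuous K) (hKi : Integrable K) {B : ℝ} (hB : 0 ≤ B)
    (hL : ∫⁻ x, ‖K x‖ₑ ≤ ENNReal.ofReal B) (hf : Adm volume f) {p : ℝ≥0∞} (hp : 1 ≤ p) :
    nrm p (cv K f) volume ≤ B * nrm p f volume := by
  unfold nrm
  have h1 := young_L1 hKc.measurable hf.meas p hp
  have h2 : eLpNorm (cv K f) p volume ≤ ENNReal.ofReal B * eLpNorm f p volume := by
    refine h1.trans ?_
    gcongr
  have h3 := ENNReal.toReal_mono (ENNReal.mul_ne_top ENNReal.ofReal_ne_top (hf.eLpNorm_ne_top hp)) h2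
  rwa [ENNReal.toReal_mul, ENNReal.toReal_ofReal hB] at h3

end gen

/-- Schwartz version of the second cut-off -/
noncomputable def X1S : 𝓢(E3, ℂ) := compact_X1.toSchwartzMap contDiff_X1
theorem X1S_apply (ξ : E3) : X1S ξ = X1 ξ := rfl
noncomputable def K1 : 𝓢(E3, ℂ) := 𝓕⁻ X1S

theorem K1_bdd : ∃ C : ℝ, ∀ x, ‖K1 x‖ ≤ C := ⟨_, fun x => SchwartzMap.norm_le_seminorm ℝ _ x⟩

theorem fourier_K1 (ξ : E3) : 𝓕 (K1 : E3 → ℂ) ξ = X1 ξ := by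
  have : 𝓕 K1 = X1S := by unfold K1; simp
  rw [← SchwartzMap.fourier_coe, this, X1S_apply]

theorem f1_props {f : E3 → ℂ} (hf : Adm volume f) : Adm volume (cv K1 f) ∧
    (∀ ξ, 𝓕 (cv K1 f) ξ = X1 ξ * 𝓕 f ξ) ∧ (∀ m, Equi m f → Equi m (cv K1 f)) := by
  obtain ⟨C, hC⟩ := K1_bdd
  refine ⟨adm_cv K1.continuous K1.integrable hC hf, ?_, ?_⟩
  · intro ξ
    rw [fourier_cv K1.integrable hf.int, fourier_K1]
  · intro m he
    have h1 : cv K1 f = 𝓕⁻ (fun ξ => X1S ξ * 𝓕 f ξ) := cv_schwartz_eq X1S hf.int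
    rw [h1]
    have h2 : Equi m (fun ξ : E3 => q1 ‖ξ‖ * 𝓕 f ξ) := he.fourier.radial_mul q1
    exact h2.fourierInv

theorem kw3_eq_inv {Λ : ℝ} (hΛ : 0 < Λ) {M : ℕ} {A : ℝ} {θ : ℝ → ℂ} (h : Bump M A θ) (T : ℝ) :
    (fun x : E3 => kw3 Λ θ T (‖x‖ ^ 2)) = 𝓕⁻ (fun ξ : E3 => mult Λ (thT Λ T θ) (‖ξ‖ ^ 2)) := by
  ext x
  obtain ⟨A', h'⟩ := thT_bump (M := 4) (A := _) (h.mono (M' := 0) (Nat.zero_le _) le_rfl |> fun h0 => 
    (bump_of_compact h.smooth h.supp 4).choose_spec.2) Λ T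
  rw [← k3_thT h hΛ, k3_eq_inv hΛ h']

theorem V_identity {Λ T : ℝ} (hΛ : 0 < Λ) (hT : T ∈ Icc Λ (2 * Λ)) {f : E3 → ℂ} (hf : Adm volume f) (x : E3) :
    𝓕⁻ (fun ξ => wm1 X0 T ξ * 𝓕 f ξ) x = (((T / Λ) ^ (-(1/2:ℝ)) : ℝ) : ℂ) *
      (cv (fun x : E3 => kw3 Λ th0 T (‖x‖ ^ 2)) (cv K1 f) x - cv (KE Λ T) f x) := by
  obtain ⟨A, hA, hb⟩ := bump_of_compact contDiff_th0 (fun t ht => th0_supp ht) 4
  obtain ⟨A', h'⟩ := thT_bump hb Λ T
  obtain ⟨h1, h2, _⟩ := f1_props hf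
  have hmi : Integrable (fun ξ : E3 => mult Λ (thT Λ T th0) (‖ξ‖ ^ 2)) := integrable_mult (by simp) h' hΛ
  have hESi := integrable_ES hΛ hT.1
  rw [kw3_eq_inv hΛ hb, cv_inv_eq hmi h1.int]
  unfold KE
  rw [cv_inv_eq hESi hf.int]
  have hFb : ∀ {g : E3 → ℂ}, Integrable g → ∀ {G : E3 → ℂ}, Integrable G → Integrable (fun ξ => G ξ * 𝓕 g ξ) := by
    intro g hg G hG
    apply hG.mul_bdd (c := ∫ v, ‖g v‖) (continuous_fourier hg).aestronglyMeasurable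
    filter_upwards with x
    exact norm_fourier_le g x
  rw [← fi_sub (hFb h1.int hmi) (hFb hf.int hESi), ← fi_const]
  have e : (fun ξ => wm1 X0 T ξ * 𝓕 f ξ) = fun ξ => (((T / Λ) ^ (-(1/2:ℝ)) : ℝ) : ℂ) *
      (mult Λ (thT Λ T th0) (‖ξ‖ ^ 2) * 𝓕 (cv K1 f) ξ - ES Λ T ξ * 𝓕 f ξ) := by
    ext ξ
    rw [wave_split hΛ hT, h2]
    unfold ES mw
    ring
  rw [e]

/-- **bound for the frequency localized half wave operator** -/
theorem V_op (hD2 : StD2) (hD3 : StD3) {P : ℝ} (hP : 2 < P) {e : ℝ} (he : max (1 - 3 * (1 / P)) 0 < e) :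
    ∃ (K : ℕ) (C : ℝ), 0 ≤ C ∧
    ∀ (Λ : ℝ), 1 ≤ Λ → ∀ (m : ℤ) (f : E3 → ℂ), Adm volume f → Equi m f →
    ∫⁻ T in Icc Λ (2 * Λ), ∫⁻ x : E3, ‖𝓕⁻ (fun ξ => wm1 X0 T ξ * 𝓕 f ξ) x‖ₑ ^ P ≤
      ENNReal.ofReal ((C * Λ ^ (1/P + e) * (1 + |(m:ℝ)|) ^ K * nrm (ENNReal.ofReal P) f volume) ^ P) := by
  obtain ⟨M, K, C1, hC1, h1⟩ := W_op hD2 hD3 hP he
  obtain ⟨C2, hC2, h2⟩ := Err_op hP he
  obtain ⟨A, hA, hb⟩ := bump_of_compact contDiff_th0 (fun t ht => th0_supp ht) M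
  have hP0 : 0 < P := by linarith
  set k1 : ℝ := ∫ x, ‖K1 x‖ with hk1
  have hk10 : 0 ≤ k1 := integral_nonneg fun _ => norm_nonneg _
  have hk1e : ∫⁻ x, ‖K1 x‖ₑ ≤ ENNReal.ofReal k1 := by
    rw [hk1, ofReal_integral_norm_eq_lintegral_enorm K1.integrable]
  have hP1 : (1:ℝ≥0∞) ≤ ENNReal.ofReal P := by
    rw [← ENNReal.ofReal_one]; exact ENNReal.ofReal_le_ofReal (by linarith)
  refine ⟨K, 2 * (C1 * A * k1 + C2), by positivity, ?_⟩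
  intro Λ hΛ m f hf hfe
  have hΛ0 : 0 < Λ := by linarith
  obtain ⟨g1, g2, g3⟩ := f1_props hf
  have n0 : 0 ≤ nrm (ENNReal.ofReal P) f volume := nrm_nonneg
  have hn1 := nrm_cv_le K1.continuous K1.integrable hk10 hk1e hf hP1
  set n := nrm (ENNReal.ofReal P) f volume with hn
  set Bd : ℝ := (C1 * A * k1 + C2) * Λ ^ (1/P + e) * (1 + |(m:ℝ)|) ^ K * n with hBd
  have hBd0 : 0 ≤ Bd := by positivity
  have hm1 : (1:ℝ) ≤ (1 + |(m:ℝ)|) ^ K := one_le_pow₀ (by linarith [abs_nonneg (m:ℝ)])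
  -- the main part
  have hW : ∫⁻ T in Icc Λ (2 * Λ), ∫⁻ x : E3, ‖cv (fun x : E3 => kw3 Λ th0 T (‖x‖ ^ 2)) (cv K1 f) x‖ₑ ^ P ≤
      ENNReal.ofReal (Bd ^ P) := by
    refine (h1 Λ hΛ A th0 hb m _ g1 (g3 m hfe)).trans ?_
    apply ENNReal.ofReal_le_ofReal
    apply Real.rpow_le_rpow _ _ hP0.le
    · have : 0 ≤ nrm (ENNReal.ofReal P) (cv K1 f) volume := nrm_nonneg
      positivity
    · rw [hBd]
      calc C1 * A * Λ ^ (1/P + e) * (1 + |(m:ℝ)|) ^ K * nrm (ENNReal.ofReal P) (cv K1 f) volume ≤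
          C1 * A * Λ ^ (1/P + e) * (1 + |(m:ℝ)|) ^ K * (k1 * n) := by gcongr
        _ = C1 * A * k1 * Λ ^ (1/P + e) * (1 + |(m:ℝ)|) ^ K * n := by ring
        _ ≤ _ := by
          have : C1 * A * k1 ≤ C1 * A * k1 + C2 := by linarith
          gcongr
  -- the error
  set Ed : ℝ := C2 * Λ ^ e * n with hEd
  have hEd0 : 0 ≤ Ed := by positivity
  have hE2 : ENNReal.ofReal (Ed ^ P) * ENNReal.ofReal Λ ≤ ENNReal.ofReal (Bd ^ P) := by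
    rw [← ENNReal.ofReal_mul (by positivity)]
    apply ENNReal.ofReal_le_ofReal
    have e1 : Ed ^ P * Λ = (Ed * Λ ^ (1/P)) ^ P := by
      rw [Real.mul_rpow hEd0 (by positivity), ← Real.rpow_mul hΛ0.le, one_div, inv_mul_cancel₀ hP0.ne', Real.rpow_one]
    rw [e1]
    apply Real.rpow_le_rpow (by positivity) _ hP0.le
    rw [hEd, hBd]
    calc C2 * Λ ^ e * n * Λ ^ (1/P) = C2 * (Λ ^ (1/P) * Λ ^ e) * n := by ring
      _ = C2 * Λ ^ (1/P + e) * 1 * n := by rw [← Real.rpow_add hΛ0]; ring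
      _ ≤ (C1 * A * k1 + C2) * Λ ^ (1/P + e) * (1 + |(m:ℝ)|) ^ K * n := by
        have : C2 ≤ C1 * A * k1 + C2 := by
          have : 0 ≤ C1 * A * k1 := by positivity
          linarith
        gcongr
  have hpt : ∀ T ∈ Icc Λ (2 * Λ), ∫⁻ x : E3, ‖𝓕⁻ (fun ξ => wm1 X0 T ξ * 𝓕 f ξ) x‖ₑ ^ P ≤
      (2:ℝ≥0∞) ^ (P - 1) * ((∫⁻ x : E3, ‖cv (fun x : E3 => kw3 Λ th0 T (‖x‖ ^ 2)) (cv K1 f) x‖ₑ ^ P) +
        ENNReal.ofReal (Ed ^ P)) := by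
    intro T hT
    have hT0 : 0 < T := by linarith [hT.1]
    have hWc : Continuous (cv (fun x : E3 => kw3 Λ th0 T (‖x‖ ^ 2)) (cv K1 f)) :=
      continuous_cv ((continuous_kw3 hb hΛ0 T).comp (by fun_prop)) (fun x => norm_kw3_le hb hΛ0 T _) g1.int
    calc ∫⁻ x : E3, ‖𝓕⁻ (fun ξ => wm1 X0 T ξ * 𝓕 f ξ) x‖ₑ ^ P ≤
          ∫⁻ x : E3, (2:ℝ≥0∞) ^ (P - 1) * (‖cv (fun x : E3 => kw3 Λ th0 T (‖x‖ ^ 2)) (cv K1 f) x‖ₑ ^ P +
            ‖cv (KE Λ T) f x‖ₑ ^ P) := by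
          apply lintegral_mono
          intro x
          simp only
          rw [V_identity hΛ0 hT hf]
          have h5 : ‖(((T / Λ) ^ (-(1/2:ℝ)) : ℝ) : ℂ) *
              (cv (fun x : E3 => kw3 Λ th0 T (‖x‖ ^ 2)) (cv K1 f) x - cv (KE Λ T) f x)‖ₑ ≤
              ‖cv (fun x : E3 => kw3 Λ th0 T (‖x‖ ^ 2)) (cv K1 f) x‖ₑ + ‖cv (KE Λ T) f x‖ₑ := by
            rw [enorm_mul]
            have h6 : ‖(((T / Λ) ^ (-(1/2:ℝ)) : ℝ) : ℂ)‖ₑ ≤ 1 := by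
              rw [← ofReal_norm, Complex.norm_real, Real.norm_of_nonneg (by positivity), ← ENNReal.ofReal_one]
              apply ENNReal.ofReal_le_ofReal
              apply Real.rpow_le_one_of_one_le_of_nonpos _ (by norm_num)
              rw [le_div_iff₀ hΛ0]; linarith [hT.1]
            calc _ ≤ 1 * ‖cv (fun x : E3 => kw3 Λ th0 T (‖x‖ ^ 2)) (cv K1 f) x - cv (KE Λ T) f x‖ₑ := by gcongr
              _ ≤ _ := by rw [one_mul]; exact enorm_sub_le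
          calc _ ≤ (‖cv (fun x : E3 => kw3 Λ th0 T (‖x‖ ^ 2)) (cv K1 f) x‖ₑ + ‖cv (KE Λ T) f x‖ₑ) ^ P := by gcongr
            _ ≤ _ := ENNReal.rpow_add_le_mul_rpow_add_rpow _ _ (by linarith)
      _ = (2:ℝ≥0∞) ^ (P - 1) * ((∫⁻ x : E3, ‖cv (fun x : E3 => kw3 Λ th0 T (‖x‖ ^ 2)) (cv K1 f) x‖ₑ ^ P) +
            ∫⁻ x : E3, ‖cv (KE Λ T) f x‖ₑ ^ P) := by
          rw [lintegral_const_mul' _ _ (ENNReal.rpow_ne_top_of_nonneg (by linarith) ENNReal.ofNat_ne_top),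
            lintegral_add_left (hWc.measurable.enorm.pow_const _)]
      _ ≤ _ := by
          gcongr
          exact h2 Λ T hΛ hT f hf
  calc ∫⁻ T in Icc Λ (2 * Λ), ∫⁻ x : E3, ‖𝓕⁻ (fun ξ => wm1 X0 T ξ * 𝓕 f ξ) x‖ₑ ^ P ≤
        ∫⁻ T in Icc Λ (2 * Λ), (2:ℝ≥0∞) ^ (P - 1) * ((∫⁻ x : E3, ‖cv (fun x : E3 => kw3 Λ th0 T (‖x‖ ^ 2)) (cv K1 f) x‖ₑ ^ P) +
        ENNReal.ofReal (Ed ^ P)) := setLIntegral_mono' measurableSet_Icc hpt
    _ = (2:ℝ≥0∞) ^ (P - 1) * ((∫⁻ T in Icc Λ (2 * Λ), ∫⁻ x : E3, ‖cv (fun x : E3 => kw3 Λ th0 T (‖x‖ ^ 2)) (cv K1 f) x‖ₑ ^ P) +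
        ENNReal.ofReal (Ed ^ P) * ENNReal.ofReal Λ) := by
        rw [lintegral_const_mul' _ _ (ENNReal.rpow_ne_top_of_nonneg (by linarith) ENNReal.ofNat_ne_top),
          lintegral_add_right _ measurable_const, setLIntegral_const, Real.volume_Icc]
        congr 4
        ring
    _ ≤ (2:ℝ≥0∞) ^ (P - 1) * (ENNReal.ofReal (Bd ^ P) + ENNReal.ofReal (Bd ^ P)) := by gcongr
    _ = ENNReal.ofReal ((2 * Bd) ^ P) := by
        rw [Real.mul_rpow (by norm_num) hBd0, ENNReal.ofReal_mul (by positivity), ← two_mul, ← mul_assoc]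
        congr 1
        have : (2:ℝ≥0∞) ^ (P - 1) * 2 = (2:ℝ≥0∞) ^ P := by
          conv_lhs => rw [← ENNReal.rpow_one 2]
          rw [← ENNReal.rpow_mul, ← ENNReal.rpow_add _ _ (by norm_num) (by norm_num)]
          congr 1; ring
        rw [this, ← ENNReal.ofReal_rpow_of_pos (by norm_num)]
        norm_num
    _ = _ := by
        congr 2
        rw [hBd]; ring

end Vale.Agent.P106
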