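import Vale.Agent.P106.A.Delta

set_option linter.all false

open MeasureTheory Complex Set Filter
open scoped ENNReal NNReal ContDiff FourierTransform SchwartzMap ComplexConjugate Topology

namespace Vale.Agent.P106

open Vale.Agent.P117

section gen
variable {V : Type*} [NormedAddCommGroup V] [InnerProductSpace ℝ V] [FiniteDimensional ℝ V]
  [MeasurableSpace V] [BorelSpace V]

/-- half wave multiplier with cut-off -/
noncomputable def wm1 (X : V → ℂ) (υ : ℝ) (ξ : V) : ℂ := cexp (2 * Real.pi * I * (υ * ‖ξ‖ : ℝ)) * X ξ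

theorem norm_ph1 (a : ℝ) : ‖cexp (2 * Real.pi * I * (a : ℝ))‖ = 1 := by
  have : (2 * Real.pi * I * (a : ℝ) : ℂ) = ((2 * Real.pi * a : ℝ) : ℂ) * I := by push_cast; ring
  rw [this, Complex.norm_exp_ofReal_mul_I]

theorem norm_wm1 (X : V → ℂ) (υ : ℝ) (ξ : V) : ‖wm1 X υ ξ‖ = ‖X ξ‖ := by
  unfold wm1; rw [norm_mul, norm_ph1, one_mul]

/-- smooth version of the norm -/
noncomputable def snm (r : ℝ) (ξ : V) : ℝ := Real.smoothTransition (‖ξ‖ ^ 2 / r ^ 2 - 1) * ‖ξ‖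

theorem contDiff_snm {r : ℝ} (hr : 0 < r) : ContDiff ℝ ∞ (snm r : V → ℝ) := by
  rw [contDiff_iff_contDiffAt]
  intro ξ
  by_cases hξ : ξ = 0
  · have : (snm r : V → ℝ) =ᶠ[𝓝 ξ] fun _ => 0 := by
      have hb : Metric.ball (0:V) r ∈ 𝓝 ξ := by rw [hξ]; exact Metric.ball_mem_nhds _ hr
      filter_upwards [hb] with ζ hζ
      unfold snm
      have h1 : ‖ζ‖ < r := by simpa using hζ
      have h2 : ‖ζ‖ ^ 2 / r ^ 2 ≤ 1 := by
        rw [div_le_one (by positivity)]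
        exact pow_le_pow_left₀ (norm_nonneg _) h1.le 2
      rw [Real.smoothTransition.zero_of_nonpos (by linarith), zero_mul]
    exact contDiffAt_const.congr_of_eventuallyEq this
  · have h1 : ContDiff ℝ ∞ (fun ξ : V => ‖ξ‖ ^ 2 / r ^ 2 - 1) := by
      have := contDiff_norm_sq ℝ (E := V) (n := ∞)
      exact (this.div_const _).sub contDiff_const
    exact (contDiff_st.comp h1).contDiffAt.mul (contDiffAt_norm ℝ hξ)

theorem snm_eq {r : ℝ} (hr : 0 < r) {ξ : V} (h : 2 * r ≤ ‖ξ‖) : snm r ξ = ‖ξ‖ := by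
  unfold snm
  have h2 : 4 ≤ ‖ξ‖ ^ 2 / r ^ 2 := by
    rw [le_div_iff₀ (by positivity)]
    nlinarith
  rw [Real.smoothTransition.one_of_one_le (by linarith), one_mul]

theorem iteratedDeriv_cexp_lin (c : ℂ) (n : ℕ) : iteratedDeriv n (fun t : ℝ => cexp (c * t)) =
    fun t : ℝ => c ^ n * cexp (c * t) := by
  induction n with
  | zero => ext t; simp
  | succ n ih =>
    rw [iteratedDeriv_succ, ih]
    ext t
    have h1 : HasDerivAt (fun t : ℝ => c * (t : ℂ)) c t := by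
      simpa using (Complex.ofRealCLM.hasDerivAt (x := t)).const_mul c
    have h2 : HasDerivAt (fun t : ℝ => c ^ n * cexp (c * t)) (c ^ n * (cexp (c * t) * c)) t :=
      (h1.cexp).const_mul _
    rw [h2.deriv]
    ring

/-- uniform derivative bounds for the half wave multiplier -/
theorem wm1_DB (X : V → ℂ) (hX : ContDiff ℝ ∞ X) (hXc : HasCompactSupport X) {r0 : ℝ} (hr0 : 0 < r0)
    (hX0 : ∀ ξ, X ξ ≠ 0 → r0 ≤ ‖ξ‖) (n : ℕ) :
    (∀ υ, ContDiff ℝ ∞ (wm1 X υ)) ∧ ∃ C : ℝ, 0 ≤ C ∧ ∀ (υ : ℝ) (ξ : V), DB n (C * (1 + |υ|) ^ n) (wm1 X υ) ξ := by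
  have hr : 0 < r0 / 2 := by positivity
  have hS := contDiff_snm (V := V) hr
  have heq : ∀ υ, wm1 X υ = fun ξ => cexp ((2 * Real.pi * I * υ) * (snm (r0/2) ξ : ℝ)) * X ξ := by
    intro υ
    ext ξ
    unfold wm1
    by_cases h : X ξ = 0
    · rw [h]; ring
    · rw [snm_eq hr (by linarith [hX0 ξ h])]
      congr 2
      push_cast; ring
  have hg : ∀ υ : ℝ, ContDiff ℝ ∞ (fun t : ℝ => cexp ((2 * Real.pi * I * υ) * (t : ℂ))) := by
    intro υ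
    have h4 : ContDiff ℝ ∞ (fun t : ℝ => (t : ℂ)) := Complex.ofRealCLM.contDiff
    fun_prop
  have hgS : ∀ υ : ℝ, ContDiff ℝ ∞ (fun ξ : V => cexp ((2 * Real.pi * I * υ) * (snm (r0/2) ξ : ℝ))) :=
    fun υ => (hg υ).comp hS
  refine ⟨fun υ => by rw [heq]; exact (hgS υ).mul hX, ?_⟩
  obtain ⟨D, hD, hDS⟩ := DB.on_compact hS hXc.isCompact n
  obtain ⟨B, hB, hBX⟩ := DB.on_compact hX hXc.isCompact n
  have hpi := Real.pi_pos
  refine ⟨2 ^ n * (n.factorial * (2 * Real.pi) ^ n * D ^ n) * B, by positivity, ?_⟩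
  intro υ ξ
  by_cases hξ : ξ ∈ tsupport X
  · rw [heq]
    have hA : DB n ((2 * Real.pi) ^ n * (1 + |υ|) ^ n) (fun t : ℝ => cexp ((2 * Real.pi * I * υ) * (t : ℂ)))
        (snm (r0/2) ξ) := by
      apply DB.of_bound_real
      intro i hi t
      rw [iteratedDeriv_cexp_lin, norm_mul, norm_pow]
      have e1 : ‖(2 * Real.pi * I * υ : ℂ)‖ = 2 * Real.pi * |υ| := by
        rw [norm_mul, norm_mul, norm_mul]; simp [abs_of_pos hpi]
      have e2 : ‖cexp ((2 * Real.pi * I * υ) * (t : ℂ))‖ = 1 := by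
        have : ((2 * Real.pi * I * υ) * (t : ℂ)) = ((2 * Real.pi * υ * t : ℝ) : ℂ) * I := by push_cast; ring
        rw [this, Complex.norm_exp_ofReal_mul_I]
      rw [e1, e2, mul_one, ← mul_pow]
      have h1 : 2 * Real.pi * |υ| ≤ 2 * Real.pi * (1 + |υ|) := by nlinarith [abs_nonneg υ]
      have h2 : 1 ≤ 2 * Real.pi * (1 + |υ|) := by nlinarith [abs_nonneg υ, Real.pi_gt_three]
      calc (2 * Real.pi * |υ|) ^ i ≤ (2 * Real.pi * (1 + |υ|)) ^ i := by gcongr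
        _ ≤ (2 * Real.pi * (1 + |υ|)) ^ n := pow_le_pow_right₀ h2 hi
    have h3 := DB.comp (hg υ) hS hA (hDS ξ hξ) hD
    have h4 := DB.mul (hgS υ) hX h3 (hBX ξ hξ)
    refine h4.mono (le_of_eq ?_)
    ring
  · apply DB.of_eventually_zero (by positivity)
    intro h
    apply hξ
    exact closure_mono (fun ζ hζ => right_ne_zero_of_mul hζ) h

/-- rapid decay of the half wave kernel -/
theorem wave_decay (X : V → ℂ) (hX : ContDiff ℝ ∞ X) (hXc : HasCompactSupport X) {r0 : ℝ} (hr0 : 0 < r0)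
    (hX0 : ∀ ξ, X ξ ≠ 0 → r0 ≤ ‖ξ‖) (n : ℕ) :
    ∃ C : ℝ, 0 ≤ C ∧ ∀ (υ : ℝ) (w : V), (1 + ‖w‖) ^ n * ‖𝓕⁻ (wm1 X υ) w‖ ≤ C * (1 + |υ|) ^ n := by
  obtain ⟨hc, C1, hC1, h1⟩ := wm1_DB X hX hXc hr0 hX0 n
  obtain ⟨R, hR⟩ : ∃ R : ℝ, ∀ ξ, X ξ ≠ 0 → ‖ξ‖ ≤ R := by
    obtain ⟨R, hR⟩ := hXc.isCompact.isBounded.exists_norm_le
    exact ⟨R, fun ξ hξ => hR ξ (subset_tsupport _ hξ)⟩
  obtain ⟨C2, hC2, h2⟩ := fourier_decay (V := V) n R
  refine ⟨C2 * C1, by positivity, ?_⟩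
  intro υ w
  have h3 := h2 (wm1 X υ) (C1 * (1 + |υ|) ^ n) (hc υ) (fun ξ hξ => hR ξ (right_ne_zero_of_mul hξ))
    (fun ξ _ => h1 υ ξ) (by positivity) (-w)
  rw [norm_neg] at h3
  rw [Real.fourierInv_eq_fourier_neg, mul_assoc]
  exact h3

theorem integrable_wm1 (X : V → ℂ) (hX : ContDiff ℝ ∞ X) (hXc : HasCompactSupport X) (υ : ℝ) :
    Integrable (wm1 X υ) := by
  have h1 : Integrable X := hX.continuous.integrable_of_hasCompactSupport hXc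
  unfold wm1
  apply h1.bdd_mul (c := 1)
  · apply Continuous.aestronglyMeasurable
    fun_prop
  · filter_upwards with ξ
    rw [norm_ph1]

theorem wave_L2 (X : V → ℂ) (hX : ContDiff ℝ ∞ X) (hXc : HasCompactSupport X) (υ : ℝ) :
    ∫⁻ x, ‖𝓕⁻ (wm1 X υ) x‖ₑ ^ 2 ≤ ∫⁻ ξ, ‖X ξ‖ₑ ^ 2 := by
  have hi := integrable_wm1 X hX hXc υ
  have hm : Measurable (wm1 X υ) := by
    unfold wm1
    have := hX.continuous.measurable
    fun_prop
  calc ∫⁻ x, ‖𝓕⁻ (wm1 X υ) x‖ₑ ^ 2 = ∫⁻ x, ‖𝓕 (wm1 X υ) (-x)‖ₑ ^ 2 := by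
        congr 1
        ext x
        rw [Real.fourierInv_eq_fourier_neg]
    _ = ∫⁻ x, ‖𝓕 (wm1 X υ) x‖ₑ ^ 2 := lintegral_neg_eq_self (fun x : V => ‖𝓕 (wm1 X υ) x‖ₑ ^ 2)
    _ ≤ ∫⁻ x, ‖wm1 X υ x‖ₑ ^ 2 := lintegral_sq_fourier_le hi hm
    _ = _ := by
        congr 1
        ext ξ
        have : ‖wm1 X υ ξ‖ₑ = ‖X ξ‖ₑ := by rw [← ofReal_norm, norm_wm1, ofReal_norm]
        rw [this]

end gen

/-- crude `L¹` bound for the three dimensional half wave kernel -/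
theorem wave_L1 (X : E3 → ℂ) (hX : ContDiff ℝ ∞ X) (hXc : HasCompactSupport X) {r0 : ℝ} (hr0 : 0 < r0)
    (hX0 : ∀ ξ, X ξ ≠ 0 → r0 ≤ ‖ξ‖) {ε : ℝ} (hε : 0 < ε) :
    ∃ C : ℝ, 0 ≤ C ∧ ∀ υ : ℝ, ∫⁻ x : E3, ‖𝓕⁻ (wm1 X υ) x‖ₑ ≤ ENNReal.ofReal (C * (1 + |υ|) ^ (3/2 + ε)) := by
  set e : ℝ := 2 * ε / 3 with he
  have he0 : 0 < e := by positivity
  set n : ℕ := ⌈(3/2 + 3 * e) / (2 * e)⌉₊ + 2 with hn
  have hn2 : 2 ≤ n := by omega
  have hne : 3/2 + 3 * e ≤ 2 * n * e := by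
    have h1 := Nat.le_ceil ((3/2 + 3 * e) / (2 * e))
    have h2 : (3/2 + 3 * e) / (2 * e) ≤ (n : ℝ) := by
      refine h1.trans ?_
      rw [hn]; push_cast; linarith
    rw [div_le_iff₀ (by positivity)] at h2
    linarith
  obtain ⟨C1, hC1, h1⟩ := wave_decay X hX hXc hr0 hX0 (2 * n)
  obtain ⟨C2, hC2, h2⟩ := L1_split n hn2
  have hfin : ∫⁻ ξ : E3, ‖X ξ‖ₑ ^ 2 < ⊤ := by
    have hc : Continuous (fun ξ => ‖X ξ‖ ^ 2) := by
      have := hX.continuous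
      fun_prop
    have hcs : HasCompactSupport (fun ξ => ‖X ξ‖ ^ 2) := by
      apply hXc.mono'
      intro ξ hξ
      apply subset_tsupport
      intro h
      apply hξ
      simp [h]
    have := (hc.integrable_of_hasCompactSupport (μ := (volume : Measure E3)) hcs).hasFiniteIntegral
    rw [HasFiniteIntegral] at this
    refine lt_of_le_of_lt (le_of_eq ?_) this
    congr 1
    ext ξ
    rw [← ofReal_norm, ← ofReal_norm, Real.norm_of_nonneg (by positivity), ENNReal.ofReal_pow (norm_nonneg _)]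
  set C3 : ℝ := ((∫⁻ ξ : E3, ‖X ξ‖ₑ ^ 2) ^ (1/2:ℝ)).toReal with hC3
  have hC30 : 0 ≤ C3 := ENNReal.toReal_nonneg
  have hC3e : (∫⁻ ξ : E3, ‖X ξ‖ₑ ^ 2) ^ (1/2:ℝ) = ENNReal.ofReal C3 := by
    rw [hC3, ENNReal.ofReal_toReal]
    exact (ENNReal.rpow_lt_top_of_nonneg (by norm_num) hfin.ne).ne
  set v := volume.real (Metric.ball (0:E3) 1) with hv
  have hv0 : 0 ≤ v := ENNReal.toReal_nonneg
  refine ⟨C3 * v ^ (1/2:ℝ) + C2 * C1, by positivity, ?_⟩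
  intro υ
  set L : ℝ := 1 + |υ| with hL
  have hL1 : 1 ≤ L := by rw [hL]; linarith [abs_nonneg υ]
  have hL0 : 0 < L := by linarith
  set ρ : ℝ := L ^ (1 + e) with hρ
  have hρ0 : 0 < ρ := by positivity
  have hKm : Continuous (𝓕⁻ (wm1 X υ)) := continuous_fourierInv (integrable_wm1 X hX hXc υ)
  have h4 := h2 _ hKm.measurable ρ hρ0 (C1 * L ^ (2 * n)) (by positivity) (by
    intro x _
    have h5 := h1 υ x
    refine le_trans ?_ h5
    gcongr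
    linarith [norm_nonneg x])
  refine h4.trans ?_
  have near : ∫⁻ x in Metric.ball (0:E3) ρ, ‖𝓕⁻ (wm1 X υ) x‖ₑ ≤
      ENNReal.ofReal (C3 * v ^ (1/2:ℝ) * L ^ (3/2 + ε)) := by
    refine (near_L2 hKm.measurable ρ).trans ?_
    calc _ ≤ (∫⁻ ξ : E3, ‖X ξ‖ₑ ^ 2) ^ (1/2 : ℝ) * (volume (Metric.ball (0:E3) ρ)) ^ (1/2 : ℝ) :=
          mul_le_mul_left (ENNReal.rpow_le_rpow (wave_L2 X hX hXc υ) (by norm_num)) _
      _ = ENNReal.ofReal C3 * ENNReal.ofReal (ρ ^ (3/2:ℝ) * v ^ (1/2:ℝ)) := by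
          rw [vol_ball3 hρ0, hC3e]
      _ = ENNReal.ofReal (C3 * (ρ ^ (3/2:ℝ) * v ^ (1/2:ℝ))) := by
          rw [← ENNReal.ofReal_mul (by positivity)]
      _ = _ := by
          congr 1
          have e2 : ρ ^ (3/2:ℝ) = L ^ (3/2 + ε) := by
            rw [hρ, ← Real.rpow_mul hL0.le]
            congr 1
            rw [he]; ring
          rw [e2]
          ring
  have far : C2 * (C1 * L ^ (2 * n)) * (ρ ^ 3 / ρ ^ (2 * n)) ≤ C2 * C1 * L ^ (3/2 + ε) := by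
    have e1 : ρ ^ 3 / ρ ^ (2 * n) = L ^ ((1 + e) * (3 - 2 * n)) := by
      rw [hρ, ← Real.rpow_natCast, ← Real.rpow_natCast, ← Real.rpow_mul hL0.le, ← Real.rpow_mul hL0.le,
        ← Real.rpow_sub hL0]
      congr 1
      push_cast
      ring
    have e2 : L ^ (2 * n) = L ^ (2 * n : ℝ) := by
      rw [← Real.rpow_natCast]; push_cast; rfl
    have e3 : L ^ (2 * n : ℝ) * L ^ ((1 + e) * (3 - 2 * n)) ≤ L ^ (3/2 + ε) := by
      rw [← Real.rpow_add hL0]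
      apply Real.rpow_le_rpow_of_exponent_le hL1
      have : 2 * (n:ℝ) + (1 + e) * (3 - 2 * n) = 3 + 3 * e - 2 * n * e := by ring
      rw [this]
      linarith
    rw [e1, e2]
    calc C2 * (C1 * L ^ (2 * n : ℝ)) * L ^ ((1 + e) * (3 - 2 * n)) =
        C2 * C1 * (L ^ (2 * n : ℝ) * L ^ ((1 + e) * (3 - 2 * n))) := by ring
      _ ≤ _ := by gcongr
  calc _ ≤ ENNReal.ofReal (C3 * v ^ (1/2:ℝ) * L ^ (3/2 + ε)) + ENNReal.ofReal (C2 * C1 * L ^ (3/2 + ε)) :=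
        add_le_add near (ENNReal.ofReal_le_ofReal far)
    _ = _ := by
        rw [← ENNReal.ofReal_add (by positivity) (by positivity)]
        congr 1; ring

end Vale.Agent.P106
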